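import Vale.Agent.P092.H859.CLI

/-!
P092 (helper859), blocks C-LIM / D0-ENG, part 9: negligible functions, covariance, commutation with
the coefficients and with contracted elements, in asymptotic form (no fullness assumed).
-/

set_option linter.all false

open scoped InnerProductSpace Pointwise
open Filter Topology ContinuousLinearMap TopologicalSpace

namespace Vale.Agent.P092.H859.CL

open Vale.Agent.P092.H553 (ind ind_nonneg ind_le_one abs_ind_le ind_pos ind_neg)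

section leg

variable {Γ D K : Type} [Group Γ] [Group D] [NormedAddCommGroup K] [InnerProductSpace ℂ K]
  [CompleteSpace K] {mp : (Γ → ℝ) → (K →L[ℂ] K)} {R : D → (K →L[ℂ] K)}
  {lam : Γ → (K →L[ℂ] K)} {W : Set (K →L[ℂ] K)} {C : ℝ}

/-- bounded functions from functions bounded by one -/
theorem scale_le {F : Γ → ℝ} (hF : ∀ g, |F g| ≤ C) (g : Γ) : |(|C| + 1)⁻¹ * F g| ≤ 1 := by
  have h0 : 0 < |C| + 1 := by positivity
  rw [abs_mul, abs_inv, abs_of_pos h0, inv_mul_le_one₀ h0]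
  exact (hF g).trans ((le_abs_self C).trans (by linarith))

theorem scale_eq (C : ℝ) (F : Γ → ℝ) : F = fun g => (|C| + 1) * ((|C| + 1)⁻¹ * F g) := by
  have h0 : |C| + 1 ≠ 0 := by positivity
  funext g
  rw [mul_inv_cancel_left₀ h0]

theorem Leg.covB (hL : Leg mp R lam W) (h : Fn mp) (γ : Γ) {F : Γ → ℝ} (hF : ∀ g, |F g| ≤ C) :
    lam γ * mp F * lam γ⁻¹ = mp fun g => F (γ⁻¹ * g) := by
  have h1 := scale_le hF
  have h2 := hL.cov γ (fun g => (|C| + 1)⁻¹ * F g) h1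
  have e1 : mp F = ((|C| + 1 : ℝ) : ℂ) • mp fun g => (|C| + 1)⁻¹ * F g := by
    rw [← h.smul _ h1, ← scale_eq]
  have e2 : (mp fun g => F (γ⁻¹ * g)) =
      ((|C| + 1 : ℝ) : ℂ) • mp fun g => (|C| + 1)⁻¹ * F (γ⁻¹ * g) := by
    rw [← h.smul _ (fun g => h1 (γ⁻¹ * g)), ← scale_eq C (fun g => F (γ⁻¹ * g))]
  rw [e1, e2, mul_smul_comm, smul_mul_assoc, h2]

theorem Leg.covC (hL : Leg mp R lam W) (h : Fn mp) (γ : Γ) {F : Γ → ℂ} (hF : ∀ g, ‖F g‖ ≤ C) :
    lam γ * mc mp F * lam γ⁻¹ = mc mp fun g => F (γ⁻¹ * g) := by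
  rw [mc, mc, mul_add, add_mul, mul_smul_comm, smul_mul_assoc, hL.covB h γ (abs_re_le' hF),
    hL.covB h γ (abs_im_le' hF)]

theorem Leg.WmB (hL : Leg mp R lam W) (h : Fn mp) {a : K →L[ℂ] K} (ha : a ∈ W) {F : Γ → ℝ}
    (hF : ∀ g, |F g| ≤ C) : a * mp F = mp F * a := by
  have h1 := scale_le hF
  have h2 := hL.Wm a ha (fun g => (|C| + 1)⁻¹ * F g) h1
  have e1 : mp F = ((|C| + 1 : ℝ) : ℂ) • mp fun g => (|C| + 1)⁻¹ * F g := by
    rw [← h.smul _ h1, ← scale_eq]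
  rw [e1, mul_smul_comm, smul_mul_assoc, h2]

theorem Leg.WmC (hL : Leg mp R lam W) (h : Fn mp) {a : K →L[ℂ] K} (ha : a ∈ W) {F : Γ → ℂ}
    (hF : ∀ g, ‖F g‖ ≤ C) : a * mc mp F = mc mp F * a := by
  rw [mc, mul_add, add_mul, mul_smul_comm, smul_mul_assoc, hL.WmB h ha (abs_re_le' hF),
    hL.WmB h ha (abs_im_le' hF)]

theorem Leg.inv_mul (hL : Leg mp R lam W) (hR : Rep R) (w : D) : R w⁻¹ * R w = 1 := by
  rw [← hR.mul, inv_mul_cancel, hL.one]

theorem Leg.mul_inv (hL : Leg mp R lam W) (hR : Rep R) (w : D) : R w * R w⁻¹ = 1 := by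
  rw [← hR.mul, mul_inv_cancel, hL.one]

/-- The conjugated multiplication operators commute exactly with the coefficients. -/
theorem PC_W (hL : Leg mp R lam W) (h : Fn mp) (hR : Rep R) {a : K →L[ℂ] K} (ha : a ∈ W)
    {F : Γ → ℂ} (hF : ∀ g, ‖F g‖ ≤ C) (w : D) : a * PC mp R w F = PC mp R w F * a := by
  have h1 := hL.WmC h (hL.WP a ha w) hF
  have e1 : a * R w⁻¹ = R w⁻¹ * (R w * a * R w⁻¹) := by
    calc a * R w⁻¹ = 1 * a * R w⁻¹ := by rw [one_mul]
      _ = (R w⁻¹ * R w) * a * R w⁻¹ := by rw [hL.inv_mul hR]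
      _ = _ := by simp only [mul_assoc]
  have e2 : (R w * a * R w⁻¹) * R w = R w * a := by
    rw [mul_assoc, hL.inv_mul hR, mul_one]
  calc a * PC mp R w F = (a * R w⁻¹) * mc mp F * R w := by rw [PC]; simp only [mul_assoc]
    _ = R w⁻¹ * ((R w * a * R w⁻¹) * mc mp F) * R w := by rw [e1]; simp only [mul_assoc]
    _ = R w⁻¹ * mc mp F * ((R w * a * R w⁻¹) * R w) := by rw [h1]; simp only [mul_assoc]
    _ = PC mp R w F * a := by rw [e2, PC]; simp only [mul_assoc]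

/-- Exact covariance. -/
theorem PC_lam (hL : Leg mp R lam W) (h : Fn mp) (γ : Γ) {F : Γ → ℂ} (hF : ∀ g, ‖F g‖ ≤ C)
    (w : D) : lam γ * PC mp R w F * lam γ⁻¹ = PC mp R w fun g => F (γ⁻¹ * g) := by
  rw [PC, PC, ← hL.covC h γ hF]
  calc lam γ * (R w⁻¹ * mc mp F * R w) * lam γ⁻¹
      = (lam γ * R w⁻¹) * mc mp F * (R w * lam γ⁻¹) := by simp only [mul_assoc]
    _ = (R w⁻¹ * lam γ) * mc mp F * (lam γ⁻¹ * R w) := by rw [← hL.comm, hL.comm w γ⁻¹]
    _ = _ := by simp only [mul_assoc]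

end leg

section asy

variable {Γ D K Y : Type} [Group Γ] [Group D] [NormedAddCommGroup K] [InnerProductSpace ℂ K]
  [CompleteSpace K] {mp : (Γ → ℝ) → (K →L[ℂ] K)} {R : D → (K →L[ℂ] K)} {Bd : Set K}
  {ms : D → Set Γ → ℝ} {A : Subgroup D} {G1 G2 : Γ → ℝ} {bp : Γ → Y} {l l' : Filter D}
  {lam : Γ → (K →L[ℂ] K)} {W : Set (K →L[ℂ] K)} {C : ℝ}

/-- Negligible functions. -/
theorem negl_fn (h : SysF mp R Bd ms A G1 G2) (hfin : ∀ r, (FF G1 G2 r).Finite)
    (he : Esc (st mp) R Bd A l) {F : Γ → ℂ} (hF : ∀ g, ‖F g‖ ≤ C) (hN : Neg G1 G2 F) (ξ : K) :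
    Tendsto (fun w => mc mp F (R w ξ)) l (𝓝 0) := by
  rw [Metric.tendsto_nhds]
  intro ε hε
  obtain ⟨δ, hδ⟩ : ∃ δ, δ = ε / (2 * (‖ξ‖ + 1)) := ⟨_, rfl⟩
  have hδ0 : 0 < δ := by rw [hδ]; positivity
  have h1 := negl h.sys he hfin (N := {g | δ < ‖F g‖})
    (fun r => (hN δ hδ0 r).imp fun T hT g hg => hT g hg) ξ
  filter_upwards [(Metric.tendsto_nhds.mp h1) (ε / (2 * (|C| + 1))) (by positivity)] with w hw
  rw [dist_zero_right, norm_norm] at hw
  rw [dist_zero_right, mc_norm_eq h.fn hF]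
  have b1 : ∀ g : Γ, |ind (fun g => g ∈ {g | δ < ‖F g‖}) g| ≤ 1 := abs_ind_le _
  have h2 : ‖mp (fun g => ‖F g‖) (R w ξ)‖ ≤
      ‖mp (fun g => |C| * ind (fun g => g ∈ {g | δ < ‖F g‖}) g + δ * 1) (R w ξ)‖ := by
    refine h.fn.mono (C := C) (fun g => by rw [abs_norm]; exact hF g) (D := |C| * 1 + δ * 1)
      (fun g => ?_) (fun g => ?_) _
    · refine (abs_add_le _ _).trans (add_le_add ?_ ?_)
      · rw [abs_mul, abs_abs]
        exact mul_le_mul_of_nonneg_left (b1 g) (abs_nonneg _)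
      · rw [abs_mul, abs_one, abs_of_pos hδ0]
    · rw [abs_norm]
      refine le_trans ?_ (le_abs_self _)
      by_cases hg : δ < ‖F g‖
      · rw [ind_pos (P := fun g => g ∈ {g | δ < ‖F g‖}) hg, mul_one]
        have := (hF g).trans (le_abs_self C)
        linarith
      · rw [ind_neg (P := fun g => g ∈ {g | δ < ‖F g‖}) hg, mul_zero, zero_add, mul_one]
        exact not_lt.mp hg
  have c1 : ∀ g : Γ, |(fun _ : Γ => (1 : ℝ)) g| ≤ 1 := fun g => by simp
  have h3 : mp (fun g => |C| * ind (fun g => g ∈ {g | δ < ‖F g‖}) g + δ * 1) (R w ξ) =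
      ((|C| : ℝ) : ℂ) • st mp {g | δ < ‖F g‖} (R w ξ) + (δ : ℂ) • R w ξ := by
    rw [h.fn.add (mul_bd _ b1) (mul_bd _ c1), h.fn.smul _ b1, h.fn.smul _ c1, h.fn.one]
    rfl
  rw [h3] at h2
  have h4 : ‖((|C| : ℝ) : ℂ) • st mp {g | δ < ‖F g‖} (R w ξ) + (δ : ℂ) • R w ξ‖ ≤
      |C| * ‖st mp {g | δ < ‖F g‖} (R w ξ)‖ + δ * ‖ξ‖ := by
    refine (norm_add_le _ _).trans ?_
    rw [norm_smul, norm_smul, Complex.norm_real, Complex.norm_real, Real.norm_eq_abs,
      Real.norm_eq_abs, abs_abs, abs_of_pos hδ0]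
    gcongr
    exact h.sys.rep.norm_le _ _
  have h5 : |C| * ‖st mp {g | δ < ‖F g‖} (R w ξ)‖ ≤ |C| * (ε / (2 * (|C| + 1))) :=
    mul_le_mul_of_nonneg_left hw.le (abs_nonneg _)
  have h6 : |C| * (ε / (2 * (|C| + 1))) < ε / 2 := by
    have h7 : (0 : ℝ) < |C| + 1 := by positivity
    rw [mul_div_assoc', div_lt_iff₀ (by positivity)]
    have := abs_nonneg C
    nlinarith
  have h8 : δ * ‖ξ‖ ≤ ε / 2 := by
    rw [hδ, div_mul_eq_mul_div, div_le_iff₀ (by positivity)]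
    have := norm_nonneg ξ
    nlinarith
  linarith

/-- Shifted functions of the base point. -/
theorem neg_shift [TopologicalSpace Y] [MulAction Γ Y] (hG : GeoF G1 G2 bp) (s u : Γ)
    (f : C(Y, ℂ)) :
    Neg G1 G2 fun g => cfc G1 G2 bp f (s * g * u) - cfc G1 G2 bp (fun y => f (s • y)) g := by
  intro ε hε r
  obtain ⟨C, hC⟩ := hG.gap s u
  obtain ⟨Tr, hTr⟩ := hG.stab s u ⟨fun y => (f y).re, Complex.continuous_re.comp f.continuous⟩
    (ε / 2) (by positivity) r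
  obtain ⟨Ti, hTi⟩ := hG.stab s u ⟨fun y => (f y).im, Complex.continuous_im.comp f.continuous⟩
    (ε / 2) (by positivity) r
  obtain ⟨T, hT⟩ : ∃ T, T = max (max (max Tr Ti) (r + 2 * |C|)) r := ⟨_, rfl⟩
  have m1 : Tr ≤ T := by
    rw [hT]; exact ((le_max_left _ _).trans (le_max_left _ _)).trans (le_max_left _ _)
  have m2 : Ti ≤ T := by
    rw [hT]; exact ((le_max_right _ _).trans (le_max_left _ _)).trans (le_max_left _ _)
  have m3 : r + 2 * |C| ≤ T := by rw [hT]; exact (le_max_right _ _).trans (le_max_left _ _)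
  have m4 : r ≤ T := by rw [hT]; exact le_max_right _ _
  refine ⟨T, fun g hg => ?_⟩
  by_contra hn
  rw [Set.mem_union, not_or] at hn
  obtain ⟨n1, n2⟩ := hn
  refine absurd hg (not_lt.mpr ?_)
  obtain ⟨c1, c2⟩ := hC g
  have hC0 : C ≤ |C| := le_abs_self C
  have hC1 := abs_nonneg C
  obtain ⟨a1, a2⟩ := abs_le.mp c1
  obtain ⟨b1, b2⟩ := abs_le.mp c2
  by_cases h2 : G2 g ≤ r
  · have h1 : T < G1 g := by
      by_contra h1
      push Not at h1
      exact n1 ⟨h1, h2.trans m4⟩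
    have e1 : G2 g ≤ G1 g := by linarith
    have e2 : G2 (s * g * u) ≤ G1 (s * g * u) := by linarith
    simp only [cfc]
    rw [ind_pos (P := fun g => G2 g ≤ G1 g) e1, ind_pos (P := fun g => G2 g ≤ G1 g) e2]
    simp only [Complex.ofReal_one, one_mul]
    have r1 := hTr g (m1.trans h1.le) h2
    have r2 := hTi g (m2.trans h1.le) h2
    simp only [ContinuousMap.coe_mk] at r1 r2
    have r3 := Complex.norm_le_abs_re_add_abs_im (f (bp (s * g * u)) - f (s • bp g))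
    rw [Complex.sub_re, Complex.sub_im] at r3
    linarith
  · push Not at h2
    have h1 : G1 g ≤ r := by
      by_contra h1
      push Not at h1
      exact n2 ⟨h1, h2⟩
    have h3 : T < G2 g := by
      by_contra h3
      push Not at h3
      exact n1 ⟨h1.trans m4, h3⟩
    have e1 : ¬ G2 g ≤ G1 g := by push Not; linarith
    have e2 : ¬ G2 (s * g * u) ≤ G1 (s * g * u) := by push Not; linarith
    simp only [cfc]
    rw [ind_neg (P := fun g => G2 g ≤ G1 g) e1, ind_neg (P := fun g => G2 g ≤ G1 g) e2]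
    simp only [Complex.ofReal_zero, zero_mul, sub_zero, norm_zero]
    exact hε.le

/-- Right translation changes the functions of the base point by a negligible function. -/
theorem neg_right [TopologicalSpace Y] [MulAction Γ Y] (hG : GeoF G1 G2 bp) (u : Γ)
    (f : C(Y, ℂ)) : Neg G1 G2 fun g => cfc G1 G2 bp f (g * u) - cfc G1 G2 bp f g := by
  have h1 := neg_shift hG 1 u f
  simpa using h1

/-- Asymptotic covariance. -/
theorem asy_cov [TopologicalSpace Y] [CompactSpace Y] [MulAction Γ Y]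
    (h : SysF mp R Bd ms A G1 G2) (hG : GeoF G1 G2 bp) (hL : Leg mp R lam W)
    (he : Esc (st mp) R Bd A l) (s : Γ) {f f' : C(Y, ℂ)} (hff : ∀ y, f' (s • y) = f y) (ξ : K) :
    Tendsto (fun w => (lam s * PC mp R w (cfc G1 G2 bp f) * lam s⁻¹ -
      PC mp R w (cfc G1 G2 bp f')) ξ) l (𝓝 0) := by
  have bd : ∀ f : C(Y, ℂ), ∀ g, ‖cfc G1 G2 bp f g‖ ≤ ‖f‖ := fun f =>
    cfc_norm fun y => f.norm_coe_le_norm y
  have hf' : ∀ y, f' y = f (s⁻¹ • y) := fun y => by rw [← hff, smul_inv_smul]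
  have h1 := neg_shift hG s⁻¹ 1 f
  have e1 : (fun g => cfc G1 G2 bp f (s⁻¹ * g * 1) -
      cfc G1 G2 bp (fun y => f (s⁻¹ • y)) g) =
      fun g => cfc G1 G2 bp f (s⁻¹ * g) + (-1) * cfc G1 G2 bp f' g := by
    funext g
    rw [mul_one]
    have : (fun y => f (s⁻¹ • y)) = (f' : Y → ℂ) := by funext y; rw [hf']
    rw [this]; ring
  rw [e1] at h1
  have b1 : ∀ g, ‖cfc G1 G2 bp f (s⁻¹ * g)‖ ≤ ‖f‖ := fun g => bd f _
  have b2 : ∀ g, ‖(-1) * cfc G1 G2 bp f' g‖ ≤ ‖f'‖ := fun g => by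
    rw [norm_mul, norm_neg, norm_one, one_mul]; exact bd f' g
  have h2 := negl_fn h hG.fin he (C := ‖f‖ + ‖f'‖)
    (fun g => (norm_add_le _ _).trans (add_le_add (b1 g) (b2 g))) h1 ξ
  refine squeeze_zero_norm (fun w => ?_) (tendsto_zero_iff_norm_tendsto_zero.mp h2)
  rw [PC_lam hL h.fn s (bd f)]
  rw [mc_add h.fn b1 b2, mc_smul h.fn _ (bd f')]
  have e2 : (PC mp R w (fun g => cfc G1 G2 bp f (s⁻¹ * g)) - PC mp R w (cfc G1 G2 bp f')) ξ =
      R w⁻¹ ((mc mp (fun g => cfc G1 G2 bp f (s⁻¹ * g)) +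
        (-1 : ℂ) • mc mp (cfc G1 G2 bp f')) (R w ξ)) := by
    rw [sub_apply, PC_ap, PC_ap, ← map_sub, add_apply, smul_apply, neg_one_smul, sub_eq_add_neg]
  rw [e2]
  exact h.sys.rep.norm_le _ _

/-- Asymptotic commutation with contracted elements. -/
theorem asy_slow [TopologicalSpace D] (h : SysF mp R Bd ms A G1 G2) (hS : Slow mp R Bd) {n : D}
    (hn : Tendsto (fun w => w * n * w⁻¹) l (𝓝 1)) {F : Γ → ℂ} (hF : ∀ g, ‖F g‖ ≤ C) (ξ : K) :
    Tendsto (fun w => (PC mp R w F * R n - R n * PC mp R w F) ξ) l (𝓝 0) := by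
  have hCn : ∀ w, ‖PC mp R w F * R n - R n * PC mp R w F‖ ≤ 2 * |C| := fun w => by
    have h1 := PC_opNorm h.fn h.sys.rep (abs_nonneg C)
      (fun g => (hF g).trans (le_abs_self C)) w
    have h2 := h.sys.rep.opNorm_le n
    have h3 : ‖PC mp R w F * R n‖ ≤ |C| := (norm_mul_le _ _).trans
      (by have := mul_le_mul h1 h2 (norm_nonneg _) (abs_nonneg C); rwa [mul_one] at this)
    have h4 : ‖R n * PC mp R w F‖ ≤ |C| := (norm_mul_le _ _).trans
      (by have := mul_le_mul h2 h1 (norm_nonneg _) zero_le_one; rwa [one_mul] at this)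
    exact (norm_sub_le _ _).trans (by linarith)
  refine vec_of_total hCn h.sys.dense (fun ζ hζ => ?_) ξ
  rw [Metric.tendsto_nhds]
  intro ε hε
  obtain ⟨δ, hδ⟩ : ∃ δ, δ = ε / (4 * (|C| + 1)) := ⟨_, rfl⟩
  have hδ0 : 0 < δ := by rw [hδ]; positivity
  filter_upwards [hn.eventually (hS δ hδ0)] with w hw
  rw [dist_zero_right]
  obtain ⟨e, he⟩ : ∃ e, e = w * n * w⁻¹ := ⟨_, rfl⟩
  rw [← he] at hw
  have hη : R w ζ ∈ Bd := h.sys.map _ _ hζ
  have e1 : (PC mp R w F * R n - R n * PC mp R w F) ζ =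
      R w⁻¹ (mc mp F (R e (R w ζ)) - R e (mc mp F (R w ζ))) := by
    have a1 : R w (R n ζ) = R e (R w ζ) := by
      rw [← mul_ap', ← mul_ap', ← h.sys.rep.mul, ← h.sys.rep.mul, he]
      congr 2; group
    have a2 : ∀ x, R n (R w⁻¹ x) = R w⁻¹ (R e x) := fun x => by
      rw [← mul_ap', ← mul_ap', ← h.sys.rep.mul, ← h.sys.rep.mul, he]
      congr 2; group
    rw [sub_apply, mul_ap', mul_ap', PC_ap, PC_ap, a1, a2, map_sub]
  rw [e1]
  refine (h.sys.rep.norm_le _ _).trans_lt ?_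
  -- real functions
  have key : ∀ X : Γ → ℝ, (∀ g, |X g| ≤ C) →
      ‖mp X (R e (R w ζ)) - R e (mp X (R w ζ))‖ ≤ (|C| + 1) * δ := by
    intro X hX
    have h1 := scale_le hX
    have e3 : mp X = ((|C| + 1 : ℝ) : ℂ) • mp fun g => (|C| + 1)⁻¹ * X g := by
      rw [← h.fn.smul _ h1, ← scale_eq]
    have h2 := hw _ h1 (R w ζ) hη
    rw [e3, smul_apply, smul_apply, map_smul, ← smul_sub, norm_smul, Complex.norm_real,
      Real.norm_of_nonneg (by positivity), norm_sub_rev]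
    exact mul_le_mul_of_nonneg_left h2 (by positivity)
  have k1 := key _ (abs_re_le' hF)
  have k2 := key _ (abs_im_le' hF)
  have e4 : mc mp F (R e (R w ζ)) - R e (mc mp F (R w ζ)) =
      (mp (fun g => (F g).re) (R e (R w ζ)) - R e (mp (fun g => (F g).re) (R w ζ))) +
      Complex.I • (mp (fun g => (F g).im) (R e (R w ζ)) -
        R e (mp (fun g => (F g).im) (R w ζ))) := by
    rw [mc_ap, mc_ap, map_add, map_smul, smul_sub]
    abel
  rw [e4]
  refine (norm_add_le _ _).trans_lt ?_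
  rw [norm_smul, Complex.norm_I, one_mul]
  have h9 : (|C| + 1) * δ = ε / 4 := by
    rw [hδ]; field_simp
  linarith

end asy

section full

variable {Γ D K Y : Type} [Group Γ] [Group D] [NormedAddCommGroup K] [InnerProductSpace ℂ K]
  [CompleteSpace K] {mp : (Γ → ℝ) → (K →L[ℂ] K)} {R : D → (K →L[ℂ] K)} {Bd : Set K}
  {ms : D → Set Γ → ℝ} {A : Subgroup D} {G1 G2 : Γ → ℝ} {bp : Γ → Y} {l l' : Filter D}
  {lam : Γ → (K →L[ℂ] K)} {W : Set (K →L[ℂ] K)} {C : ℝ} [TopologicalSpace Y] [CompactSpace Y]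
  {β : C(Y, ℂ) →⋆ₐ[ℂ] (K →L[ℂ] K)}

/-- `β` is the limit along `l`. -/
def IsLim (mp : (Γ → ℝ) → (K →L[ℂ] K)) (R : D → (K →L[ℂ] K)) (G1 G2 : Γ → ℝ) (bp : Γ → Y)
    (l : Filter D) (β : C(Y, ℂ) →⋆ₐ[ℂ] (K →L[ℂ] K)) : Prop :=
  ∀ (f : C(Y, ℂ)) ξ, Tendsto (fun w => PC mp R w (cfc G1 G2 bp f) ξ) l (𝓝 (β f ξ))

/-- Covariance of the limit. -/
theorem IsLim.cov [l.NeBot] [MulAction Γ Y] (hβ : IsLim mp R G1 G2 bp l β)
    (h : SysF mp R Bd ms A G1 G2)
    (hG : GeoF G1 G2 bp) (hL : Leg mp R lam W) (he : Esc (st mp) R Bd A l) (s : Γ)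
    {f f' : C(Y, ℂ)} (hff : ∀ y, f' (s • y) = f y) : lam s * β f * lam s⁻¹ = β f' := by
  ext ξ
  have h1 := asy_cov h hG hL he s hff ξ
  have h2 := ((lam s).continuous.tendsto _).comp (hβ f (lam s⁻¹ ξ))
  have h3 := h2.sub (hβ f' ξ)
  have h4 := tendsto_nhds_unique (h3.congr fun w => ?_) h1
  · exact sub_eq_zero.mp h4
  · rfl

/-- The limit commutes with the coefficients. -/
theorem IsLim.comm_W [l.NeBot] (hβ : IsLim mp R G1 G2 bp l β) (h : SysF mp R Bd ms A G1 G2)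
    (hL : Leg mp R lam W) {a : K →L[ℂ] K} (ha : a ∈ W) (f : C(Y, ℂ)) : a * β f = β f * a := by
  ext ξ
  have h1 := ((a.continuous.tendsto _).comp (hβ f ξ))
  have h2 := hβ f (a ξ)
  refine tendsto_nhds_unique h1 (h2.congr fun w => ?_)
  have h3 := congrArg (fun T : K →L[ℂ] K => T ξ) (PC_W hL h.fn h.sys.rep ha
    (F := cfc G1 G2 bp f) (cfc_norm fun y => f.norm_coe_le_norm y) w)
  exact h3.symm

/-- The limit commutes with the contracted elements. -/
theorem IsLim.comm_slow [l.NeBot] [TopologicalSpace D] (hβ : IsLim mp R G1 G2 bp l β)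
    (h : SysF mp R Bd ms A G1 G2) (hS : Slow mp R Bd) {n : D}
    (hn : Tendsto (fun w => w * n * w⁻¹) l (𝓝 1)) (f : C(Y, ℂ)) : R n * β f = β f * R n := by
  ext ξ
  have h1 := asy_slow h hS hn (F := cfc G1 G2 bp f) (cfc_norm fun y => f.norm_coe_le_norm y) ξ
  have h2 := (hβ f (R n ξ)).sub (((R n).continuous.tendsto _).comp (hβ f ξ))
  have h4 := tendsto_nhds_unique (h2.congr fun w => rfl) h1
  exact (sub_eq_zero.mp h4).symm

/-- The limit commutes with an element which commutes weakly asymptotically. -/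
theorem IsLim.comm_weak [l.NeBot] (hβ : IsLim mp R G1 G2 bp l β) {T : K →L[ℂ] K} {f : C(Y, ℂ)}
    (hT : ∀ ξ η, Tendsto (fun w => ⟪η, (T * PC mp R w (cfc G1 G2 bp f) -
      PC mp R w (cfc G1 G2 bp f) * T) ξ⟫_ℂ) l (𝓝 0)) : T * β f = β f * T := by
  ext ξ
  refine ext_inner_left ℂ fun η => ?_
  have h1 := (((T.continuous.tendsto _).comp (hβ f ξ)).sub (hβ f (T ξ)))
  have h2 := (tendsto_const_nhds (x := η)).inner (𝕜 := ℂ) h1
  have h4 := tendsto_nhds_unique (h2.congr fun w => rfl) (hT ξ η)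
  rw [inner_sub_right] at h4
  exact sub_eq_zero.mp h4

end full

end Vale.Agent.P092.H859.CL
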