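import Vale.Agent.P092.H859.CLG

/-!
P092 (helper859), blocks C-LIM / D0-ENG, part 6: letters (definitions only).
-/

set_option linter.all false

open scoped InnerProductSpace Pointwise
open Filter Topology ContinuousLinearMap TopologicalSpace

namespace Vale.Agent.P092.H859.CL

open Vale.Agent.P092.H553 (ind ind_nonneg ind_le_one abs_ind_le ind_pos ind_neg)

section defs

variable {Γ D K Y : Type} [Group Γ] [Group D] [NormedAddCommGroup K] [InnerProductSpace ℂ K]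
  [CompleteSpace K]

/-- Multiplication by complex functions. -/
noncomputable def mc {Γ K : Type} [NormedAddCommGroup K] [InnerProductSpace ℂ K]
    (mp : (Γ → ℝ) → (K →L[ℂ] K)) (F : Γ → ℂ) : K →L[ℂ] K :=
  mp (fun g => (F g).re) + Complex.I • mp (fun g => (F g).im)

/-- The conjugated multiplication operators. -/
noncomputable def PC {Γ D K : Type} [Group D] [NormedAddCommGroup K] [InnerProductSpace ℂ K]
    (mp : (Γ → ℝ) → (K →L[ℂ] K)) (R : D → (K →L[ℂ] K)) (w : D) (F : Γ → ℂ) : K →L[ℂ] K :=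
  R w⁻¹ * mc mp F * R w

/-- Functions of the base point on the cone. -/
noncomputable def cfc {Γ Y : Type} (G1 G2 : Γ → ℝ) (bp : Γ → Y) (f : Y → ℂ) : Γ → ℂ :=
  fun g => (ind (fun g => G2 g ≤ G1 g) g : ℂ) * f (bp g)

/-- Functions which are small off the finite and the regular part. -/
def Neg {Γ : Type} (G1 G2 : Γ → ℝ) (F : Γ → ℂ) : Prop :=
  ∀ ε : ℝ, 0 < ε → ∀ r, ∃ T, ∀ g, ε < ‖F g‖ → g ∈ FF G1 G2 T ∪ BB G1 G2 r

/-- The geometry, for continuous functions of the base point. -/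
structure GeoF {Γ Y : Type} [Group Γ] [TopologicalSpace Y] [MulAction Γ Y] (G1 G2 : Γ → ℝ)
    (bp : Γ → Y) : Prop where
  cact : ∀ s : Γ, Continuous fun y : Y => s • y
  fin : ∀ r, (FF G1 G2 r).Finite
  gap : ∀ s u, ∃ C, ∀ x, |G1 (s * x * u) - G1 x| ≤ C ∧ |G2 (s * x * u) - G2 x| ≤ C
  stab : ∀ (s u : Γ) (f : C(Y, ℝ)) (ε : ℝ), 0 < ε → ∀ r, ∃ T, ∀ x, T ≤ G1 x → G2 x ≤ r →
    |f (bp (s * x * u)) - f (s • bp x)| ≤ ε
  sep : ∀ A A' : Set Y, IsClosed A → IsClosed A' → Disjoint A A' → SepP G1 G2 bp A A'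

/-- Slow variation: small elements of the group almost commute with the multiplication
operators, uniformly on the bounded vectors. -/
def Slow {Γ D K : Type} [Group D] [TopologicalSpace D] [NormedAddCommGroup K]
    [InnerProductSpace ℂ K] (mp : (Γ → ℝ) → (K →L[ℂ] K)) (R : D → (K →L[ℂ] K)) (Bd : Set K) :
    Prop :=
  ∀ ε : ℝ, 0 < ε → ∀ᶠ h in 𝓝 (1 : D), ∀ F : Γ → ℝ, (∀ g, |F g| ≤ 1) → ∀ ζ ∈ Bd,
    ‖R h (mp F ζ) - mp F (R h ζ)‖ ≤ ε

/-- Locality: on the bounded vectors `R v` is a finite sum of operators which shift the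
coordinate on the right, up to a small error. -/
def Loc {Γ D K : Type} [Group Γ] [Group D] [NormedAddCommGroup K] [InnerProductSpace ℂ K]
    (mp : (Γ → ℝ) → (K →L[ℂ] K)) (R : D → (K →L[ℂ] K)) (Bd : Set K) : Prop :=
  ∀ v, ∀ ε : ℝ, 0 < ε → ∃ (S : Finset Γ) (X : Γ → (K →L[ℂ] K)),
    (∀ u ∈ S, ∀ F : Γ → ℝ, (∀ g, |F g| ≤ 1) → mp F * X u = X u * mp (fun g => F (g * u))) ∧
    ∀ ζ ∈ Bd, ‖R v ζ - ∑ u ∈ S, X u ζ‖ ≤ ε

/-- The mass of `R u⁻¹ Ω` is the image under inversion of the mass of `R u Ω`. -/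
def Sym {Γ D K : Type} [Group Γ] [Group D] [NormedAddCommGroup K] [InnerProductSpace ℂ K]
    (mp : (Γ → ℝ) → (K →L[ℂ] K)) (R : D → (K →L[ℂ] K)) (Ω : K) : Prop :=
  ∀ u (P : Set Γ), ‖st mp {g | g⁻¹ ∈ P} (R u⁻¹ Ω)‖ = ‖st mp P (R u Ω)‖

/-- One leg: representation, translations, coefficients and multiplication operators. -/
structure Leg {Γ D K : Type} [Group Γ] [Group D] [NormedAddCommGroup K]
    [InnerProductSpace ℂ K] [CompleteSpace K] (mp : (Γ → ℝ) → (K →L[ℂ] K))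
    (R : D → (K →L[ℂ] K)) (lam : Γ → (K →L[ℂ] K)) (W : Set (K →L[ℂ] K)) : Prop where
  one : R 1 = 1
  lmul : ∀ γ γ', lam (γ * γ') = lam γ * lam γ'
  lone : lam 1 = 1
  comm : ∀ g γ, R g * lam γ = lam γ * R g
  cov : ∀ γ (F : Γ → ℝ), (∀ g, |F g| ≤ 1) → lam γ * mp F * lam γ⁻¹ = mp (fun g => F (γ⁻¹ * g))
  WP : ∀ w ∈ W, ∀ g, R g * w * R g⁻¹ ∈ W
  Wm : ∀ w ∈ W, ∀ F : Γ → ℝ, (∀ g, |F g| ≤ 1) → w * mp F = mp F * w

end defs

end Vale.Agent.P092.H859.CL
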