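import Vale.Agent.P092.H859.CND
import Vale.Agent.P092.H43.LocN
import Vale.Agent.P092.H107.Comp
import Vale.Agent.P092.H107.Nws

/-!
P092 (helper859), Team N, block [N-ENG]: from the inputs of the engine to the families of calculi
`F z`, `z` a point of a homogeneous space `Z` of the source group, for both legs of the duality.
Any source group `E`, any wall element `b`, any target space `Y`. The points of `Z` are the
conjugates of `b`; `NA R T A ⊆ Γ` stands for the near-wall elements (with constant `R`) whose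
attracting point is in `A` up to `1/T`. (General form of helper142's H142/Asm, Eng, Fam, `n = 3`.)
-/

set_option linter.all false

open scoped InnerProductSpace Pointwise
open Filter Topology ContinuousLinearMap TopologicalSpace

namespace Vale.Agent.P092.H859.CN

open Vale.Agent.P092.H859.CL
open Vale.Agent.P092.H553 (ind ind_nonneg ind_le_one abs_ind_le ind_pos ind_neg)
open Vale.Agent.P092.H107 (LocAt)
open Vale.Agent.P092.H43 (Loc2 loc_at)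
open Vale.Agent.P092.RC (Pic Moore Cm)

section ngl

variable {Γ D K Y : Type} [Group Γ] [Group D] [NormedAddCommGroup K] [InnerProductSpace ℂ K]
  [CompleteSpace K] {m : Set Γ → (K →L[ℂ] K)} {R : D → (K →L[ℂ] K)} {Bd Bf : Set K}
  {ms : D → Set Γ → ℝ} {A : Subgroup D} {Br : ℝ → Set Γ} {G1 G2 : Γ → ℝ} {bp : Γ → Y}
  {l l' : Filter D}

/-- No regular and no finite mass on `R v (R w ξ)` (helper142's `ngl_shift`). -/
theorem ngl_shift (h : Sys m R Bd ms A Br G1 G2) (hfin : ∀ r, (FF G1 G2 r).Finite)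
    (he : Esc m R Bd A l) (hsub : Bf ⊆ Bd)
    (hdense : Dense ((Submodule.span ℂ Bf : Submodule ℂ K) : Set K))
    (hmap : ∀ v, ∀ ζ ∈ Bf, R v ζ ∈ Bf) (hloc : ∀ v, LocAt m (R v) Bf)
    (hgap : ∀ u : Γ, ∃ C, ∀ x, |G1 (x * u) - G1 x| ≤ C ∧ |G2 (x * u) - G2 x| ≤ C)
    (v : D) (ξ : K) {ε : ℝ} (hε : 0 < ε) :
    ∃ r, ∀ T, ∀ᶠ w in l, ‖m (FF G1 G2 T ∪ BB G1 G2 r) (R v (R w ξ))‖ ≤ ε := by
  -- vectors in the span
  obtain ⟨N, hN⟩ : ∃ N : Submodule ℂ K, ∀ ξ, ξ ∈ N ↔ ∀ ε : ℝ, 0 < ε →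
      ∃ r, ∀ T, ∀ᶠ w in l, ‖m (FF G1 G2 T ∪ BB G1 G2 r) (R v (R w ξ))‖ ≤ ε := by
    refine ⟨⟨⟨⟨{ξ | ∀ ε : ℝ, 0 < ε → ∃ r, ∀ T, ∀ᶠ w in l,
      ‖m (FF G1 G2 T ∪ BB G1 G2 r) (R v (R w ξ))‖ ≤ ε}, ?_⟩, ?_⟩, ?_⟩, fun ξ => Iff.rfl⟩
    · intro ξ η hξ hη ε hε
      obtain ⟨r1, hr1⟩ := hξ (ε / 2) (by positivity)
      obtain ⟨r2, hr2⟩ := hη (ε / 2) (by positivity)
      refine ⟨max r1 r2, fun T => ?_⟩
      filter_upwards [hr1 T, hr2 T] with w h1 h2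
      have h3 := (h.prj.mono (Set.union_subset_union_right (FF G1 G2 T)
        (BB_mono (G1 := G1) (G2 := G2) (le_max_left r1 r2))) (R v (R w ξ))).trans h1
      have h4 := (h.prj.mono (Set.union_subset_union_right (FF G1 G2 T)
        (BB_mono (G1 := G1) (G2 := G2) (le_max_right r1 r2))) (R v (R w η))).trans h2
      rw [map_add, map_add, map_add]
      exact (norm_add_le _ _).trans (by linarith)
    · intro ε hε
      refine ⟨0, fun T => Eventually.of_forall fun w => ?_⟩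
      rw [map_zero, map_zero, map_zero, norm_zero]
      exact hε.le
    · intro c ξ hξ ε hε
      obtain ⟨r1, hr1⟩ := hξ (ε / (‖c‖ + 1)) (by positivity)
      refine ⟨r1, fun T => ?_⟩
      filter_upwards [hr1 T] with w h1
      rw [map_smul, map_smul, map_smul, norm_smul]
      rw [le_div_iff₀ (by positivity)] at h1
      have := norm_nonneg (m (FF G1 G2 T ∪ BB G1 G2 r1) (R v (R w ξ)))
      nlinarith
  have hbd : ∀ ξ ∈ Bf, ξ ∈ N := by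
    intro ξ hξ
    rw [hN]
    intro ε hε
    obtain ⟨S, X, hX, hS⟩ := hloc v (ε / 2) (by positivity)
    choose C hC using hgap
    obtain ⟨Cm, hCm⟩ : ∃ Cm : ℝ, ∀ u ∈ S, C u ≤ Cm := by
      obtain ⟨b, hb⟩ := (S.image C).bddAbove
      exact ⟨b, fun u hu => hb (Finset.mem_coe.mpr (Finset.mem_image_of_mem C hu))⟩
    obtain ⟨M, hM⟩ : ∃ M : ℝ, M = ∑ u ∈ S, ‖X u‖ + 1 := ⟨_, rfl⟩
    have hM0 : 0 < M := by
      rw [hM]
      have : 0 ≤ ∑ u ∈ S, ‖X u‖ := Finset.sum_nonneg fun u _ => norm_nonneg _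
      linarith
    obtain ⟨r, hr⟩ := h.nrv ξ (hsub hξ) (ε / (4 * M)) (by positivity)
    refine ⟨r + Cm, fun T => ?_⟩
    have h1 := h.prj.tendsto_finite (f := fun w => R w ξ) (l := l)
      (fun g => esc2 h he g ξ) (hfin (T + Cm))
    filter_upwards [he.mem, (Metric.tendsto_nhds.mp h1) (ε / (4 * M)) (by positivity)] with w hw h2
    rw [dist_zero_right, norm_norm] at h2
    have h3 := hr w hw
    obtain ⟨ζ, hζ⟩ : ∃ ζ, ζ = R w ξ := ⟨_, rfl⟩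
    have hζB : ζ ∈ Bf := by rw [hζ]; exact hmap _ _ hξ
    rw [← hζ] at h2 h3 ⊢
    have h4 : ‖m (FF G1 G2 (T + Cm) ∪ BB G1 G2 r) ζ‖ ≤ ε / (2 * M) := by
      have h5 := h.prj.norm_union_le (FF G1 G2 (T + Cm)) (BB G1 G2 r) ζ
      have e1 : ε / (2 * M) = ε / (4 * M) + ε / (4 * M) := by field_simp; ring
      rw [e1]
      exact h5.trans (add_le_add h2.le h3)
    have c1 : ‖m (FF G1 G2 T ∪ BB G1 G2 (r + Cm)) (R v ζ) -
        m (FF G1 G2 T ∪ BB G1 G2 (r + Cm)) (∑ u ∈ S, X u ζ)‖ ≤ ε / 2 := by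
      rw [← map_sub]
      exact (h.prj.norm_le _ _).trans (hS ζ hζB)
    have c2 : ‖m (FF G1 G2 T ∪ BB G1 G2 (r + Cm)) (∑ u ∈ S, X u ζ)‖ ≤ ε / 2 := by
      rw [map_sum]
      have e : ∀ u ∈ S, ‖m (FF G1 G2 T ∪ BB G1 G2 (r + Cm)) (X u ζ)‖ ≤
          ‖X u‖ * (ε / (2 * M)) := by
        intro u hu
        have e1 : m (FF G1 G2 T ∪ BB G1 G2 (r + Cm)) (X u ζ) =
            X u (m {g | g * u ∈ FF G1 G2 T ∪ BB G1 G2 (r + Cm)} ζ) :=
          congrArg (fun T : K →L[ℂ] K => T ζ) (hX u hu _)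
        rw [e1]
        refine ((X u).le_opNorm _).trans (mul_le_mul_of_nonneg_left ?_ (norm_nonneg _))
        refine le_trans (h.prj.mono ?_ ζ) h4
        intro g hg
        obtain ⟨k1, k2⟩ := hC u g
        have k3 := hCm u hu
        obtain ⟨a1, a2⟩ := abs_le.mp k1
        obtain ⟨b1, b2⟩ := abs_le.mp k2
        rcases hg with ⟨p1, p2⟩ | ⟨p1, p2⟩
        · left
          exact ⟨by linarith, by linarith⟩
        · right
          exact ⟨by linarith, by linarith⟩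
      refine (norm_sum_le_of_le S e).trans ?_
      rw [← Finset.sum_mul]
      calc (∑ u ∈ S, ‖X u‖) * (ε / (2 * M)) ≤ M * (ε / (2 * M)) := by
            refine mul_le_mul_of_nonneg_right ?_ (by positivity)
            rw [hM]; linarith
        _ = ε / 2 := by field_simp
    have e0 : m (FF G1 G2 T ∪ BB G1 G2 (r + Cm)) (R v ζ) =
        (m (FF G1 G2 T ∪ BB G1 G2 (r + Cm)) (R v ζ) -
        m (FF G1 G2 T ∪ BB G1 G2 (r + Cm)) (∑ u ∈ S, X u ζ)) +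
        m (FF G1 G2 T ∪ BB G1 G2 (r + Cm)) (∑ u ∈ S, X u ζ) := by abel
    rw [e0]
    exact (norm_add_le _ _).trans (by linarith)
  have hspan : Submodule.span ℂ Bf ≤ N := Submodule.span_le.mpr hbd
  obtain ⟨η, hη, hd⟩ := Metric.mem_closure_iff.mp (hdense ξ) (ε / 2) (by positivity)
  obtain ⟨r, hr⟩ := (hN η).1 (hspan hη) (ε / 2) (by positivity)
  refine ⟨r, fun T => ?_⟩
  filter_upwards [hr T] with w h1
  have h2 : m (FF G1 G2 T ∪ BB G1 G2 r) (R v (R w ξ)) =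
      m (FF G1 G2 T ∪ BB G1 G2 r) (R v (R w (ξ - η))) +
      m (FF G1 G2 T ∪ BB G1 G2 r) (R v (R w η)) := by
    rw [← map_add, ← map_add, ← map_add, sub_add_cancel]
  rw [h2]
  rw [dist_eq_norm] at hd
  have h3 : ‖m (FF G1 G2 T ∪ BB G1 G2 r) (R v (R w (ξ - η)))‖ ≤ ε / 2 :=
    ((h.prj.norm_le _ _).trans ((h.rep.norm_le _ _).trans (h.rep.norm_le _ _))).trans
      hd.le
  exact (norm_add_le _ _).trans (by linarith)

end ngl

section comp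

variable {Γ D D' K : Type} [Group Γ] [Group D] [Group D'] [NormedAddCommGroup K]
  [InnerProductSpace ℂ K] [CompleteSpace K] {m : Set Γ → (K →L[ℂ] K)}
  {mp : (Γ → ℝ) → (K →L[ℂ] K)} {R : D → (K →L[ℂ] K)} {Bd Bf : Set K} {ms : D → Set Γ → ℝ}
  {A : Subgroup D} {Br : ℝ → Set Γ} {G1 G2 : Γ → ℝ} {l : Filter D} {l' : Filter D'}

theorem Sys.comp (h : Sys m R Bd ms A Br G1 G2) (θ : D' →* D) :
    Sys m (fun d => R (θ d)) Bd (fun d => ms (θ d)) (A.comap θ) Br G1 G2 where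
  prj := h.prj
  rep := H107.Cp.rep_comp h.rep θ
  dense := h.dense
  norm := h.norm
  map v := h.map (θ v)
  sep u := h.sep (θ u)
  nrm := fun ε hε => by
    obtain ⟨r, hr⟩ := h.nrm ε hε
    exact ⟨r, fun u hu => hr (θ u) hu⟩
  nrv := fun ξ hξ ε hε => by
    obtain ⟨r, hr⟩ := h.nrv ξ hξ ε hε
    exact ⟨r, fun u hu => hr (θ u) hu⟩

theorem SysF.comp (h : SysF mp R Bd ms A Br G1 G2) (θ : D' →* D) :
    SysF mp (fun d => R (θ d)) Bd (fun d => ms (θ d)) (A.comap θ) Br G1 G2 :=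
  ⟨h.fn, h.sys.comp θ, h.mpb⟩

/-- Change of the subgroup. -/
theorem Sys.mono {B : Subgroup D} (h : Sys m R Bd ms A Br G1 G2) (hB : B ≤ A) :
    Sys m R Bd ms B Br G1 G2 where
  prj := h.prj
  rep := h.rep
  dense := h.dense
  norm := h.norm
  map := h.map
  sep := h.sep
  nrm := fun ε hε => by
    obtain ⟨r, hr⟩ := h.nrm ε hε
    exact ⟨r, fun u hu => hr u (hB hu)⟩
  nrv := fun ξ hξ ε hε => by
    obtain ⟨r, hr⟩ := h.nrv ξ hξ ε hε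
    exact ⟨r, fun u hu => hr u (hB hu)⟩

theorem SysF.mono {B : Subgroup D} (h : SysF mp R Bd ms A Br G1 G2) (hB : B ≤ A) :
    SysF mp R Bd ms B Br G1 G2 := ⟨h.fn, h.sys.mono hB, h.mpb⟩

/-- Change of the bound of the regular elements. -/
theorem SysF.of_gaps {H1 H2 : Γ → ℝ} (h : SysF mp R Bd ms A Br G1 G2)
    (hnrv : ∀ ξ ∈ Bd, ∀ ε : ℝ, 0 < ε → ∃ r, ∀ w ∈ A, ‖st mp (BB H1 H2 r) (R w ξ)‖ ≤ ε) :
    SysF mp R Bd ms A Br H1 H2 :=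
  ⟨h.fn, ⟨h.sys.prj, h.sys.rep, h.sys.dense, h.sys.norm, h.sys.map, h.sys.sep, h.sys.nrm, hnrv⟩,
    h.mpb⟩

theorem loc2_comp (h : Loc2 mp R Bd Bf) (θ : D' →* D) : Loc2 mp (fun d => R (θ d)) Bd Bf where
  sub := h.sub
  dense := h.dense
  map v := h.map (θ v)
  loc v := h.loc (θ v)

end comp

section fam

variable {E Γ Y Z K : Type} [Group E] [Group Γ] [MulAction E Z] [TopologicalSpace Y]
  [CompactSpace Y] [MulAction Γ Y] [NormedAddCommGroup K] [InnerProductSpace ℂ K]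
  [CompleteSpace K]

/-- The family of calculi `F z`. -/
structure Fam {E Γ Y Z K : Type} [Group E] [Group Γ] [MulAction E Z] [TopologicalSpace Y]
    [CompactSpace Y] [SMul Γ Y] [NormedAddCommGroup K] [InnerProductSpace ℂ K]
    [CompleteSpace K] (b : E) (π : E →* (K →L[ℂ] K)) (lam : Γ →* (K →L[ℂ] K))
    (W : Set (K →L[ℂ] K)) (m : Set Γ → (K →L[ℂ] K)) (NA : ℝ → ℝ → Set Y → Set Γ) (z0 : Z)
    (F : Z → (C(Y, ℂ) →⋆ₐ[ℂ] (K →L[ℂ] K))) : Prop where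
  cm : ∀ z f, Cm W (F z f)
  cov : ∀ γ z (f f' : C(Y, ℂ)), (∀ y, f' (γ • y) = f y) → lam γ * F z f * lam γ⁻¹ = F z f'
  pcov : ∀ g z f, π g * F z f * π g⁻¹ = F (g • z) f
  dom : ∀ (g : E) (u : C(Y, ℂ)) (A : Set Y), tsupport u ⊆ A → ∀ ζ : K, ∀ ε > 0,
    ∃ R : ℝ, ∀ T > 0, ∀ᶠ N : ℕ in atTop,
      ‖F (g • z0) u ζ‖ ≤ ‖u‖ * ‖m (NA R T A) (π (g * b ^ N * g⁻¹)⁻¹ ζ)‖ + ε

/-- conjugation of a *-homomorphism by a unitary representation -/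
noncomputable def cj (π : E →* (K →L[ℂ] K)) (hπ : ∀ g, adjoint (π g) = π g⁻¹) (g : E)
    (F : C(Y, ℂ) →⋆ₐ[ℂ] (K →L[ℂ] K)) : C(Y, ℂ) →⋆ₐ[ℂ] (K →L[ℂ] K) where
  toFun f := π g * F f * π g⁻¹
  map_one' := by
    rw [map_one, mul_one, ← map_mul, mul_inv_cancel, map_one]
  map_mul' f h := by
    have h1 : π g⁻¹ * π g = 1 := by rw [← map_mul, inv_mul_cancel, map_one]
    rw [map_mul]
    calc π g * (F f * F h) * π g⁻¹ = π g * F f * (1 * (F h * π g⁻¹)) := by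
          simp only [one_mul, mul_assoc]
      _ = π g * F f * (π g⁻¹ * π g * (F h * π g⁻¹)) := by rw [h1]
      _ = _ := by simp only [mul_assoc]
  map_zero' := by rw [map_zero, mul_zero, zero_mul]
  map_add' f h := by rw [map_add, mul_add, add_mul]
  commutes' c := by
    have h2 : F (algebraMap ℂ C(Y, ℂ) c) = algebraMap ℂ (K →L[ℂ] K) c := AlgHomClass.commutes F c
    have h3 : π g * π g⁻¹ = 1 := by rw [← map_mul, mul_inv_cancel, map_one]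
    change π g * F (algebraMap ℂ C(Y, ℂ) c) * π g⁻¹ = _
    rw [h2, Algebra.algebraMap_eq_smul_one, mul_smul_comm, mul_one, smul_mul_assoc, h3]
  map_star' f := by
    rw [map_star, star_mul, star_mul]
    have h1 : star (π g⁻¹) = π g := by
      rw [star_eq_adjoint, hπ, inv_inv]
    have h2 : star (π g) = π g⁻¹ := by rw [star_eq_adjoint, hπ]
    rw [h1, h2, mul_assoc]

theorem cj_apply (π : E →* (K →L[ℂ] K)) (hπ : ∀ g, adjoint (π g) = π g⁻¹) (g : E)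
    (F : C(Y, ℂ) →⋆ₐ[ℂ] (K →L[ℂ] K)) (f : C(Y, ℂ)) : cj π hπ g F f = π g * F f * π g⁻¹ := rfl

variable {b : E} {π : E →* (K →L[ℂ] K)} {lam : Γ →* (K →L[ℂ] K)} {W : Set (K →L[ℂ] K)}
  {mp : (Γ → ℝ) → (K →L[ℂ] K)} {NA : ℝ → ℝ → Set Y → Set Γ} {z0 : Z} {Br : ℝ → Set Γ}
  {G1 G2 : Γ → ℝ} {bp : Γ → Y} {Bd Bf : Set K} {ms : E → Set Γ → ℝ}

/-- The geometric input at the level of the cut-offs. -/
def DomCut (NA : ℝ → ℝ → Set Y → Set Γ) (G1 G2 : Γ → ℝ) (bp : Γ → Y) : Prop :=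
  ∀ r, ∃ R : ℝ, ∀ T > 0, ∃ T' : ℝ, ∀ A : Set Y,
    cn G1 G2 bp A ⊆ NA R T A ∪ (FF G1 G2 T' ∪ BB G1 G2 r)

/-- A multiplication operator and the indicator of a set containing the support. -/
theorem mc_cut (h : Fn mp) {F : Γ → ℂ} {C : ℝ} (hF : ∀ g, ‖F g‖ ≤ C) {S : Set Γ}
    (hS : ∀ g, F g ≠ 0 → g ∈ S) : mc mp F = mc mp F * st mp S := by
  have h1 : ∀ g, |(F g).re| ≤ C := fun g => (Complex.abs_re_le_norm _).trans (hF g)
  have h2 : ∀ g, |(F g).im| ≤ C := fun g => (Complex.abs_im_le_norm _).trans (hF g)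
  have e1 : mp (fun g => (F g).re) * st mp S = mp (fun g => (F g).re) := by
    rw [st, h.comm h1 (abs_ind_le _)]
    exact h.st_mul h1 (fun g hg => hS g (fun h0 => hg (by simp only [h0, Complex.zero_re])))
  have e2 : mp (fun g => (F g).im) * st mp S = mp (fun g => (F g).im) := by
    rw [st, h.comm h2 (abs_ind_le _)]
    exact h.st_mul h2 (fun g hg => hS g (fun h0 => hg (by simp only [h0, Complex.zero_im])))
  rw [mc, add_mul, smul_mul_assoc, e1, e2]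

/-- **The domination along a conjugate.** -/
theorem dom_of [TopologicalSpace E] (h : SysF mp (fun g => π g) Bd ms (Subgroup.zpowers b⁻¹) Br G1 G2)
    (hG : GeoF Br G1 G2 bp) (hloc : Loc2 mp (fun g => π g) Bd Bf)
    (he : Esc (st mp) (fun g => π g) Bd (Subgroup.zpowers b⁻¹) (pw b⁻¹))
    (hcut : DomCut NA G1 G2 bp) {F : C(Y, ℂ) →⋆ₐ[ℂ] (K →L[ℂ] K)}
    (hF : IsLim mp (fun g => π g) G1 G2 bp (pw b⁻¹) F) (hπ : ∀ g, adjoint (π g) = π g⁻¹)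
    (g : E) (u : C(Y, ℂ)) (A0 : Set Y) (hu : tsupport u ⊆ A0) (ζ : K) {ε : ℝ} (hε : 0 < ε) :
    ∃ R : ℝ, ∀ T > 0, ∀ᶠ N : ℕ in atTop,
      ‖cj π hπ g F u ζ‖ ≤ ‖u‖ * ‖st mp (NA R T A0) (π (g * b ^ N * g⁻¹)⁻¹ ζ)‖ + ε := by
  have hprj : Prj (st mp) := h.sys.prj
  have hpw : ∀ N : ℕ, (b⁻¹ : E) ^ N = (b ^ N)⁻¹ := fun N => inv_pow _ _
  have hgap : ∀ u : Γ, ∃ C, ∀ x, |G1 (x * u) - G1 x| ≤ C ∧ |G2 (x * u) - G2 x| ≤ C := fun u => by
    obtain ⟨C, hC⟩ := hG.gap 1 u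
    exact ⟨C, fun x => by simpa using hC x⟩
  obtain ⟨X, hX⟩ : ∃ X : Γ → ℂ, X = CL.cfc G1 G2 bp u := ⟨_, rfl⟩
  have hXn : ∀ g, ‖X g‖ ≤ ‖u‖ := fun g => by
    rw [hX]; exact CL.cfc_norm (fun y => u.norm_coe_le_norm y) g
  have hiso : ∀ (v : E) (x : K), ‖π v x‖ = ‖x‖ := by
    intro v x
    have h1 := h.sys.rep.norm_eq v x
    change ‖π v x‖ = ‖π 1 x‖ at h1
    rw [h1, map_one]
    rfl
  -- (LU2)
  have hsq : Tendsto (fun N : ℕ => ‖mc mp X (π g (π (b ^ N)⁻¹ (π g⁻¹ ζ)))‖ ^ 2 -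
      ‖mc mp X (π (b ^ N)⁻¹ (π g⁻¹ ζ))‖ ^ 2) atTop (𝓝 0) := by
    have h1 := tendsto_pw.1 (H43.N.norm_shift h hloc hG he u g (π g⁻¹ ζ))
    refine h1.congr fun N => ?_
    rw [hpw, ← hX]
  obtain ⟨r, hr⟩ := ngl_shift h.sys hG.fin he hloc.sub hloc.dense hloc.map
    (fun v => loc_at hloc v) hgap g (π g⁻¹ ζ) (ε := ε / (4 * (‖u‖ + 1))) (by positivity)
  obtain ⟨R, hR⟩ := hcut r
  refine ⟨R, fun T hT => ?_⟩
  obtain ⟨T', hT'⟩ := hR T hT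
  have hlim := tendsto_pw.1 (hF u (π g⁻¹ ζ))
  have hr' := hr T'
  rw [pw, Filter.eventually_map] at hr'
  filter_upwards [hr', (Metric.tendsto_nhds.mp hsq) ((ε / 4) ^ 2) (by positivity),
    (Metric.tendsto_nhds.mp hlim) (ε / 4) (by positivity)] with N n1 n2 n3
  rw [dist_zero_right, Real.norm_eq_abs] at n2
  rw [dist_eq_norm] at n3
  rw [hpw] at n1 n3
  -- the vector
  have e0 : π (g * b ^ N * g⁻¹)⁻¹ ζ = π g (π (b ^ N)⁻¹ (π g⁻¹ ζ)) := by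
    have : (g * b ^ N * g⁻¹)⁻¹ = g * ((b ^ N)⁻¹ * g⁻¹) := by group
    rw [this, map_mul, map_mul]
    rfl
  rw [e0]
  obtain ⟨x, hx⟩ : ∃ x, x = π g (π (b ^ N)⁻¹ (π g⁻¹ ζ)) := ⟨_, rfl⟩
  rw [← hx] at n1 n2 ⊢
  -- step 1
  have s1 : ‖cj π hπ g F u ζ‖ = ‖F u (π g⁻¹ ζ)‖ := by
    rw [cj_apply]
    exact hiso g _
  have s2 : ‖F u (π g⁻¹ ζ)‖ ≤
      ‖PC mp (fun g => π g) (b ^ N)⁻¹ (CL.cfc G1 G2 bp u) (π g⁻¹ ζ)‖ + ε / 4 := by
    have h4 : F u (π g⁻¹ ζ) = PC mp (fun g => π g) (b ^ N)⁻¹ (CL.cfc G1 G2 bp u) (π g⁻¹ ζ) -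
      (PC mp (fun g => π g) (b ^ N)⁻¹ (CL.cfc G1 G2 bp u) (π g⁻¹ ζ) - F u (π g⁻¹ ζ)) := by abel
    rw [h4]
    exact (norm_sub_le _ _).trans (by linarith)
  have s3 : ‖PC mp (fun g => π g) (b ^ N)⁻¹ (CL.cfc G1 G2 bp u) (π g⁻¹ ζ)‖ =
      ‖mc mp X (π (b ^ N)⁻¹ (π g⁻¹ ζ))‖ := by
    rw [← hX]
    exact hiso _ _
  have s4 : ‖mc mp X (π (b ^ N)⁻¹ (π g⁻¹ ζ))‖ ≤ ‖mc mp X x‖ + ε / 4 := by
    refine abs_le_of_sq_le_sq' ?_ (by positivity) |>.2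
    have h5 := (abs_lt.1 n2).1
    have h6 := norm_nonneg (mc mp X x)
    nlinarith
  have s5 : ‖mc mp X x‖ ≤ ‖u‖ * ‖st mp (cn G1 G2 bp A0) x‖ := by
    have h5 : ∀ y, X y ≠ 0 → y ∈ cn G1 G2 bp A0 := by
      intro y hy
      rw [hX, CL.cfc] at hy
      refine ⟨?_, ?_⟩
      · by_contra h6
        rw [ind_neg (P := fun g => G2 g ≤ G1 g) h6, Complex.ofReal_zero, zero_mul] at hy
        exact hy rfl
      · refine hu (subset_tsupport _ ?_)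
        intro h6
        rw [h6, mul_zero] at hy
        exact hy rfl
    rw [mc_cut h.fn hXn h5]
    exact mc_norm h.fn (norm_nonneg _) hXn _
  have s6 : ‖st mp (cn G1 G2 bp A0) x‖ ≤ ‖st mp (NA R T A0) x‖ + ε / (4 * (‖u‖ + 1)) := by
    refine (hprj.mono (hT' A0) x).trans ?_
    refine (hprj.norm_union_le _ _ x).trans ?_
    exact add_le_add_right n1 _
  have s7 : ‖u‖ * (ε / (4 * (‖u‖ + 1))) ≤ ε / 4 := by
    rw [mul_div_assoc', div_le_div_iff₀ (by positivity) (by norm_num)]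
    have := norm_nonneg u
    nlinarith
  have s8 := mul_le_mul_of_nonneg_left s6 (norm_nonneg u)
  rw [mul_add] at s8
  rw [s1]
  linarith

/-- **[N-ENG], one leg: the engine gives the family of calculi.** -/
theorem fam_eng [TopologicalSpace E]
    (h : SysF mp (fun g => π g) Bd ms (Subgroup.zpowers b⁻¹) Br G1 G2)
    (hL : Leg mp (fun g => π g) (fun γ => lam γ) W) (hG : GeoF Br G1 G2 bp)
    (hS : Slow mp (fun g => π g) Bd) (hloc : Loc2 mp (fun g => π g) Bd Bf)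
    (he : Esc (st mp) (fun g => π g) Bd (Subgroup.zpowers b⁻¹) (pw b⁻¹))
    (hfu : Full (st mp) (fun g => π g) G1 G2 (pw b⁻¹)) (hcut : DomCut NA G1 G2 bp)
    (htr : ∀ z : Z, ∃ g : E, g • z0 = z)
    (hst : ∀ g : E, g • z0 = z0 → ∃ v n, g = v * n ∧ v * b = b * v ∧
      Tendsto (fun N : ℕ => (b ^ N)⁻¹ * n * b ^ N) atTop (𝓝 1)) :
    ∃ F : Z → (C(Y, ℂ) →⋆ₐ[ℂ] (K →L[ℂ] K)), Fam b π lam W (st mp) NA z0 F := by
  have hπ : ∀ g, adjoint (π g) = π g⁻¹ := h.sys.rep.adj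
  obtain ⟨β, hβ⟩ := engine h hL hG hS (fun g ξ hξ => tendsto_pw.1 (he.esc g ξ hξ))
    (H43.N.lu1_cn h hloc hG.fin he) hfu
  have hpw : ∀ N : ℕ, (b⁻¹ : E) ^ N = (b ^ N)⁻¹ := fun N => inv_pow _ _
  -- the stabiliser
  have hpar : ∀ g : E, g • z0 = z0 → ∀ f, π g * β f = β f * π g := by
    intro g hg f
    obtain ⟨v, n, rfl, hv, hn⟩ := hst g hg
    have h1 : π v * β f = β f * π v := by
      refine hβ.cent v ?_ f
      have h2 : Commute v b := hv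
      exact h2.inv_right.eq.symm
    have h2 : π n * β f = β f * π n := by
      refine hβ.contr n ?_ f
      refine hn.congr fun N => ?_
      rw [hpw, inv_inv]
    rw [map_mul, mul_assoc, h2, ← mul_assoc, h1, mul_assoc]
  have hinv : ∀ g : E, π g * π g⁻¹ = 1 := fun g => by rw [← map_mul, mul_inv_cancel, map_one]
  have hinv' : ∀ g : E, π g⁻¹ * π g = 1 := fun g => by rw [← map_mul, inv_mul_cancel, map_one]
  have heq : ∀ g g' : E, g • z0 = g' • z0 → cj π hπ g β = cj π hπ g' β := by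
    intro g g' hgg
    have h1 : (g'⁻¹ * g) • z0 = z0 := by rw [mul_smul, hgg, inv_smul_smul]
    refine StarAlgHom.ext fun f => ?_
    rw [cj_apply, cj_apply]
    have h2 := hpar _ h1 f
    have h3 : π g = π g' * π (g'⁻¹ * g) := by rw [← map_mul, mul_inv_cancel_left]
    have h4 : π g⁻¹ = π (g'⁻¹ * g)⁻¹ * π g'⁻¹ := by
      rw [← map_mul, ← mul_inv_rev, mul_inv_cancel_left]
    calc π g * β f * π g⁻¹ = π g' * (π (g'⁻¹ * g) * β f) * (π (g'⁻¹ * g)⁻¹ * π g'⁻¹) := by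
          rw [h4, h3]; simp only [mul_assoc]
      _ = π g' * β f * (π (g'⁻¹ * g) * π (g'⁻¹ * g)⁻¹) * π g'⁻¹ := by
          rw [h2]; simp only [mul_assoc]
      _ = _ := by rw [hinv, mul_one]
  choose s hs using htr
  have hF : ∀ g : E, cj π hπ (s (g • z0)) β = cj π hπ g β := fun g => heq _ _ (hs _)
  refine ⟨fun z => cj π hπ (s z) β, ?_, ?_, ?_, ?_⟩
  · intro z f x hx
    obtain ⟨g, hg⟩ : ∃ g, g = s z := ⟨_, rfl⟩
    rw [← hg, cj_apply]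
    have h1 : π g⁻¹ * x * π g ∈ W := by
      have := hL.WP x hx g⁻¹
      simpa only [inv_inv] using this
    have h2 : β f * (π g⁻¹ * x * π g) = (π g⁻¹ * x * π g) * β f := (hβ.cm _ h1 f).symm
    calc π g * β f * π g⁻¹ * x = π g * (β f * (π g⁻¹ * x * π g)) * π g⁻¹ := by
          have e : x = x * (π g * π g⁻¹) := by rw [hinv, mul_one]
          conv_lhs => rw [e]
          simp only [mul_assoc]
      _ = π g * ((π g⁻¹ * x * π g) * β f) * π g⁻¹ := by rw [h2]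
      _ = (π g * π g⁻¹) * x * (π g * β f * π g⁻¹) := by simp only [mul_assoc]
      _ = x * (π g * β f * π g⁻¹) := by rw [hinv, one_mul]
  · intro γ z f f' hff
    obtain ⟨g, hg⟩ : ∃ g, g = s z := ⟨_, rfl⟩
    rw [← hg, cj_apply, cj_apply, ← hβ.cov γ f f' hff]
    have h1 := hL.comm g γ
    have h2 := hL.comm g⁻¹ γ⁻¹
    calc lam γ * (π g * β f * π g⁻¹) * lam γ⁻¹ = (lam γ * π g) * β f * (π g⁻¹ * lam γ⁻¹) := by
          simp only [mul_assoc]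
      _ = (π g * lam γ) * β f * (lam γ⁻¹ * π g⁻¹) := by rw [← h1, h2]
      _ = _ := by simp only [mul_assoc]
  · intro v z f
    obtain ⟨g, hg⟩ : ∃ g, g = s z := ⟨_, rfl⟩
    have h1 : z = g • z0 := by rw [hg, hs]
    rw [← hg, h1, ← mul_smul, hF, cj_apply, cj_apply, mul_inv_rev, map_mul, map_mul]
    simp only [mul_assoc]
  · intro g u A0 hu ζ ε hε
    rw [hF]
    exact dom_of h hG hloc he hcut hβ.lim hπ g u A0 hu ζ hε

end fam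

section two

variable {E Γ Y₁ Y₂ Z K : Type} [Group E] [TopologicalSpace E] [Group Γ] [MulAction E Z]
  [TopologicalSpace Y₁] [CompactSpace Y₁] [MulAction Γ Y₁] [TopologicalSpace Y₂]
  [CompactSpace Y₂] [MulAction Γ Y₂] [NormedAddCommGroup K] [InnerProductSpace ℂ K]
  [CompleteSpace K] {b : E} {π : E →* (K →L[ℂ] K)} {lam : Γ →* (K →L[ℂ] K)}
  {W : Set (K →L[ℂ] K)} {Ω : K} {mp : (Γ → ℝ) → (K →L[ℂ] K)} {Bd Bf : Set K}
  {ms : E → Set Γ → ℝ} {θ : E →* E} {z0 : Z} {Br : ℝ → Set Γ}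
  {NA₁ : ℝ → ℝ → Set Y₁ → Set Γ} {NA₂ : ℝ → ℝ → Set Y₂ → Set Γ} {G1 G2 H1 H2 : Γ → ℝ}
  {bp₁ : Γ → Y₁} {bp₂ : Γ → Y₂}

/-- The source data: a picture with multiplication operators, the wall element `b` and the
duality `θ` of the source group, and the homogeneous space `Z = E / P` of the conjugates of `b`. -/
structure Src (b : E) (θ : E →* E) (π : E →* (K →L[ℂ] K)) (lam : Γ →* (K →L[ℂ] K))
    (W : Set (K →L[ℂ] K)) (Ω : K) (mp : (Γ → ℝ) → (K →L[ℂ] K)) (Bd Bf : Set K) (z0 : Z) :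
    Prop where
  pic : Pic π lam W Ω
  mcov : ∀ γ (F : Γ → ℝ), (∀ g, |F g| ≤ 1) →
    lam γ * mp F * lam γ⁻¹ = mp (fun g => F (γ⁻¹ * g))
  mW : ∀ w ∈ W, ∀ F : Γ → ℝ, (∀ g, |F g| ≤ 1) → w * mp F = mp F * w
  slow : Slow mp (fun g => π g) Bd
  loc : Loc2 mp (fun g => π g) Bd Bf
  esc : ∀ g, ∀ ξ ∈ Bd, Tendsto (fun n : ℕ => ‖st mp {g} (π (b ^ n) ξ)‖) atTop (𝓝 0)
  esc' : ∀ g, ∀ ξ ∈ Bd, Tendsto (fun n : ℕ => ‖st mp {g} (π (b⁻¹ ^ n) ξ)‖) atTop (𝓝 0)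
  sym : Sym mp (fun g => π g) Ω
  cont : Continuous θ
  dual : θ b = b⁻¹
  trans : ∀ z : Z, ∃ g : E, g • z0 = z
  stab : ∀ g : E, g • z0 = z0 → ∃ v n, g = v * n ∧ v * b = b * v ∧
    Tendsto (fun N : ℕ => (b ^ N)⁻¹ * n * b ^ N) atTop (𝓝 1)

theorem Src.esc1 (S : Src b θ π lam W Ω mp Bd Bf z0) :
    Esc (st mp) (fun g => π g) Bd (Subgroup.zpowers b) (pw b) :=
  ⟨pw_mem b, fun g ξ hξ => tendsto_pw.2 (S.esc g ξ hξ)⟩

theorem Src.esc2 (S : Src b θ π lam W Ω mp Bd Bf z0) :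
    Esc (st mp) (fun g => π g) Bd (Subgroup.zpowers b) (pw b⁻¹) :=
  ⟨by
    have := pw_mem (b⁻¹ : E)
    rwa [Subgroup.zpowers_inv] at this, fun g ξ hξ => tendsto_pw.2 (S.esc' g ξ hξ)⟩

theorem Src.leg (S : Src b θ π lam W Ω mp Bd Bf z0) :
    Leg mp (fun g => π g) (fun γ => lam γ) W := H76.Dicho.leg_of_pic S.pic S.mcov S.mW

theorem Src.tθ (S : Src b θ π lam W Ω mp Bd Bf z0) : Tendsto θ (pw b⁻¹) (pw b) := by
  rw [tendsto_pw]
  have e : (fun n : ℕ => θ (b⁻¹ ^ n)) = fun n : ℕ => b ^ n := by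
    funext n
    rw [map_pow, map_inv, S.dual, inv_inv]
  rw [e, pw]
  exact tendsto_map

/-- **Two legs, from the fullness in both directions.** -/
theorem two_fam (S : Src b θ π lam W Ω mp Bd Bf z0)
    (h₁ : SysF mp (fun g => π g) Bd ms (Subgroup.zpowers b) Br G1 G2)
    (h₂ : SysF mp (fun g => π g) Bd ms (Subgroup.zpowers b) Br H1 H2)
    (hG₁ : GeoF Br G1 G2 bp₁) (hG₂ : GeoF Br H1 H2 bp₂) (hc₁ : DomCut NA₁ G1 G2 bp₁)
    (hc₂ : DomCut NA₂ H1 H2 bp₂) (hf₁ : Full (st mp) (fun g => π g) G1 G2 (pw b⁻¹))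
    (hf₂ : Full (st mp) (fun g => π g) H1 H2 (pw b)) :
    ∃ (F₁ : Z → (C(Y₁, ℂ) →⋆ₐ[ℂ] (K →L[ℂ] K))) (F₂ : Z → (C(Y₂, ℂ) →⋆ₐ[ℂ] (K →L[ℂ] K))),
      Fam b π lam W (st mp) NA₁ z0 F₁ ∧ Fam b (π.comp θ) lam W (st mp) NA₂ z0 F₂ := by
  have hz : Subgroup.zpowers b⁻¹ = Subgroup.zpowers b := Subgroup.zpowers_inv
  have hcom : (Subgroup.zpowers b⁻¹ : Subgroup E) ≤ (Subgroup.zpowers b).comap θ := by
    rw [Subgroup.zpowers_le]
    change θ b⁻¹ ∈ Subgroup.zpowers b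
    rw [map_inv, S.dual, inv_inv]
    exact Subgroup.mem_zpowers b
  obtain ⟨F₁, hF₁⟩ := fam_eng (Z := Z) (z0 := z0) (NA := NA₁) (h₁.mono hz.le) S.leg hG₁ S.slow
    S.loc (by rw [hz]; exact S.esc2) hf₁ hc₁ S.trans S.stab
  obtain ⟨F₂, hF₂⟩ := fam_eng (Z := Z) (z0 := z0) (NA := NA₂) (π := π.comp θ)
    ((h₂.comp θ).mono hcom) (H107.Cp.leg_comp S.leg θ) hG₂
    (H107.Cp.slow_comp S.slow S.cont) (loc2_comp S.loc θ)
    ⟨by exact pw_mem _, (H107.Cp.esc_comp S.esc1 S.tθ).esc⟩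
    (H107.Cp.full_comp hf₂ S.tθ) hc₂ S.trans S.stab
  exact ⟨F₁, F₂, hF₁, hF₂⟩

/-- **[N-ENG] + [N-DICHO]: two legs, in one of the two types.** -/
theorem dis (S : Src b θ π lam W Ω mp Bd Bf z0)
    (h₁ : SysF mp (fun g => π g) Bd ms (Subgroup.zpowers b) Br G1 G2)
    (h₂ : SysF mp (fun g => π g) Bd ms (Subgroup.zpowers b) Br H1 H2)
    (hG₁ : GeoF Br G1 G2 bp₁) (hG₂ : GeoF Br H1 H2 bp₂) (hc₁ : DomCut NA₁ G1 G2 bp₁)
    (hc₂ : DomCut NA₂ H1 H2 bp₂)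
    (hp : Pos (st mp) (fun g => π g) G2 H2 (pw b)) (hp' : Pos (st mp) (fun g => π g) G2 H2 (pw b⁻¹))
    {C : ℝ} (hC : Gaps G1 G2 H1 H2 C)
    (hNI : H76.Pur.NIS (fun (γ : Γ) (y : Y₁) => γ • y)) {N N' L : Set E}
    (hN : ∀ n ∈ N, Tendsto (fun i : ℕ => b ^ i * n * (b ^ i)⁻¹) atTop (𝓝 1))
    (hN' : ∀ n ∈ N', Tendsto (fun i : ℕ => (b ^ i)⁻¹ * n * b ^ i) atTop (𝓝 1))
    (hLb : ∀ n ∈ L, Commute b n) (hM : Moore N) (hM' : Moore N')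
    (hcl : Subgroup.closure (N ∪ N' ∪ L) = ⊤) :
    (∃ (F₁ : Z → (C(Y₁, ℂ) →⋆ₐ[ℂ] (K →L[ℂ] K))) (F₂ : Z → (C(Y₂, ℂ) →⋆ₐ[ℂ] (K →L[ℂ] K))),
      Fam b π lam W (st mp) NA₁ z0 F₁ ∧ Fam b (π.comp θ) lam W (st mp) NA₂ z0 F₂) ∨
    (∃ (F₂ : Z → (C(Y₂, ℂ) →⋆ₐ[ℂ] (K →L[ℂ] K))) (F₁ : Z → (C(Y₁, ℂ) →⋆ₐ[ℂ] (K →L[ℂ] K))),
      Fam b π lam W (st mp) NA₂ z0 F₂ ∧ Fam b (π.comp θ) lam W (st mp) NA₁ z0 F₁) := by
  rcases dicho_pic S.pic h₁ hG₁ S.mcov S.mW S.slow S.esc1 S.esc2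
    (H43.N.lu1_cn h₁ S.loc hG₁.fin S.esc1) (H43.N.lu1_cn h₁ S.loc hG₁.fin S.esc2) hp hp' S.sym hC
    hNI hN hN' hLb hM hM' hcl with ⟨k1, k2⟩ | ⟨k1, k2⟩
  · right
    exact two_fam S h₂ h₁ hG₂ hG₁ hc₂ hc₁ k2 k1
  · left
    exact two_fam S h₁ h₂ hG₁ hG₂ hc₁ hc₂ k2 k1

end two

end Vale.Agent.P092.H859.CN
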