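import Vale.Agent.P092.H156.UnifI
import Vale.Agent.P092.H790.BaseI
import Vale.Agent.P092.H790.ME
import Vale.Agent.P092.H132.EX
import Vale.Agent.P092.H967.S3

/-!
P092 (helper859): measure equivalence data: escape of the induced representation and the
covariant family of positive operators indexed by the subsets of `D`.
-/

set_option linter.all false

open scoped InnerProductSpace
open Filter Topology ContinuousLinearMap MeasureTheory

namespace Vale.Agent.P092.H859

open Vale.Agent.P092.H160 Vale.Agent.P092.H553 Vale.Agent.P092.H432 Vale.Agent.P092.H790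
open Vale.Agent.P092.H132 (Base TRep EFamT)
open Vale.Agent.P092.H761 (massR)
open Vale.Agent.P092.H538 (ind ind_nonneg ind_le_one abs_ind_le ind_pos ind_neg)

section fib

variable {Γ Λ ι : Type} [Group Γ] [Group Λ] [Fintype ι] {t : ℝ}
  {R : Λ → (Ell2 (Γ × ι) →L[ℂ] Ell2 (Γ × ι))}

theorem ind_tendsto (g : Γ) : Tendsto (ind fun h : Γ => h = g) cofinite (𝓝 0) := by
  rw [Metric.tendsto_nhds]
  intro ε hε
  rw [eventually_cofinite]
  refine (Set.finite_singleton g).subset fun h hh => ?_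
  by_contra hne
  refine hh ?_
  rw [ind_neg (P := fun h => h = g) hne, dist_self]
  exact hε

/-- Masses at one element of `Γ` vanish at infinity. -/
theorem mass1_tendsto (hR : ARep t R) (g : Γ) (i : ι) :
    Tendsto (fun v : Λ => ‖mp ι (ind fun h : Γ => h = g) (R v (ep i))‖) cofinite (𝓝 0) := by
  rw [Metric.tendsto_nhds]
  intro ε hε
  rw [eventually_cofinite]
  by_contra hinf
  have hinf' : Set.Infinite {v : Λ | ¬ dist ‖mp ι (ind fun h : Γ => h = g) (R v (ep i))‖ 0 < ε} :=
    hinf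
  obtain ⟨z, hz⟩ : ∃ z : ℕ → Λ, z = fun k => (hinf'.natEmbedding _ k : Λ) := ⟨_, rfl⟩
  have hinj : Function.Injective z := by
    rw [hz]
    exact Subtype.val_injective.comp (hinf'.natEmbedding _).injective
  have hU : ∀ v : Λ, ∀ᶠ k in (hyperfilter ℕ : Filter ℕ), z k ≠ v := by
    intro v
    have h1 : {k | z k = v}.Finite := (Set.finite_singleton v).preimage hinj.injOn
    exact Filter.hyperfilter_le_cofinite h1.compl_mem_cofinite
  have h1 := H967.smallA_of_tendsto (U := hyperfilter ℕ) hR hU (abs_ind_le fun h : Γ => h = g)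
    (ind_tendsto g) (ep i)
  obtain ⟨k, hk⟩ := ((Metric.tendsto_nhds.mp h1) ε hε).exists
  have h2 : z k ∈ {v : Λ | ¬ dist ‖mp ι (ind fun h : Γ => h = g) (R v (ep i))‖ 0 < ε} := by
    rw [hz]
    exact (hinf'.natEmbedding _ k).2
  exact h2 hk

theorem ind_mul_self (P : Γ → Prop) : (fun g => ind P g * ind P g) = ind P := by
  funext g
  by_cases h : P g
  · rw [ind_pos h, mul_one]
  · rw [ind_neg h, mul_zero]

theorem massR_ind (hR : ARep t R) (P : Γ → Prop) (v : Λ) :
    massR R v (ind P) = ∑ i, ‖mp ι (ind P) (R v (ep i))‖ ^ 2 := by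
  unfold massR
  refine Finset.sum_congr rfl fun i _ => ?_
  have h1 : (mp ι (ind P) : Ell2 (Γ × ι) →L[ℂ] Ell2 (Γ × ι)) = mp ι (ind P) * mp ι (ind P) := by
    rw [← mp_mul' (abs_ind_le P) (abs_ind_le P), ind_mul_self]
  conv_lhs => rw [h1]
  rw [mul_ap, ← inner_mp_left (abs_ind_le P), inner_self_eq_norm_sq_to_K]
  norm_cast

theorem massR_nonneg' (hR : ARep t R) (P : Γ → Prop) (v : Λ) : 0 ≤ massR R v (ind P) := by
  rw [massR_ind hR]; positivity

theorem massR_le (hR : ARep t R) (P : Γ → Prop) (v : Λ) :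
    massR R v (ind P) ≤ Fintype.card ι := by
  rw [massR_ind hR]
  have h1 : ∀ i : ι, ‖mp ι (ind P) (R v (ep i))‖ ^ 2 ≤ 1 := by
    intro i
    have h2 : ‖mp ι (ind P) (R v (ep i))‖ ≤ 1 := by
      have h3 := norm_mp_le (ι := ι) (abs_ind_le P) (R v (ep i))
      have h4 : ‖R v (ep i)‖ ≤ 1 := (hR.norm_le _ _).trans (by rw [ep, norm_dl])
      linarith
    exact pow_le_one₀ (norm_nonneg _) h2
  calc ∑ i, ‖mp ι (ind P) (R v (ep i))‖ ^ 2 ≤ ∑ i : ι, (1 : ℝ) :=
        Finset.sum_le_sum fun i _ => h1 i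
    _ = Fintype.card ι := by simp

theorem massR_tendsto (hR : ARep t R) (g : Γ) :
    Tendsto (fun v : Λ => massR R v (ind fun h : Γ => h = g)) cofinite (𝓝 0) := by
  simp only [massR_ind hR]
  have : Tendsto (fun v : Λ => ∑ i, ‖mp ι (ind fun h : Γ => h = g) (R v (ep i))‖ ^ 2) cofinite
      (𝓝 (∑ i : ι, (0 : ℝ) ^ 2)) :=
    tendsto_finsetSum _ fun i _ => (mass1_tendsto hR g i).pow 2
  simpa using this

end fib

section int

variable {D Λ : Type} [Group D] [Group Λ] [Countable Λ]

theorem meas_c (d : CData D Λ) (w : D) (f : Λ → ℝ) : Measurable fun x => f (d.c w x) := by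
  letI : MeasurableSpace Λ := ⊤
  have h1 : Measurable (d.c w) := measurable_to_countable' fun v => d.c_meas w v
  exact measurable_from_top.comp h1

/-- Integrals of functions of the cocycle vanishing at infinity vanish at infinity. -/
theorem int_tendsto (m : MEData D Λ) {f : Λ → ℝ} {C : ℝ} (hf0 : ∀ v, 0 ≤ f v) (hfC : ∀ v, f v ≤ C)
    (hf : Tendsto f cofinite (𝓝 0)) :
    Tendsto (fun w : D => ∫ x, f (m.toC.c w x) ∂m.toC.μ) cofinite (𝓝 0) := by
  classical
  have hC : 0 ≤ C := (hf0 1).trans (hfC 1)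
  rw [Metric.tendsto_nhds]
  intro ε hε
  have h1 := (Metric.tendsto_nhds.mp hf) (ε / 2) (by positivity)
  rw [eventually_cofinite] at h1
  obtain ⟨F, hF⟩ : ∃ F, F = h1.toFinset := ⟨_, rfl⟩
  have hF1 : ∀ v, v ∉ F → f v ≤ ε / 2 := by
    intro v hv
    by_contra hn
    push Not at hn
    refine hv ?_
    rw [hF, Set.Finite.mem_toFinset]
    change ¬ dist (f v) 0 < ε / 2
    rw [Real.dist_eq, sub_zero, abs_of_nonneg (hf0 v)]
    exact not_lt.mpr hn.le
  have h2 : Tendsto (fun w : D => ∑ v ∈ F, C * m.toC.μ.real {x | m.toC.c w x = v}) cofinite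
      (𝓝 (∑ v ∈ F, C * (0 : ℝ))) :=
    tendsto_finsetSum _ fun v _ => (m.escape v).const_mul C
  rw [Finset.sum_eq_zero fun v _ => mul_zero C] at h2
  filter_upwards [(Metric.tendsto_nhds.mp h2) (ε / 2) (by positivity)] with w hw
  rw [Real.dist_eq, sub_zero] at hw ⊢
  have h3 : ∫ x, f (m.toC.c w x) ∂m.toC.μ ≤
      ∫ x, (ε / 2 + ∑ v ∈ F, C * Set.indicator {x | m.toC.c w x = v} (fun _ => (1 : ℝ)) x)
        ∂m.toC.μ := by
    refine integral_mono ?_ ?_ fun x => ?_
    · exact Integrable.of_bound (C := C) (meas_c m.toC w f).aestronglyMeasurable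
        (Eventually.of_forall fun x => by
          rw [Real.norm_eq_abs, abs_of_nonneg (hf0 _)]; exact hfC _)
    · refine (integrable_const _).add (integrable_finsetSum _ fun v _ => ?_)
      exact ((integrable_const _).indicator (m.toC.c_meas w v)).const_mul C
    · by_cases hx : m.toC.c w x ∈ F
      · have h4 : C * Set.indicator {x | m.toC.c w x = m.toC.c w x} (fun _ => (1 : ℝ)) x ≤
            ∑ v ∈ F, C * Set.indicator {x | m.toC.c w x = v} (fun _ => (1 : ℝ)) x := by
          have h5 := Finset.single_le_sum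
            (f := fun v => C * Set.indicator {x | m.toC.c w x = v} (fun _ => (1 : ℝ)) x)
            (fun v _ => mul_nonneg hC (Set.indicator_nonneg (fun _ _ => zero_le_one) _)) hx
          refine le_trans (le_of_eq ?_) h5
          simp [Set.indicator]
        have h6 : Set.indicator {x | m.toC.c w x = m.toC.c w x} (fun _ => (1 : ℝ)) x = 1 := by
          simp [Set.indicator]
        rw [h6, mul_one] at h4
        have := hfC (m.toC.c w x)
        show f (m.toC.c w x) ≤ _
        linarith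
      · have h4 : 0 ≤ ∑ v ∈ F, C * Set.indicator {x | m.toC.c w x = v} (fun _ => (1 : ℝ)) x :=
          Finset.sum_nonneg fun v _ =>
            mul_nonneg hC (Set.indicator_nonneg (fun _ _ => zero_le_one) _)
        have := hF1 _ hx
        show f (m.toC.c w x) ≤ _
        linarith
  have h7 : ∫ x, (ε / 2 + ∑ v ∈ F, C * Set.indicator {x | m.toC.c w x = v} (fun _ => (1 : ℝ)) x)
      ∂m.toC.μ = ε / 2 + ∑ v ∈ F, C * m.toC.μ.real {x | m.toC.c w x = v} := by
    rw [integral_add (integrable_const _) (integrable_finsetSum _ fun v _ =>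
      ((integrable_const _).indicator (m.toC.c_meas w v)).const_mul C),
      integral_finsetSum _ fun v _ =>
        ((integrable_const _).indicator (m.toC.c_meas w v)).const_mul C]
    congr 1
    · simp
    · refine Finset.sum_congr rfl fun v _ => ?_
      rw [integral_const_mul, integral_indicator_const _ (m.toC.c_meas w v)]
      simp
  rw [h7] at h3
  have h8 : 0 ≤ ∫ x, f (m.toC.c w x) ∂m.toC.μ := integral_nonneg fun x => hf0 _
  rw [abs_of_nonneg h8]
  have h9 := le_abs_self (∑ v ∈ F, C * m.toC.μ.real {x | m.toC.c w x = v})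
  linarith

end int

section esc

variable {D Λ Γ ι : Type} [Group D] [Group Λ] [Countable Λ] [Group Γ] [Countable Γ] [Fintype ι]
  {t : ℝ} {R : Λ → (Ell2 (Γ × ι) →L[ℂ] Ell2 (Γ × ι))}

/-- The induced representation escapes. -/
theorem t_hesc (m : MEData D Λ) (hR : ARep t R) (i : ι) (g : Γ) :
    Tendsto (fun w : D => ‖(baseL m.toC.μ Γ ι).mp (ind fun h => h = g)
      (Ri m.toC R w ((baseL m.toC.μ Γ ι).ep i))‖) cofinite (𝓝 0) := by
  have h1 : ∀ w : D, ‖(baseL m.toC.μ Γ ι).mp (ind fun h => h = g)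
      (Ri m.toC R w ((baseL m.toC.μ Γ ι).ep i))‖ ^ 2 ≤
      ∫ x, massR R (m.toC.c w x) (ind fun h => h = g) ∂m.toC.μ := by
    intro w
    rw [← H156.mass_int m.toC hR w (ind fun h => h = g) (fun i => ept m.toC.μ i)
      (fun i => ept_ae i)]
    have h2 : ∀ j : ι, ‖(baseL m.toC.μ Γ ι).mp (ind fun h => h = g)
        (Ri m.toC R w ((baseL m.toC.μ Γ ι).ep j))‖ ^ 2 =
        (⟪Ri m.toC R w (ept m.toC.μ j), (mp ι (ind fun h : Γ => h = g)).compLpL 2 m.toC.μ
          (Ri m.toC R w (ept m.toC.μ j))⟫_ℂ).re := by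
      intro j
      rw [← (baseL m.toC.μ Γ ι).inner_mp_sq (abs_ind_le _), ind_mul_self]
      rfl
    rw [h2 i]
    refine Finset.single_le_sum (f := fun j => (⟪Ri m.toC R w (ept m.toC.μ j),
      (mp ι (ind fun h : Γ => h = g)).compLpL 2 m.toC.μ (Ri m.toC R w (ept m.toC.μ j))⟫_ℂ).re)
      (fun j _ => ?_) (Finset.mem_univ i)
    rw [← h2 j]
    positivity
  have h3 := int_tendsto m (fun v => massR_nonneg' hR (fun h : Γ => h = g) v)
    (fun v => massR_le hR (fun h : Γ => h = g) v) (massR_tendsto hR g)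
  have h4 := (Real.continuous_sqrt.tendsto 0).comp h3
  rw [Real.sqrt_zero] at h4
  refine squeeze_zero (fun w => norm_nonneg _) (fun w => ?_) h4
  rw [Function.comp_apply]
  exact Real.le_sqrt_of_sq_le (h1 w)

theorem t_esc (m : MEData D Λ) (hR : ARep t R) {U : Ultrafilter ℕ} {z : ℕ → D}
    (hU : ∀ v : D, ∀ᶠ k in U, z k ≠ v) : (baseL m.toC.μ Γ ι).EscA U (Ri m.toC R) z :=
  H132.Base.escA_of_cofinite (t_hesc m hR) hU

end esc

section efam

variable {D Λ : Type} [Group D] [Group Λ]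

/-- The equivariant map of a fundamental domain. -/
noncomputable def th (m : MEData D Λ) (x : m.X) (v : Λ) : D := ((m.Y_dom x v).choose)⁻¹

theorem th_iff (m : MEData D Λ) (x : m.X) (v : Λ) (g : D) :
    th m x v = g⁻¹ ↔ m.act g x ∈ m.Y (v * (m.c g x)⁻¹) := by
  have h := (m.Y_dom x v).choose_spec
  rw [th, inv_inj]
  constructor
  · intro e
    rw [← e]; exact h.1
  · intro e
    exact (h.2 g e).symm

theorem th_eq (m : MEData D Λ) (g : D) (x : m.X) (w : Λ) :
    th m (m.act g x) w = g * th m x (w * m.c g x) := by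
  obtain ⟨h, hh⟩ : ∃ h : D, th m (m.act g x) w = h⁻¹ := ⟨(th m (m.act g x) w)⁻¹, (inv_inv _).symm⟩
  have h1 := (th_iff m _ _ _).mp hh
  rw [← m.act_mul] at h1
  have h2 : th m x (w * m.c g x) = (h * g)⁻¹ := by
    rw [th_iff, m.c_mul]
    have e : w * m.c g x * (m.c h (m.act g x) * m.c g x)⁻¹ = w * (m.c h (m.act g x))⁻¹ := by group
    rw [e]
    exact h1
  rw [h2, hh]
  group

theorem th_meas [Countable D] [Countable Λ] (m : MEData D Λ) (A : Set D) (w : Λ) :
    MeasurableSet {x | th m x w ∈ A} := by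
  have h1 : {x | th m x w ∈ A} = ⋃ g ∈ {g : D | g⁻¹ ∈ A}, ⋃ v : Λ,
      {x | m.c g x = v} ∩ (m.act g ⁻¹' m.Y (w * v⁻¹)) := by
    ext x
    simp only [Set.mem_setOf_eq, Set.mem_iUnion, Set.mem_inter_iff, Set.mem_preimage, exists_prop]
    constructor
    · intro hx
      refine ⟨(th m x w)⁻¹, by rwa [inv_inv], m.c (th m x w)⁻¹ x, rfl, ?_⟩
      exact (th_iff m x w _).mp (inv_inv _).symm
    · rintro ⟨g, hg, v, hv, hY⟩
      rw [← hv] at hY
      rw [(th_iff m x w g).mpr hY]
      exact hg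
  rw [h1]
  refine MeasurableSet.biUnion (Set.to_countable _) fun g _ => MeasurableSet.iUnion fun v => ?_
  exact (m.c_meas g v).inter ((m.mp g).measurable (m.Y_meas _))

variable {Γ ι : Type} [Group Γ] [Countable Γ] [Fintype ι] [Countable Λ]
  {t : ℝ} {R : Λ → (Ell2 (Γ × ι) →L[ℂ] Ell2 (Γ × ι))}

/-- The covariant family of positive operators of a measure equivalence datum. -/
theorem t_efam [Countable D] (m : MEData D Λ) (hR : ARep t R) :
    ∃ E, EFamT (baseL m.toC.μ Γ ι) (Ri m.toC R) E := by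
  obtain ⟨E, h1, h2, h3, h4, h5⟩ := H132.exists_efx (𝔾 := D) (Y := D) hR
    (fun v => hR.opNorm_le v) m.toC (fun x v => th m x v) (fun g x w => th_eq m g x w)
    (Ms := Set.univ) (fun A _ w => th_meas m A w) (Set.mem_univ _) (fun _ _ => Set.mem_univ _)
    (fun _ _ _ => Set.mem_univ _) (fun _ _ _ _ => Set.mem_univ _)
  refine ⟨fun A => E {x | x⁻¹ ∈ A}, ?_, ?_, ?_, ?_, ?_⟩
  · exact fun A => h1 _ (Set.mem_univ _)
  · intro A A' hAA
    rw [← h2 _ (Set.mem_univ _) _ (Set.mem_univ _)]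
    · rfl
    · rw [Set.disjoint_left] at hAA ⊢
      exact fun x hx hx' => hAA hx hx'
  · have e : {x : D | x⁻¹ ∈ (Set.univ : Set D)} = Set.univ := by
      ext x; simp
    rw [e, h3]
  · intro v A
    rw [h4 v _ (Set.mem_univ _)]
    congr 1
    ext x
    simp only [Set.mem_setOf_eq, smul_eq_mul, mul_inv_rev, inv_inv]
  · rintro A a ⟨S, hS, rfl⟩
    exact h5 _ (Set.mem_univ _) S hS

end efam

end Vale.Agent.P092.H859
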