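import Vale.Agent.P092.CL.Lt

/-!
P092, TEAM P, [CL-GEO] st1, st2 (helper859): the stabiliser of the base point (base maximal
singular space) is the centraliser of the wall element times a contracted part.
-/

set_option linter.all false

open Matrix Module Set Filter Topology

namespace Vale.Agent.P092.H859.Cg

open Vale.Agent.P092.H303 (FormGroup Idx hyp torF torF_mem dgF isClosed_formGroup)
open Vale.Agent.P092.H714.Cl
open Vale.Agent.P092.H370.Po (SGr Inc act smul_S act_inv_act act_act_inv vecMul_mem_act)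
open Vale.Agent.P092.CL (ep em p0 m0 b1 b2)

/-- the abstract splitting -/
theorem split_of {G : Type*} [Group G] [TopologicalSpace G] [IsTopologicalGroup G] [T2Space G]
    {b g v : G} (h : Tendsto (fun N : ℕ => (b ^ N)⁻¹ * g * b ^ N) atTop (𝓝 v)) :
    ∃ v n : G, g = v * n ∧ v * b = b * v ∧
      Tendsto (fun N : ℕ => (b ^ N)⁻¹ * n * b ^ N) atTop (𝓝 1) := by
  have hs : Tendsto (fun N : ℕ => (b ^ (N + 1))⁻¹ * g * b ^ (N + 1)) atTop (𝓝 v) :=
    h.comp (tendsto_add_atTop_nat 1)
  have hc : Tendsto (fun N : ℕ => b⁻¹ * ((b ^ N)⁻¹ * g * b ^ N) * b) atTop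
      (𝓝 (b⁻¹ * v * b)) := (h.const_mul b⁻¹).mul_const b
  have he : ∀ N : ℕ, (b ^ (N + 1))⁻¹ * g * b ^ (N + 1) =
      b⁻¹ * ((b ^ N)⁻¹ * g * b ^ N) * b := by
    intro N
    rw [pow_succ, _root_.mul_inv_rev]
    simp only [mul_assoc]
  have e1 : v = b⁻¹ * v * b := tendsto_nhds_unique (hs.congr he) hc
  have e2 : v * b = b * v := by
    calc v * b = b * (b⁻¹ * v * b) := by simp only [mul_assoc, mul_inv_cancel_left]
      _ = b * v := by rw [← e1]
  have e3 : ∀ N : ℕ, v⁻¹ * (b ^ N)⁻¹ = (b ^ N)⁻¹ * v⁻¹ := fun N =>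
    (((show Commute v b from e2).pow_right N).inv_inv).eq
  refine ⟨v, v⁻¹ * g, by rw [mul_inv_cancel_left], e2, ?_⟩
  have h2 : Tendsto (fun N : ℕ => v⁻¹ * ((b ^ N)⁻¹ * g * b ^ N)) atTop (𝓝 (v⁻¹ * v)) :=
    h.const_mul v⁻¹
  rw [inv_mul_cancel] at h2
  refine h2.congr fun N => ?_
  rw [← mul_assoc, ← mul_assoc, e3, mul_assoc (b ^ N)⁻¹ v⁻¹ g]

section mat

variable {k : Type} [NontriviallyNormedField k] {n : Type} [Fintype n] [DecidableEq n]
  {σ : k →+* k} {J : Matrix n n k}

/-- conjugation by a diagonal element -/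
theorem tendsto_conj (hσc : Continuous σ) {b g : FormGroup σ J} {d : n → k}
    (hb : b.1.1 = diagonal d) (hd : ∀ i, d i ≠ 0)
    (h : ∀ i j, d i = d j ∨ ‖d j‖ < ‖d i‖ ∨ g.1.1 i j = 0) :
    ∃ v : FormGroup σ J, Tendsto (fun N : ℕ => (b ^ N)⁻¹ * g * b ^ N) atTop (𝓝 v) := by
  classical
  set x : ℕ → FormGroup σ J := fun N => (b ^ N)⁻¹ * g * b ^ N with hx
  have hbN : ∀ N : ℕ, (b ^ N).1.1 = diagonal fun i => d i ^ N := by
    intro N
    have e : (b ^ N).1.1 = b.1.1 ^ N := rfl
    rw [e, hb, diagonal_pow]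
    rfl
  have ent : ∀ N i j, (x N).1.1 i j = g.1.1 i j * (d j / d i) ^ N := by
    intro N i j
    have e1 : b ^ N * x N = g * b ^ N := by
      simp only [hx, mul_assoc, mul_inv_cancel_left]
    have e2 : (b ^ N).1.1 * (x N).1.1 = g.1.1 * (b ^ N).1.1 := by
      have := congrArg (fun y : FormGroup σ J => y.1.1) e1
      exact this
    rw [hbN] at e2
    have e3 := congrFun (congrFun e2 i) j
    rw [diagonal_mul, mul_diagonal] at e3
    have h0 : d i ^ N ≠ 0 := pow_ne_zero _ (hd i)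
    rw [div_pow, mul_div_assoc', eq_div_iff h0, ← e3, mul_comm]
  set V : Matrix n n k := fun i j => if d i = d j then g.1.1 i j else 0 with hV
  have lim : Tendsto (fun N => (x N).1.1) atTop (𝓝 V) := by
    refine tendsto_pi_nhds.2 fun i => tendsto_pi_nhds.2 fun j => ?_
    by_cases hij : d i = d j
    · have e : ∀ N, (x N).1.1 i j = V i j := fun N => by
        rw [ent, hij, div_self (hd j), one_pow, mul_one, hV]
        simp only [hij, if_true]
      refine tendsto_const_nhds.congr fun N => (e N).symm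
    · have eV : V i j = 0 := if_neg hij
      rw [eV]
      rcases h i j with h1 | h1 | h1
      · exact absurd h1 hij
      · have h2 : ‖d j / d i‖ < 1 := by
          rw [norm_div, div_lt_one (norm_pos_iff.2 (hd i))]
          exact h1
        have h3 := (tendsto_pow_atTop_nhds_zero_of_norm_lt_one h2).const_mul (g.1.1 i j)
        rw [mul_zero] at h3
        exact h3.congr fun N => (ent N i j).symm
      · refine tendsto_const_nhds.congr fun N => ?_
        rw [ent, h1, zero_mul]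
  have det : V.det = 1 := by
    have h1 : Tendsto (fun N => (x N).1.1.det) atTop (𝓝 V.det) :=
      ((continuous_id.matrix_det (A := fun A : Matrix n n k => A)).tendsto V).comp lim
    have h2 : ∀ N, (x N).1.1.det = 1 := fun N => (x N).1.2
    simp only [h2] at h1
    exact (tendsto_nhds_unique tendsto_const_nhds h1).symm
  have lim2 : Tendsto (fun N => (x N).1) atTop (𝓝 (⟨V, det⟩ : SpecialLinearGroup n k)) :=
    tendsto_subtype_rng.2 lim
  have mem : (⟨V, det⟩ : SpecialLinearGroup n k) ∈ FormGroup σ J :=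
    (isClosed_formGroup hσc J).mem_of_tendsto lim2 (Eventually.of_forall fun N => (x N).2)
  exact ⟨⟨_, mem⟩, tendsto_subtype_rng.2 lim2⟩

end mat

section stab

variable {k : Type} [NontriviallyNormedField k] {ι : Type} [Fintype ι] [DecidableEq ι]
  {s : ℕ} {σ : k →+* k} {ε : k} {J₀ : Matrix ι ι k}

theorem ep_apply (i : Fin (s + 2)) (j : Idx (s + 2) ι) :
    ep k ι i j = if j = Sum.inl (Sum.inl i) then 1 else 0 := by
  rw [ep, Pi.single_apply]

/-- the coordinates of the vectors of a coordinate space -/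
theorem coord_zero {I : Set (Fin (s + 2))} {x : Idx (s + 2) ι → k}
    (hx : x ∈ Submodule.span k (ep k ι '' I)) {j : Idx (s + 2) ι}
    (hj : ∀ i ∈ I, j ≠ Sum.inl (Sum.inl i)) : x j = 0 := by
  induction hx using Submodule.span_induction with
  | mem x hx =>
    obtain ⟨i, hi, rfl⟩ := hx
    rw [ep_apply, if_neg (hj i hi)]
  | zero => rfl
  | add a b _ _ ha hb => rw [Pi.add_apply, ha, hb, add_zero]
  | smul c a _ ha => rw [Pi.smul_apply, ha, smul_zero]

theorem hf_ep_right (x : Idx (s + 2) ι → k) (j : Fin (s + 2)) :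
    hf σ (hyp (s + 2) ε J₀) x (ep k ι j) = ε * x (Sum.inl (Sum.inr j)) := by
  rw [hf_hyp]
  have e1 : ∀ i : Fin (s + 2), ep k ι j (Sum.inl (Sum.inr i)) = 0 := fun i => by
    rw [ep_apply, if_neg (by simp)]
  have e2 : (fun i : ι => ep k ι j (Sum.inr i)) = 0 := funext fun i => by
    rw [ep_apply, if_neg (by simp)]
    rfl
  have e3 : ∀ i : Fin (s + 2), ep k ι j (Sum.inl (Sum.inl i)) = if i = j then 1 else 0 :=
    fun i => by
      rw [ep_apply]
      by_cases h : i = j
      · rw [if_pos h, if_pos (by rw [h])]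
      · rw [if_neg h, if_neg (by simpa using h)]
  rw [e2, hf_zero_right]
  simp only [e1, e3, map_zero, mul_zero, Finset.sum_const_zero, add_zero, zero_add]
  congr 1
  rw [Finset.sum_eq_single j]
  · rw [if_pos rfl, map_one, mul_one]
  · intro b _ hb
    rw [if_neg hb, map_zero, mul_zero]
  · intro h
    exact absurd (Finset.mem_univ j) h

/-- the zero entries of the elements of the stabiliser of a coordinate space -/
theorem zero_entries (hF : Frm σ ε (hyp (s + 2) ε J₀)) {I : Set (Fin (s + 2))}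
    {g : FormGroup σ (hyp (s + 2) ε J₀)}
    (hg : H370.Po.act g.1 (Submodule.span k (ep k ι '' I)) = Submodule.span k (ep k ι '' I)) :
    (∀ i ∈ I, ∀ j, (∀ i' ∈ I, j ≠ Sum.inl (Sum.inl i')) → g.1.1 (Sum.inl (Sum.inl i)) j = 0) ∧
    (∀ j ∈ I, ∀ i, (∀ i' ∈ I, i ≠ Sum.inl (Sum.inr i')) → g.1.1 i (Sum.inl (Sum.inr j)) = 0) := by
  have row : ∀ i, (Pi.single i (1 : k) : Idx (s + 2) ι → k) ᵥ* g.1.1 = g.1.1 i := fun i => by
    funext j
    simp [Matrix.vecMul, dotProduct, Pi.single_apply]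
  constructor
  · intro i hi j hj
    have h1 : ep k ι i ∈ Submodule.span k (ep k ι '' I) := Submodule.subset_span ⟨i, hi, rfl⟩
    have h2 := vecMul_mem_act (g := g.1) h1
    rw [hg] at h2
    have h3 := coord_zero h2 hj
    rw [show (ep k ι i) ᵥ* g.1.1 = g.1.1 (Sum.inl (Sum.inl i)) from row _] at h3
    exact h3
  · intro j hj i hi
    have iso := (Vale.Agent.P092.H714.Cl.mem_formGroup.1 g.2)
    -- `e_i` is orthogonal to the space
    have h1 : ∀ y ∈ Submodule.span k (ep k ι '' I),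
        hf σ (hyp (s + 2) ε J₀) (Pi.single i 1) y = 0 := by
      intro y hy
      induction hy using Submodule.span_induction with
      | mem y hy =>
        obtain ⟨i', hi', rfl⟩ := hy
        rw [hf_ep_right, Pi.single_eq_of_ne (hi i' hi').symm, mul_zero]
      | zero => exact hf_zero_right _ _ _
      | add a b _ _ ha hb => rw [hf_add_right, ha, hb, add_zero]
      | smul c a _ ha => rw [hf_smul_right, ha, mul_zero]
    have h2 : ep k ι j ∈ H370.Po.act g.1 (Submodule.span k (ep k ι '' I)) := by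
      rw [hg]
      exact Submodule.subset_span ⟨j, hj, rfl⟩
    obtain ⟨y, hy, hyj⟩ := Vale.Agent.P092.H370.Po.mem_act.1 h2
    have h3 := iso (Pi.single i 1) y
    rw [h1 y hy, hyj, row, hf_ep_right] at h3
    have he : ε ≠ 0 := by
      intro h
      have := hF.eps
      rw [h, mul_zero] at this
      exact zero_ne_one this
    exact (mul_eq_zero.1 h3).resolve_left he

theorem act_of_smul {j : ℕ} {g : FormGroup σ (hyp (s + 2) ε J₀)}
    {X : SGr σ (hyp (s + 2) ε J₀) j} (h : g • X = X) : H370.Po.act g.1 X.S = X.S := by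
  have h1 : H370.Po.act g.1⁻¹ X.S = X.S := by rw [← smul_S, h]
  calc H370.Po.act g.1 X.S = H370.Po.act g.1 (H370.Po.act g.1⁻¹ X.S) := by rw [h1]
    _ = X.S := by
      first
      | rw [act_inv_act]
      | rw [act_act_inv]

/-- **st1** -/
theorem st1 (hF : Frm σ ε (hyp (s + 2) ε J₀)) (hσc : Continuous σ) {w : k} (hw : w ≠ 0)
    (hσ : σ w = w) (hw1 : ‖w‖ < 1) (g : FormGroup σ (hyp (s + 2) ε J₀))
    (hg : g • (p0 : SGr σ (hyp (s + 2) ε J₀) 1) = p0) :
    ∃ v n : FormGroup σ (hyp (s + 2) ε J₀), g = v * n ∧ v * b1 hw hσ = b1 hw hσ * v ∧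
      Tendsto (fun N : ℕ => (b1 hw hσ ^ N)⁻¹ * n * b1 hw hσ ^ N) atTop (𝓝 1) := by
  obtain ⟨z1, z2⟩ := zero_entries hF (act_of_smul hg)
  have hwi : 1 < ‖w⁻¹‖ := by
    rw [norm_inv]
    exact (one_lt_inv₀ (norm_pos_iff.2 hw)).2 hw1
  set d : Idx (s + 2) ι → k := dgF (s + 2) ι w (Pi.single 0 1) with hd
  have d1 : d (.inl (.inl 0)) = w := by simp [hd, dgF]
  have d2 : d (.inl (.inr 0)) = w⁻¹ := by simp [hd, dgF]
  have d3 : ∀ j, j ≠ .inl (.inl 0) → j ≠ .inl (.inr 0) → d j = 1 := by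
    rintro ((j | j) | j) h1 h2
    · have : j ≠ 0 := fun h => h1 (by rw [h])
      simp [hd, dgF, Pi.single_eq_of_ne this]
    · have : j ≠ 0 := fun h => h2 (by rw [h])
      simp [hd, dgF, Pi.single_eq_of_ne this]
    · simp [hd, dgF]
  have hd0 : ∀ i, d i ≠ 0 := by
    intro i
    by_cases h1 : i = .inl (.inl 0)
    · rw [h1, d1]; exact hw
    by_cases h2 : i = .inl (.inr 0)
    · rw [h2, d2]; exact inv_ne_zero hw
    rw [d3 i h1 h2]; exact one_ne_zero
  obtain ⟨v, hv⟩ := tendsto_conj hσc (b := b1 hw hσ) (g := g) (d := d) rfl hd0 (by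
    intro i j
    by_cases hi : i = .inl (.inl 0)
    · by_cases hj : j = .inl (.inl 0)
      · left; rw [hi, hj]
      · right; right
        rw [hi]
        exact z1 0 rfl j (by rintro i' rfl; exact hj)
    by_cases hj : j = .inl (.inr 0)
    · by_cases hi' : i = .inl (.inr 0)
      · left; rw [hi', hj]
      · right; right
        rw [hj]
        exact z2 0 rfl i (by rintro i' rfl; exact hi')
    by_cases hj' : j = .inl (.inl 0)
    · right; left
      rw [hj', d1]
      by_cases hi' : i = .inl (.inr 0)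
      · rw [hi', d2]; exact hw1.trans hwi
      · rw [d3 i hi hi', norm_one]; exact hw1
    · rw [d3 j hj' hj]
      by_cases hi' : i = .inl (.inr 0)
      · right; left
        rw [hi', d2, norm_one]; exact hwi
      · left
        rw [d3 i hi hi'])
  exact split_of hv

/-- **st2** -/
theorem st2 (hF : Frm σ ε (hyp (s + 2) ε J₀)) (hσc : Continuous σ) {w : k} (hw : w ≠ 0)
    (hσ : σ w = w) (hw1 : ‖w‖ < 1) (g : FormGroup σ (hyp (s + 2) ε J₀))
    (hg : g • (m0 : SGr σ (hyp (s + 2) ε J₀) (s + 2)) = m0) :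
    ∃ v n : FormGroup σ (hyp (s + 2) ε J₀), g = v * n ∧ v * b2 hw hσ = b2 hw hσ * v ∧
      Tendsto (fun N : ℕ => (b2 hw hσ ^ N)⁻¹ * n * b2 hw hσ ^ N) atTop (𝓝 1) := by
  obtain ⟨z1, z2⟩ := zero_entries hF (act_of_smul hg)
  have hwi : 1 < ‖w⁻¹‖ := by
    rw [norm_inv]
    exact (one_lt_inv₀ (norm_pos_iff.2 hw)).2 hw1
  set d : Idx (s + 2) ι → k := dgF (s + 2) ι w fun _ => 1 with hd
  have d1 : ∀ i, d (.inl (.inl i)) = w := by intro i; simp [hd, dgF]
  have d2 : ∀ i, d (.inl (.inr i)) = w⁻¹ := by intro i; simp [hd, dgF]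
  have d3 : ∀ j, d (.inr j) = 1 := by intro j; simp [hd, dgF]
  have hd0 : ∀ i, d i ≠ 0 := by
    rintro ((j | j) | j)
    · rw [d1]; exact hw
    · rw [d2]; exact inv_ne_zero hw
    · rw [d3]; exact one_ne_zero
  obtain ⟨v, hv⟩ := tendsto_conj hσc (b := b2 hw hσ) (g := g) (d := d) rfl hd0 (by
    rintro ((i | i) | i) ((j | j) | j)
    · left; rw [d1, d1]
    · right; right; exact z1 i (mem_univ i) _ (fun i' _ => by simp)
    · right; right; exact z1 i (mem_univ i) _ (fun i' _ => by simp)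
    · right; left; rw [d1, d2]; exact hw1.trans hwi
    · left; rw [d2, d2]
    · right; left; rw [d2, d3, norm_one]; exact hwi
    · right; left; rw [d1, d3, norm_one]; exact hw1
    · right; right; exact z2 j (mem_univ j) _ (fun i' _ => by simp)
    · left; rw [d3, d3])
  exact split_of hv

end stab

end Vale.Agent.P092.H859.Cg
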