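import Vale.Agent.P092.H859.Cg1
import Vale.Agent.P092.H859.Cg2

/-!
P092, TEAM P, stage CL-O (helper859): gen1, gen2, st1, st2 for a variable group between `EU` (the
group generated by the Eichler elements) and the group of isometries.
-/

set_option linter.all false

open Matrix Module Set Filter Topology

namespace Vale.Agent.P092.H859.Cg

open Vale.Agent.P092.H303 (FormGroup Idx hyp torF torF_mem dgF isClosed_formGroup)
open Vale.Agent.P092.H714.Cl
open Vale.Agent.P092.H714.Sg (Fm)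
open Vale.Agent.P092.H370.Po hiding sing_sup_span exists_adj trans_sing exists_extend exists_above
  trans_SGr exists_inc_ge exists_step con2 con trans_flags trans_flag trans_pair_col exists_prod
  exists_iso_prod ort_comm exists_closer act
open Vale.Agent.P092.H370.Fo
open Vale.Agent.P092.CL (ep em p0 m0 b1 b2)

section gen

variable {n : Type} [Fintype n] [DecidableEq n] {k : Type} [Field k]
  {σ : k →+* k} {ε : k} {J : Matrix n n k}

/-- **transitivity on the neighbours**, by Eichler elements -/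
theorem adj_transE (hF : Fo σ ε J) {d : ℕ} {A B D : SGr σ J (d + 1)} (h : Adj A B)
    (h' : Adj A D) : ∃ g : FormGroup σ J, g.1 ∈ EU σ ε J ∧ g • A = A ∧ g • B = D := by
  obtain ⟨h1, U, h2, h3⟩ := h
  obtain ⟨h1', U', h2', h3'⟩ := h'
  obtain ⟨g, hgE, hgU, hgA⟩ := trans_flag hF h2 h2'
  have e2 : Inc U' (g • B) := by rw [← hgU]; exact (inc_smul g).2 h3
  have e3 : ¬ Col A (g • B) := by
    intro hc
    apply h1
    rw [← hgA] at hc
    exact (col_smul g).1 hc
  obtain ⟨a, haU, hae⟩ := exists_gen h2' U'.dim A.dim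
  have haA : a ∈ A.S := by
    rw [hae]; exact (le_sup_right : Submodule.span k {a} ≤ _) (Submodule.mem_span_singleton_self a)
  obtain ⟨b, hb1, hb2, hb3, hb4⟩ := adj_vec hF.fm e2 e3 hae
  obtain ⟨c, hc1, hc2, hc3, hc4⟩ := adj_vec hF.fm h3' h1' hae
  have n1 : hf σ J a (σ (hf σ J a b)⁻¹ • b) = 1 := by
    rw [hf_smul_right, hF.fm.inv, inv_mul_cancel₀ hb4]
  have n2 : hf σ J a (σ (hf σ J a c)⁻¹ • c) = 1 := by
    rw [hf_smul_right, hF.fm.inv, inv_mul_cancel₀ hc4]
  have s1 : σ (hf σ J a b)⁻¹ ≠ 0 := by rw [Ne, map_eq_zero]; exact inv_ne_zero hb4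
  have s2 : σ (hf σ J a c)⁻¹ ≠ 0 := by rw [Ne, map_eq_zero]; exact inv_ne_zero hc4
  obtain ⟨m, hm, m1, m2, m3⟩ := dual_move hF.fm (A.sing.zero haA) (iso_smul hb2 _)
    (iso_smul hc2 _) n1 n2
  have hmF := EU_le hF.fm hm
  have mU : ∀ x ∈ U'.S, x ᵥ* m.1 = x := fun x hx => by
    refine m3 x (A.sing x (h2' hx) a haA) ?_
    rw [hf_sub_right, hf_smul_right, hf_smul_right, hb3 x hx, hc3 x hx, mul_zero, mul_zero,
      sub_zero]
  have mA : ∀ x ∈ A.S, x ᵥ* m.1 = x := by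
    intro x hx
    rw [hae] at hx
    obtain ⟨u, hu, v, hv, rfl⟩ := Submodule.mem_sup.1 hx
    obtain ⟨e, rfl⟩ := Submodule.mem_span_singleton.1 hv
    rw [add_vecMul, smul_vecMul, mU u hu, m1]
  have mB : H370.Po.act m (g • B).S = D.S := by
    rw [hb1, hc1, act_sup, act_of_fix mU,
      ← Submodule.span_singleton_smul_eq (IsUnit.mk0 _ s1) b, act_span, m2,
      Submodule.span_singleton_smul_eq (IsUnit.mk0 _ s2) c]
  let m' : FormGroup σ J := ⟨m, hmF⟩
  have hm' : ∀ {j : ℕ} (X : SGr σ J j), (m'⁻¹ • X).S = H370.Po.act m X.S := fun X => by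
    rw [smul_S]
    have e : (m'⁻¹).1⁻¹ = m := inv_inv m
    rw [e]
  refine ⟨m'⁻¹ * g, mul_mem (inv_mem hm) hgE, ?_, ?_⟩
  · rw [mul_smul, hgA]
    exact SGr.ext (by rw [hm', act_of_fix mA])
  · rw [mul_smul]
    exact SGr.ext (by rw [hm', mB])

/-- an Eichler element which fixes `y` and moves `x` to a neighbour of `x`: points -/
theorem move_pt (hF : Fo σ ε J) (x y : SGr σ J 1) (hne : x ≠ y) :
    ∃ t : FormGroup σ J, t.1 ∈ EU σ ε J ∧ t • y = y ∧ Adj (d := 0) x (t • x) := by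
  obtain ⟨v, h0, h, rfl⟩ := exists_ptv x
  obtain ⟨w, h0', h', rfl⟩ := exists_ptv y
  -- an element which fixes `w` and moves `v` to `p` with `h(v, p) ≠ 0`
  obtain ⟨g, hg, a, ha, p, hp0, hp, hvp, hgv, hgw⟩ : ∃ g ∈ EU σ ε J, ∃ a : k, a ≠ 0 ∧
      ∃ p, p ≠ 0 ∧ hf σ J p p = 0 ∧ hf σ J v p ≠ 0 ∧ v ᵥ* g.1 = a • p ∧ w ᵥ* g.1 = w := by
    by_cases hvw : hf σ J v w = 0
    · have s := sing_pair hF h h' hvw
      have hv : v ∈ Submodule.span k {v} ⊔ Submodule.span k {w} :=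
        (le_sup_left : Submodule.span k {v} ≤ _) (Submodule.mem_span_singleton_self v)
      have hw : w ∈ Submodule.span k {v} ⊔ Submodule.span k {w} :=
        (le_sup_right : Submodule.span k {w} ≤ _) (Submodule.mem_span_singleton_self w)
      have hvw' : v ∉ Submodule.span k {w} := fun hc => hne ((ptv_eq _ _ _ _).2 hc)
      obtain ⟨φ, h1, h2⟩ := exists_functional
        (le_sup_right : Submodule.span k {w} ≤ Submodule.span k {v} ⊔ Submodule.span k {w}) hv hvw'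
      obtain ⟨z, hz, hzφ⟩ := exists_iso_prod hF s φ (fun h => by
        rw [h] at h1
        exact zero_ne_one h1)
      have e1 : hf σ J v z ≠ 0 := by
        have := hzφ ⟨v, hv⟩
        rw [this, h1]; exact one_ne_zero
      have e2 : hf σ J w z = 0 := by
        have := hzφ ⟨w, hw⟩
        rw [this]; exact h2 _ (Submodule.mem_span_singleton_self w)
      have hz0 : z ≠ 0 := by
        rintro rfl
        exact e1 (hf_zero_right _ _ _)
      have hzw : z ∉ Submodule.span k {w} := by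
        intro hc
        obtain ⟨c, rfl⟩ := Submodule.mem_span_singleton.1 hc
        apply e1
        rw [hf_smul_right, hvw, mul_zero]
      have sw : Sing σ J (Submodule.span k {w}) := s.mono le_sup_right
      obtain ⟨g, hg, a, ha, hga, hgf⟩ := exists_adj hF sw h hz
        (fun x hx => by
          obtain ⟨c, rfl⟩ := Submodule.mem_span_singleton.1 hx
          rw [hf_smul_left, hF.fm.symm0 hvw, mul_zero])
        (fun x hx => by
          obtain ⟨c, rfl⟩ := Submodule.mem_span_singleton.1 hx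
          rw [hf_smul_left, e2, mul_zero]) hvw' hzw
      exact ⟨g, hg, a, ha, z, hz0, hz, e1, hga, hgf w (Submodule.mem_span_singleton_self w)⟩
    · obtain ⟨p, hp, -, hup, hpw⟩ := hF.thd ⊥ v w sing_bot h h'
        (fun x hx => by rw [(Submodule.mem_bot k).1 hx, hf_zero_left])
        (fun x hx => by rw [(Submodule.mem_bot k).1 hx, hf_zero_left]) hvw
      have hwv : hf σ J w v ≠ 0 := Fm.symm_ne0 hF.fm hvw
      have hwp : hf σ J w p ≠ 0 := Fm.symm_ne0 hF.fm hpw
      have hp0 : p ≠ 0 := by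
        rintro rfl
        exact hup (hf_zero_right _ _ _)
      have n1 : hf σ J w (σ (hf σ J w v)⁻¹ • v) = 1 := by
        rw [hf_smul_right, hF.fm.inv, inv_mul_cancel₀ hwv]
      have n2 : hf σ J w (σ (hf σ J w p)⁻¹ • p) = 1 := by
        rw [hf_smul_right, hF.fm.inv, inv_mul_cancel₀ hwp]
      have s1 : σ (hf σ J w v)⁻¹ ≠ 0 := by rw [Ne, map_eq_zero]; exact inv_ne_zero hwv
      have s2 : σ (hf σ J w p)⁻¹ ≠ 0 := by rw [Ne, map_eq_zero]; exact inv_ne_zero hwp
      obtain ⟨m, hm, m1, m2, -⟩ := dual_move hF.fm h' (iso_smul h _) (iso_smul hp _) n1 n2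
      refine ⟨m, hm, (σ (hf σ J w v)⁻¹)⁻¹ * σ (hf σ J w p)⁻¹, mul_ne_zero (inv_ne_zero s1) s2,
        p, hp0, hp, hup, ?_, m1⟩
      rw [smul_vecMul] at m2
      rw [mul_smul, ← m2, smul_smul, inv_mul_cancel₀ s1, one_smul]
  have hgF := EU_le hF.fm hg
  let g' : FormGroup σ J := ⟨g, hgF⟩
  have e1 : g' • ptv p hp0 hp = ptv v h0 h := smul_ptv g' hp0 hp h0 h ha hgv
  have e2 : g' • ptv w h0' h' = ptv w h0' h' :=
    smul_ptv g' h0' h' h0' h' one_ne_zero (by rw [one_smul]; exact hgw)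
  refine ⟨g'⁻¹, inv_mem hg, ?_, ?_⟩
  · rw [inv_smul_eq_iff, e2]
  · have e3 : g'⁻¹ • ptv v h0 h = ptv p hp0 hp := by rw [inv_smul_eq_iff, e1]
    rw [e3]
    exact adj_pt h0 h hp0 hp hvp

/-- the same for maximal singular spaces -/
theorem move_mx {d : ℕ} (hF : Wf σ ε J (d + 1)) (x y : SGr σ J (d + 1)) (hne : x ≠ y) :
    ∃ t : FormGroup σ J, t.1 ∈ EU σ ε J ∧ t • y = y ∧ Adj x (t • x) := by
  have hFo := hF.fo
  have hF' := hF.fm
  obtain ⟨H, u, w, hHX, huX, huH, hXe, hwY, hwX, -, hHw, -⟩ :=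
    exists_split x.sing y.sing (x.dim.trans y.dim.symm) (fun h => hne (SGr.ext h))
  have huw : hf σ J u w ≠ 0 := by
    intro h0
    have hp : ∀ z ∈ x.S, hf σ J z w = 0 := by
      intro z hz
      rw [hXe] at hz
      obtain ⟨a, ha, b, hb, rfl⟩ := Submodule.mem_sup.1 hz
      obtain ⟨e, rfl⟩ := Submodule.mem_span_singleton.1 hb
      rw [hf_add_left, hf_smul_left, h0, hHw a ha, mul_zero, add_zero]
    have h1 := hF.wi.2 _ (sing_sup_span hFo x.sing (y.sing.zero hwY) hp)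
    rw [finrank_sup_span hwX, x.dim] at h1
    omega
  obtain ⟨v, hvX, hvY, c, hc0, hc⟩ := exists_sk hF x.sing y.sing x.dim y.dim
  have hE : EP σ ε J w v c :=
    { uu := y.sing.zero hwY
      vu := hF'.symm0 (hvY w hwY)
      vv := hc }
  have hgF := ei_mem hF' hE
  set g := ei σ ε J w v c with hg
  have hgv : ∀ z, z ᵥ* g.1 =
      z + hf σ J z w • v - (ε * hf σ J z v) • w + (ε * c * hf σ J z w) • w :=
    fun z => vecMul_ei hF' hE z
  have fixes : ∀ z, hf σ J z w = 0 → hf σ J z v = 0 → z ᵥ* g.1 = z := by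
    intro z h1 h2
    rw [hgv, h1, h2]
    module
  let g' : FormGroup σ J := ⟨g, hgF⟩
  have e2 : g' • y = y := smul_eq_of_fix fun z hz => fixes z (y.sing z hz w hwY) (hvY z hz)
  have e1 : (g'⁻¹ • x).S = H370.Po.act g x.S := by
    rw [smul_S]
    have e : (g'⁻¹).1⁻¹ = g := inv_inv g
    rw [e]
  have hHd : finrank k H = d := by
    have h1 := finrank_sup_span huH
    rw [← hXe, x.dim] at h1
    omega
  refine ⟨g'⁻¹, inv_mem (ei_mem_EU hE), ?_, ?_⟩
  · rw [inv_smul_eq_iff, e2]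
  · refine ⟨fun hcol => ?_, SGr.mk' H (x.sing.mono hHX) hHd, hHX, ?_⟩
    · have h1 : u ᵥ* g.1 ∈ (g'⁻¹ • x).S := by
        rw [e1]
        exact vecMul_mem_act huX
      have h2 := hcol u huX _ h1
      rw [hgv, hf_add_right, hf_sub_right, hf_add_right, hf_smul_right, hf_smul_right,
        hf_smul_right, hvX u huX, x.sing u huX u huX, mul_zero, mul_zero, map_zero, zero_mul, add_zero, sub_zero, zero_add,
        mul_eq_zero, map_eq_zero] at h2
      rcases h2 with h2 | h2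
      · rw [mul_eq_zero, mul_eq_zero] at h2
        rcases h2 with (h2 | h2) | h2
        · exact Fm.eps_ne hF' h2
        · exact hc0 h2
        · exact huw h2
      · exact huw h2
    · change H ≤ (g'⁻¹ • x).S
      rw [e1]
      intro z hz
      have h3 := vecMul_mem_act (g := g) (hHX hz)
      rwa [fixes z (hHw z hz) (hvX z (hHX hz))] at h3

/-- a group which acts through isometries, all Eichler elements included -/
structure Thr (σ : k →+* k) (ε : k) (J : Matrix n n k) {G : Type*} [Group G] (j : ℕ)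
    [MulAction G (SGr σ J j)] (φ : G →* FormGroup σ J) : Prop where
  act : ∀ (g : G) (X : SGr σ J j), g • X = φ g • X
  sur : ∀ m : FormGroup σ J, m.1 ∈ EU σ ε J → ∃ g : G, φ g = m

theorem thr_sub (G : Subgroup (FormGroup σ J)) (hG : (EU σ ε J).subgroupOf (FormGroup σ J) ≤ G)
    (j : ℕ) : Thr σ ε J j G.subtype where
  act g X := rfl
  sur m hm := ⟨⟨m, hG hm⟩, rfl⟩

section thr

variable {G : Type*} [Group G] {φ : G →* FormGroup σ J}

/-- **gen1** for a variable group -/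
theorem gen_ptG [MulAction G (SGr σ J 1)] (hφ : Thr σ ε J 1 φ) (hF : Fo σ ε J)
    (x y : SGr σ J 1) (hne : x ≠ y) :
    Subgroup.closure ({g : G | g • x = x} ∪ {g : G | g • y = y}) = ⊤ := by
  obtain ⟨t, ht, h1, h2⟩ := move_pt hF x y hne
  obtain ⟨g, rfl⟩ := hφ.sur t ht
  refine gen_of (Adj (d := 0)) (fun g A B hAB => ?_) (fun A B D h3 h4 => ?_) (conn_pt hF) x y g
    ?_ ?_
  · rw [hφ.act, hφ.act]
    exact adj_smul _ hAB
  · obtain ⟨m, hm, h5, h6⟩ := adj_transE hF h3 h4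
    obtain ⟨g', rfl⟩ := hφ.sur m hm
    exact ⟨g', by rw [hφ.act]; exact h5, by rw [hφ.act]; exact h6⟩
  · rw [hφ.act]; exact h1
  · rw [hφ.act]; exact h2

/-- **gen2** for a variable group -/
theorem gen_mxG {d : ℕ} [MulAction G (SGr σ J (d + 1))] (hφ : Thr σ ε J (d + 1) φ)
    (hF : Wf σ ε J (d + 1)) (x y : SGr σ J (d + 1)) (hne : x ≠ y) :
    Subgroup.closure ({g : G | g • x = x} ∪ {g : G | g • y = y}) = ⊤ := by
  obtain ⟨t, ht, h1, h2⟩ := move_mx hF x y hne
  obtain ⟨g, rfl⟩ := hφ.sur t ht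
  refine gen_of Adj (fun g A B hAB => ?_) (fun A B D h3 h4 => ?_) (conn_mx hF.fo hF.wi.2) x y g
    ?_ ?_
  · rw [hφ.act, hφ.act]
    exact adj_smul _ hAB
  · obtain ⟨m, hm, h5, h6⟩ := adj_transE hF.fo h3 h4
    obtain ⟨g', rfl⟩ := hφ.sur m hm
    exact ⟨g', by rw [hφ.act]; exact h5, by rw [hφ.act]; exact h6⟩
  · rw [hφ.act]; exact h1
  · rw [hφ.act]; exact h2

end thr

end gen

/-! ### The stabilisers -/

section stab

variable {k : Type} [NontriviallyNormedField k] {ι : Type} [Fintype ι] [DecidableEq ι]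
  {s : ℕ} {σ : k →+* k} {ε : k} {J₀ : Matrix ι ι k}

/-- the zero entries of the elements of the stabiliser of a coordinate space -/
theorem zero_entriesE (he : ε ≠ 0) {I : Set (Fin (s + 2))}
    {g : FormGroup σ (hyp (s + 2) ε J₀)}
    (hg : H370.Po.act g.1 (Submodule.span k (ep k ι '' I)) = Submodule.span k (ep k ι '' I)) :
    (∀ i ∈ I, ∀ j, (∀ i' ∈ I, j ≠ Sum.inl (Sum.inl i')) → g.1.1 (Sum.inl (Sum.inl i)) j = 0) ∧
    (∀ j ∈ I, ∀ i, (∀ i' ∈ I, i ≠ Sum.inl (Sum.inr i')) → g.1.1 i (Sum.inl (Sum.inr j)) = 0) := by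
  have row : ∀ i, (Pi.single i (1 : k) : Idx (s + 2) ι → k) ᵥ* g.1.1 = g.1.1 i := fun i => by
    funext j
    simp [Matrix.vecMul, dotProduct, Pi.single_apply]
  constructor
  · intro i hi j hj
    have h1 : ep k ι i ∈ Submodule.span k (ep k ι '' I) := Submodule.subset_span ⟨i, hi, rfl⟩
    have h2 := vecMul_mem_act (g := g.1) h1
    rw [hg] at h2
    have h3 := coord_zero h2 hj
    rw [show (ep k ι i) ᵥ* g.1.1 = g.1.1 (Sum.inl (Sum.inl i)) from row _] at h3
    exact h3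
  · intro j hj i hi
    have iso := (Vale.Agent.P092.H714.Cl.mem_formGroup.1 g.2)
    -- `e_i` is orthogonal to the space
    have h1 : ∀ y ∈ Submodule.span k (ep k ι '' I),
        hf σ (hyp (s + 2) ε J₀) (Pi.single i 1) y = 0 := by
      intro y hy
      induction hy using Submodule.span_induction with
      | mem y hy =>
        obtain ⟨i', hi', rfl⟩ := hy
        rw [hf_ep_right, Pi.single_eq_of_ne (hi i' hi').symm, mul_zero]
      | zero => exact hf_zero_right _ _ _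
      | add a b _ _ ha hb => rw [hf_add_right, ha, hb, add_zero]
      | smul c a _ ha => rw [hf_smul_right, ha, mul_zero]
    have h2 : ep k ι j ∈ H370.Po.act g.1 (Submodule.span k (ep k ι '' I)) := by
      rw [hg]
      exact Submodule.subset_span ⟨j, hj, rfl⟩
    obtain ⟨y, hy, hyj⟩ := Vale.Agent.P092.H370.Po.mem_act.1 h2
    have h3 := iso (Pi.single i 1) y
    rw [h1 y hy, hyj, row, hf_ep_right] at h3
    exact (mul_eq_zero.1 h3).resolve_left he

/-- the diagonal of `b1` and the stabiliser of the base point -/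
theorem cond1 (he : ε ≠ 0) {w : k} (hw : w ≠ 0) (hw1 : ‖w‖ < 1)
    (g : FormGroup σ (hyp (s + 2) ε J₀)) (hg : g • (p0 : SGr σ (hyp (s + 2) ε J₀) 1) = p0) :
    (∀ i, dgF (s + 2) ι w (Pi.single 0 1) i ≠ 0) ∧
    ∀ i j, dgF (s + 2) ι w (Pi.single 0 1) i = dgF (s + 2) ι w (Pi.single 0 1) j ∨
      ‖dgF (s + 2) ι w (Pi.single 0 1) j‖ < ‖dgF (s + 2) ι w (Pi.single 0 1) i‖ ∨
      g.1.1 i j = 0 := by
  obtain ⟨z1, z2⟩ := zero_entriesE he (act_of_smul hg)
  have hwi : 1 < ‖w⁻¹‖ := by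
    rw [norm_inv]
    exact (one_lt_inv₀ (norm_pos_iff.2 hw)).2 hw1
  set d : Idx (s + 2) ι → k := dgF (s + 2) ι w (Pi.single 0 1) with hd
  have d1 : d (.inl (.inl 0)) = w := by simp [hd, dgF]
  have d2 : d (.inl (.inr 0)) = w⁻¹ := by simp [hd, dgF]
  have d3 : ∀ j, j ≠ .inl (.inl 0) → j ≠ .inl (.inr 0) → d j = 1 := by
    rintro ((j | j) | j) h1 h2
    · have : j ≠ 0 := fun h => h1 (by rw [h])
      simp [hd, dgF, Pi.single_eq_of_ne this]
    · have : j ≠ 0 := fun h => h2 (by rw [h])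
      simp [hd, dgF, Pi.single_eq_of_ne this]
    · simp [hd, dgF]
  have hd0 : ∀ i, d i ≠ 0 := by
    intro i
    by_cases h1 : i = .inl (.inl 0)
    · rw [h1, d1]; exact hw
    by_cases h2 : i = .inl (.inr 0)
    · rw [h2, d2]; exact inv_ne_zero hw
    rw [d3 i h1 h2]; exact one_ne_zero
  refine ⟨hd0, ?_⟩
  intro i j
  by_cases hi : i = .inl (.inl 0)
  · by_cases hj : j = .inl (.inl 0)
    · left; rw [hi, hj]
    · right; right
      rw [hi]
      exact z1 0 rfl j (by rintro i' rfl; exact hj)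
  by_cases hj : j = .inl (.inr 0)
  · by_cases hi' : i = .inl (.inr 0)
    · left; rw [hi', hj]
    · right; right
      rw [hj]
      exact z2 0 rfl i (by rintro i' rfl; exact hi')
  by_cases hj' : j = .inl (.inl 0)
  · right; left
    rw [hj', d1]
    by_cases hi' : i = .inl (.inr 0)
    · rw [hi', d2]; exact hw1.trans hwi
    · rw [d3 i hi hi', norm_one]; exact hw1
  · rw [d3 j hj' hj]
    by_cases hi' : i = .inl (.inr 0)
    · right; left
      rw [hi', d2, norm_one]; exact hwi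
    · left
      rw [d3 i hi hi']

/-- the diagonal of `b2` and the stabiliser of the base maximal space -/
theorem cond2 (he : ε ≠ 0) {w : k} (hw : w ≠ 0) (hw1 : ‖w‖ < 1)
    (g : FormGroup σ (hyp (s + 2) ε J₀))
    (hg : g • (m0 : SGr σ (hyp (s + 2) ε J₀) (s + 2)) = m0) :
    (∀ i, dgF (s + 2) ι w (fun _ => 1) i ≠ 0) ∧
    ∀ i j, dgF (s + 2) ι w (fun _ => 1) i = dgF (s + 2) ι w (fun _ => 1) j ∨
      ‖dgF (s + 2) ι w (fun _ => 1) j‖ < ‖dgF (s + 2) ι w (fun _ => 1) i‖ ∨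
      g.1.1 i j = 0 := by
  obtain ⟨z1, z2⟩ := zero_entriesE he (act_of_smul hg)
  have hwi : 1 < ‖w⁻¹‖ := by
    rw [norm_inv]
    exact (one_lt_inv₀ (norm_pos_iff.2 hw)).2 hw1
  set d : Idx (s + 2) ι → k := dgF (s + 2) ι w fun _ => 1 with hd
  have d1 : ∀ i, d (.inl (.inl i)) = w := by intro i; simp [hd, dgF]
  have d2 : ∀ i, d (.inl (.inr i)) = w⁻¹ := by intro i; simp [hd, dgF]
  have d3 : ∀ j, d (.inr j) = 1 := by intro j; simp [hd, dgF]
  have hd0 : ∀ i, d i ≠ 0 := by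
    rintro ((j | j) | j)
    · rw [d1]; exact hw
    · rw [d2]; exact inv_ne_zero hw
    · rw [d3]; exact one_ne_zero
  refine ⟨hd0, ?_⟩
  rintro ((i | i) | i) ((j | j) | j)
  · left; rw [d1, d1]
  · right; right; exact z1 i (mem_univ i) _ (fun i' _ => by simp)
  · right; right; exact z1 i (mem_univ i) _ (fun i' _ => by simp)
  · right; left; rw [d1, d2]; exact hw1.trans hwi
  · left; rw [d2, d2]
  · right; left; rw [d2, d3, norm_one]; exact hwi
  · right; left; rw [d1, d3, norm_one]; exact hw1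
  · right; right; exact z2 j (mem_univ j) _ (fun i' _ => by simp)
  · left; rw [d3, d3]

/-- the splitting inside a closed group of isometries -/
theorem st_of (hσc : Continuous σ) {G : Subgroup (FormGroup σ (hyp (s + 2) ε J₀))}
    (hG : IsClosed (G : Set (FormGroup σ (hyp (s + 2) ε J₀)))) {b g : G}
    {d : Idx (s + 2) ι → k} (hb : b.1.1.1 = diagonal d) (h0 : ∀ i, d i ≠ 0)
    (h : ∀ i j, d i = d j ∨ ‖d j‖ < ‖d i‖ ∨ g.1.1.1 i j = 0) :
    ∃ v n : G, g = v * n ∧ v * b = b * v ∧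
      Tendsto (fun N : ℕ => (b ^ N)⁻¹ * n * b ^ N) atTop (𝓝 1) := by
  obtain ⟨v, hv⟩ := tendsto_conj hσc (b := b.1) (g := g.1) hb h0 h
  have mem : v ∈ G := hG.mem_of_tendsto hv
    (Eventually.of_forall fun N => ((b ^ N)⁻¹ * g * b ^ N).2)
  have lim : Tendsto (fun N : ℕ => (b ^ N)⁻¹ * g * b ^ N) atTop (𝓝 (⟨v, mem⟩ : G)) :=
    tendsto_subtype_rng.2 hv
  exact split_of lim

/-- **st1** for a closed group of isometries -/
theorem st1G (he : ε ≠ 0) (hσc : Continuous σ) {G : Subgroup (FormGroup σ (hyp (s + 2) ε J₀))}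
    (hG : IsClosed (G : Set (FormGroup σ (hyp (s + 2) ε J₀)))) {w : k} (hw : w ≠ 0)
    (hσ : σ w = w) (hw1 : ‖w‖ < 1) {b : G} (hb : b.1 = b1 hw hσ) (g : G)
    (hg : g.1 • (p0 : SGr σ (hyp (s + 2) ε J₀) 1) = p0) :
    ∃ v n : G, g = v * n ∧ v * b = b * v ∧
      Tendsto (fun N : ℕ => (b ^ N)⁻¹ * n * b ^ N) atTop (𝓝 1) := by
  obtain ⟨h1, h2⟩ := cond1 he hw hw1 g.1 hg
  exact st_of hσc hG (by rw [hb]; rfl) h1 h2

/-- **st2** for a closed group of isometries -/
theorem st2G (he : ε ≠ 0) (hσc : Continuous σ) {G : Subgroup (FormGroup σ (hyp (s + 2) ε J₀))}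
    (hG : IsClosed (G : Set (FormGroup σ (hyp (s + 2) ε J₀)))) {w : k} (hw : w ≠ 0)
    (hσ : σ w = w) (hw1 : ‖w‖ < 1) {b : G} (hb : b.1 = b2 hw hσ) (g : G)
    (hg : g.1 • (m0 : SGr σ (hyp (s + 2) ε J₀) (s + 2)) = m0) :
    ∃ v n : G, g = v * n ∧ v * b = b * v ∧
      Tendsto (fun N : ℕ => (b ^ N)⁻¹ * n * b ^ N) atTop (𝓝 1) := by
  obtain ⟨h1, h2⟩ := cond2 he hw hw1 g.1 hg
  exact st_of hσc hG (by rw [hb]; rfl) h1 h2

end stab

end Vale.Agent.P092.H859.Cg
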