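import Vale.Agent.P092.CL.LtO2
import Vale.Agent.P092.H859.Cg3

/-!
P092, TEAM P, stage CL-O (helper859): the fields gen1, gen2, st1, st2 of `Geo (ltO h s ha μ₁ μ₂)`.
-/

set_option linter.all false

open scoped Matrix
open Matrix Module Set MeasureTheory Filter Topology

namespace Vale.Agent.P092.H859.Cg

open Vale.Agent.P092.H303 (FormGroup Idx hyp)
open Vale.Agent.P092.H370.Po (SGr)
open Vale.Agent.P092.H370.Fo (EU)
open Vale.Agent.P092.CL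

section o

variable {k : Type} [NontriviallyNormedField k] {ι : Type} [Fintype ι] [DecidableEq ι]
  {s : ℕ} {J₀ : Matrix ι ι k} [MeasurableSpace k]

theorem isClosed_EUF [CompleteSpace k] (h : OF J₀) (s : ℕ) :
    IsClosed (EUF (RingHom.id k) 1 (hyp (s + 2) 1 J₀) :
      Set (FormGroup (RingHom.id k) (hyp (s + 2) 1 J₀))) := by
  have h1 : IsClosed (EU (RingHom.id k) 1 (hyp (s + 2) 1 J₀) :
      Set (SpecialLinearGroup (Idx (s + 2) ι) k)) := by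
    rw [h.eu s]
    exact H899.Ort.isClosed_om (h.good' s)
  exact h1.preimage continuous_subtype_val

/-- **gen1** -/
theorem gen1O (h : OF J₀) {a : k} (ha : a ≠ 0) (μ₁ : Measure k) (μ₂ : Measure (ι → k))
    (x y : SGr (RingHom.id k) (hyp (s + 2) 1 J₀) 1) (hne : x ≠ y) :
    Subgroup.closure ({g : EUF (RingHom.id k) 1 (hyp (s + 2) 1 J₀) | g • x = x} ∪
      {g | g • y = y}) = ⊤ :=
  gen_ptG (thr_sub _ le_rfl 1) (h.wf s).fo x y hne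

/-- **gen2** -/
theorem gen2O (h : OF J₀) {a : k} (ha : a ≠ 0) (μ₁ : Measure k) (μ₂ : Measure (ι → k))
    (x y : SGr (RingHom.id k) (hyp (s + 2) 1 J₀) (s + 2)) (hne : x ≠ y) :
    Subgroup.closure ({g : EUF (RingHom.id k) 1 (hyp (s + 2) 1 J₀) | g • x = x} ∪
      {g | g • y = y}) = ⊤ :=
  gen_mxG (d := s + 1) (thr_sub _ le_rfl (s + 1 + 1)) (h.wf s) x y hne

theorem norm_sq_lt {a : k} (ha1 : ‖a‖ < 1) : ‖a ^ 2‖ < 1 := by
  rw [norm_pow]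
  exact pow_lt_one₀ (norm_nonneg _) ha1 two_ne_zero

/-- **st1** -/
theorem st1O [CompleteSpace k] (h : OF J₀) {a : k} (ha : a ≠ 0) (ha1 : ‖a‖ < 1)
    (μ₁ : Measure k) (μ₂ : Measure (ι → k)) (g : EUF (RingHom.id k) 1 (hyp (s + 2) 1 J₀))
    (hg : g • (ltO h s ha μ₁ μ₂).p0 = (ltO h s ha μ₁ μ₂).p0) :
    ∃ v n : EUF (RingHom.id k) 1 (hyp (s + 2) 1 J₀), g = v * n ∧
      v * (ltO h s ha μ₁ μ₂).b1 = (ltO h s ha μ₁ μ₂).b1 * v ∧
      Tendsto (fun N : ℕ => ((ltO h s ha μ₁ μ₂).b1 ^ N)⁻¹ * n * (ltO h s ha μ₁ μ₂).b1 ^ N)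
        atTop (𝓝 1) :=
  st1G one_ne_zero continuous_id (isClosed_EUF h s) (pow_ne_zero 2 ha) rfl (norm_sq_lt ha1)
    (b := b1O h s ha) rfl g hg

/-- **st2** -/
theorem st2O [CompleteSpace k] (h : OF J₀) {a : k} (ha : a ≠ 0) (ha1 : ‖a‖ < 1)
    (μ₁ : Measure k) (μ₂ : Measure (ι → k)) (g : EUF (RingHom.id k) 1 (hyp (s + 2) 1 J₀))
    (hg : g • (ltO h s ha μ₁ μ₂).m0 = (ltO h s ha μ₁ μ₂).m0) :
    ∃ v n : EUF (RingHom.id k) 1 (hyp (s + 2) 1 J₀), g = v * n ∧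
      v * (ltO h s ha μ₁ μ₂).b2 = (ltO h s ha μ₁ μ₂).b2 * v ∧
      Tendsto (fun N : ℕ => ((ltO h s ha μ₁ μ₂).b2 ^ N)⁻¹ * n * (ltO h s ha μ₁ μ₂).b2 ^ N)
        atTop (𝓝 1) :=
  st2G one_ne_zero continuous_id (isClosed_EUF h s) (pow_ne_zero 2 ha) rfl (norm_sq_lt ha1)
    (b := b2O h s ha) rfl g hg

end o

end Vale.Agent.P092.H859.Cg
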