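import Vale.Agent.P092.H370.Fo5

/-!
P092, TEAM P, [CL-GEO] gen1, gen2 (helper859): two different singular spaces (points, or maximal
singular spaces) have stabilisers which generate the group of isometries. Forms of any kind.
-/

set_option linter.all false

open Matrix Module Set

namespace Vale.Agent.P092.H859.Cg

open Vale.Agent.P092.H303 (FormGroup)
open Vale.Agent.P092.H714.Cl
open Vale.Agent.P092.H714.Sg (Fm)
open Vale.Agent.P092.H370.Po hiding sing_sup_span exists_adj trans_sing exists_extend exists_above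
  trans_SGr exists_inc_ge exists_step con2 con trans_flags trans_flag trans_pair_col exists_prod
  exists_iso_prod ort_comm exists_closer
open Vale.Agent.P092.H370.Fo

/-! ### The abstract argument -/

section abs

variable {G Ω : Type*} [Group G] [MulAction G Ω]

/-- A connected invariant relation whose neighbourhoods are orbits: the stabilisers of `x` and `y`
generate, if some element of the second one moves `x` to a neighbour of `x`. -/
theorem gen_of (Adj : Ω → Ω → Prop) (inv : ∀ (g : G) A B, Adj A B → Adj (g • A) (g • B))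
    (tr : ∀ A B D, Adj A B → Adj A D → ∃ g : G, g • A = A ∧ g • B = D)
    (conn : ∀ A B, Relation.ReflTransGen Adj A B) (x y : Ω) (t : G) (ht : t • y = y)
    (ha : Adj x (t • x)) :
    Subgroup.closure ({g : G | g • x = x} ∪ {g : G | g • y = y}) = ⊤ := by
  set H := Subgroup.closure ({g : G | g • x = x} ∪ {g : G | g • y = y}) with hH
  have hx : ∀ g : G, g • x = x → g ∈ H := fun g hg => Subgroup.subset_closure (Or.inl hg)
  have hy : ∀ g : G, g • y = y → g ∈ H := fun g hg => Subgroup.subset_closure (Or.inr hg)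
  have key : ∀ A, Relation.ReflTransGen Adj x A → ∃ h ∈ H, h • x = A := by
    intro A hA
    induction hA with
    | refl => exact ⟨1, H.one_mem, one_smul _ _⟩
    | @tail A B _ hAB ih =>
      obtain ⟨h, hh, rfl⟩ := ih
      have h1 : Adj x (h⁻¹ • B) := by
        have := inv h⁻¹ _ _ hAB
        rwa [inv_smul_smul] at this
      obtain ⟨g, hg, hg'⟩ := tr x _ _ ha h1
      refine ⟨h * (g * t), H.mul_mem hh (H.mul_mem (hx g hg) (hy t ht)), ?_⟩
      rw [mul_smul, mul_smul, hg', smul_inv_smul]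
  rw [eq_top_iff]
  intro g _
  obtain ⟨h, hh, he⟩ := key (g • x) (conn _ _)
  have h2 : h⁻¹ * g ∈ H := hx _ (by rw [mul_smul, ← he, inv_smul_smul])
  have := H.mul_mem hh h2
  rwa [mul_inv_cancel_left] at this

end abs

variable {n : Type} [Fintype n] [DecidableEq n] {k : Type} [Field k]
  {σ : k →+* k} {ε : k} {J : Matrix n n k}

/-- adjacent: not orthogonal, with a common hyperplane -/
def Adj {d : ℕ} (A B : SGr σ J (d + 1)) : Prop := ¬ Col A B ∧ ∃ U : SGr σ J d, Inc U A ∧ Inc U B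

theorem adj_smul {d : ℕ} (g : FormGroup σ J) {A B : SGr σ J (d + 1)} (h : Adj A B) :
    Adj (g • A) (g • B) := by
  obtain ⟨h1, U, h2, h3⟩ := h
  exact ⟨fun h => h1 ((col_smul g).1 h), g • U, (inc_smul g).2 h2, (inc_smul g).2 h3⟩

theorem adj_symm (hF : Fm σ ε J) {d : ℕ} {A B : SGr σ J (d + 1)} (h : Adj A B) : Adj B A := by
  obtain ⟨h1, U, h2, h3⟩ := h
  exact ⟨fun h => h1 (col_symm hF h), U, h3, h2⟩

/-- the vectors of an adjacent pair -/
theorem adj_vec (hF : Fm σ ε J) {d : ℕ} {U : SGr σ J d} {A B : SGr σ J (d + 1)} {a : n → k}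
    (h2 : Inc U B) (hc : ¬ Col A B)
    (ha : A.S = U.S ⊔ Submodule.span k {a}) :
    ∃ b, B.S = U.S ⊔ Submodule.span k {b} ∧ hf σ J b b = 0 ∧ (∀ x ∈ U.S, hf σ J x b = 0) ∧
      hf σ J a b ≠ 0 := by
  obtain ⟨b, hb, hbe⟩ := exists_gen h2 U.dim B.dim
  have hbB : b ∈ B.S := by
    rw [hbe]; exact (le_sup_right : Submodule.span k {b} ≤ _) (Submodule.mem_span_singleton_self b)
  have haA : a ∈ A.S := by
    rw [ha]; exact (le_sup_right : Submodule.span k {a} ≤ _) (Submodule.mem_span_singleton_self a)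
  have hUb : ∀ x ∈ U.S, hf σ J x b = 0 := fun x hx => B.sing x (h2 hx) b hbB
  refine ⟨b, hbe, B.sing.zero hbB, hUb, fun h0 => hc ?_⟩
  have hUA : U.S ≤ A.S := by rw [ha]; exact le_sup_left
  intro x hx y hy
  rw [ha] at hx
  rw [hbe] at hy
  obtain ⟨u, hu, v, hv, rfl⟩ := Submodule.mem_sup.1 hx
  obtain ⟨u', hu', v', hv', rfl⟩ := Submodule.mem_sup.1 hy
  obtain ⟨c, rfl⟩ := Submodule.mem_span_singleton.1 hv
  obtain ⟨c', rfl⟩ := Submodule.mem_span_singleton.1 hv'
  rw [hf_add_left, hf_add_right, hf_add_right, hf_smul_left, hf_smul_left, hf_smul_right,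
    hf_smul_right, h0, hUb u hu, B.sing u (h2 hu) u' (h2 hu'), A.sing a haA u' (hUA hu')]
  ring

/-- **transitivity on the neighbours** -/
theorem adj_trans (hF : Fo σ ε J) {d : ℕ} {A B D : SGr σ J (d + 1)} (h : Adj A B)
    (h' : Adj A D) : ∃ g : FormGroup σ J, g • A = A ∧ g • B = D := by
  obtain ⟨h1, U, h2, h3⟩ := h
  obtain ⟨h1', U', h2', h3'⟩ := h'
  obtain ⟨g, -, hgU, hgA⟩ := trans_flag hF h2 h2'
  have e2 : Inc U' (g • B) := by rw [← hgU]; exact (inc_smul g).2 h3
  have e3 : ¬ Col A (g • B) := by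
    intro hc
    apply h1
    rw [← hgA] at hc
    exact (col_smul g).1 hc
  obtain ⟨a, haU, hae⟩ := exists_gen h2' U'.dim A.dim
  have haA : a ∈ A.S := by
    rw [hae]; exact (le_sup_right : Submodule.span k {a} ≤ _) (Submodule.mem_span_singleton_self a)
  obtain ⟨b, hb1, hb2, hb3, hb4⟩ := adj_vec hF.fm e2 e3 hae
  obtain ⟨c, hc1, hc2, hc3, hc4⟩ := adj_vec hF.fm h3' h1' hae
  have n1 : hf σ J a (σ (hf σ J a b)⁻¹ • b) = 1 := by
    rw [hf_smul_right, hF.fm.inv, inv_mul_cancel₀ hb4]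
  have n2 : hf σ J a (σ (hf σ J a c)⁻¹ • c) = 1 := by
    rw [hf_smul_right, hF.fm.inv, inv_mul_cancel₀ hc4]
  have s1 : σ (hf σ J a b)⁻¹ ≠ 0 := by rw [Ne, map_eq_zero]; exact inv_ne_zero hb4
  have s2 : σ (hf σ J a c)⁻¹ ≠ 0 := by rw [Ne, map_eq_zero]; exact inv_ne_zero hc4
  obtain ⟨m, hm, m1, m2, m3⟩ := dual_move hF.fm (A.sing.zero haA) (iso_smul hb2 _)
    (iso_smul hc2 _) n1 n2
  have hmF := EU_le hF.fm hm
  have mU : ∀ x ∈ U'.S, x ᵥ* m.1 = x := fun x hx => by
    refine m3 x (A.sing x (h2' hx) a haA) ?_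
    rw [hf_sub_right, hf_smul_right, hf_smul_right, hb3 x hx, hc3 x hx, mul_zero, mul_zero,
      sub_zero]
  have mA : ∀ x ∈ A.S, x ᵥ* m.1 = x := by
    intro x hx
    rw [hae] at hx
    obtain ⟨u, hu, v, hv, rfl⟩ := Submodule.mem_sup.1 hx
    obtain ⟨e, rfl⟩ := Submodule.mem_span_singleton.1 hv
    rw [add_vecMul, smul_vecMul, mU u hu, m1]
  have mB : act m (g • B).S = D.S := by
    rw [hb1, hc1, act_sup, act_of_fix mU,
      ← Submodule.span_singleton_smul_eq (IsUnit.mk0 _ s1) b, act_span, m2,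
      Submodule.span_singleton_smul_eq (IsUnit.mk0 _ s2) c]
  let m' : FormGroup σ J := ⟨m, hmF⟩
  have hm' : ∀ {j : ℕ} (X : SGr σ J j), (m'⁻¹ • X).S = act m X.S := fun X => by
    rw [smul_S]
    have e : (m'⁻¹).1⁻¹ = m := inv_inv m
    rw [e]
  refine ⟨m'⁻¹ * g, ?_, ?_⟩
  · rw [mul_smul, hgA]
    exact SGr.ext (by rw [hm', act_of_fix mA])
  · rw [mul_smul]
    exact SGr.ext (by rw [hm', mB])

/-! ### Points -/

theorem exists_zero (A : SGr σ J 1) : ∃ U : SGr σ J 0, Inc U A := exists_inc_le (Nat.zero_le 1) A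

theorem zero_inc {j : ℕ} (U : SGr σ J 0) (A : SGr σ J j) : Inc U A := by
  change U.S ≤ A.S
  rw [Submodule.finrank_eq_zero.1 U.dim]
  exact bot_le

theorem adj_pt {v w : n → k} (h0 : v ≠ 0) (h : hf σ J v v = 0) (h0' : w ≠ 0)
    (h' : hf σ J w w = 0) (hvw : hf σ J v w ≠ 0) : Adj (d := 0) (ptv v h0 h) (ptv w h0' h') := by
  obtain ⟨U, hU⟩ := exists_zero (ptv v h0 h)
  exact ⟨fun hc => hvw ((col_ptv h0 h h0' h').1 hc), U, hU, zero_inc U _⟩

/-- a singular plane on two orthogonal points -/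
theorem sing_pair (hF : Fo σ ε J) {v w : n → k} (h : hf σ J v v = 0) (h' : hf σ J w w = 0)
    (hvw : hf σ J v w = 0) :
    Sing σ J (Submodule.span k {v} ⊔ Submodule.span k {w}) := by
  refine sing_sup_span hF ?_ h' ?_
  · unfold Sing
    rw [ort_span_left]
    intro y hy
    obtain ⟨a, rfl⟩ := Submodule.mem_span_singleton.1 hy
    rw [hf_smul_right, h, mul_zero]
  · intro x hx
    obtain ⟨a, rfl⟩ := Submodule.mem_span_singleton.1 hx
    rw [hf_smul_left, hvw, mul_zero]

theorem conn_pt (hF : Fo σ ε J) (x y : SGr σ J 1) : Relation.ReflTransGen (Adj (d := 0)) x y := by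
  obtain ⟨v, h0, h, rfl⟩ := exists_ptv x
  obtain ⟨w, h0', h', rfl⟩ := exists_ptv y
  by_cases hvw : hf σ J v w = 0
  · have s := sing_pair hF h h' hvw
    have hv : v ∈ Submodule.span k {v} ⊔ Submodule.span k {w} :=
      (le_sup_left : Submodule.span k {v} ≤ _) (Submodule.mem_span_singleton_self v)
    have hw : w ∈ Submodule.span k {v} ⊔ Submodule.span k {w} :=
      (le_sup_right : Submodule.span k {w} ≤ _) (Submodule.mem_span_singleton_self w)
    obtain ⟨φ, h1, h2, -⟩ := exists_functional₂ (Z := ⊥) bot_le hv hw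
      (fun h => h0 ((Submodule.mem_bot k).1 h)) (fun h => h0' ((Submodule.mem_bot k).1 h))
    obtain ⟨z, hz, hzφ⟩ := exists_iso_prod hF s φ (fun h => h1 (by rw [h]; rfl))
    have e1 : hf σ J v z ≠ 0 := by
      have := hzφ ⟨v, hv⟩
      rw [this]; exact h1
    have e2 : hf σ J w z ≠ 0 := by
      have := hzφ ⟨w, hw⟩
      rw [this]; exact h2
    have hz0 : z ≠ 0 := by
      rintro rfl
      exact e1 (hf_zero_right _ _ _)
    exact (Relation.ReflTransGen.single (adj_pt h0 h hz0 hz e1)).tail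
      (adj_pt hz0 hz h0' h' (Fm.symm_ne0 hF.fm e2))
  · exact Relation.ReflTransGen.single (adj_pt h0 h h0' h' hvw)

/-- **gen1** -/
theorem gen_pt (hF : Fo σ ε J) (x y : SGr σ J 1) (hne : x ≠ y) :
    Subgroup.closure ({g : FormGroup σ J | g • x = x} ∪ {g : FormGroup σ J | g • y = y}) = ⊤ := by
  obtain ⟨v, h0, h, rfl⟩ := exists_ptv x
  obtain ⟨w, h0', h', rfl⟩ := exists_ptv y
  -- an element which fixes `w` and moves `v` to `p` with `h(v, p) ≠ 0`
  obtain ⟨g, hg, a, ha, p, hp0, hp, hvp, hgv, hgw⟩ : ∃ g ∈ EU σ ε J, ∃ a : k, a ≠ 0 ∧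
      ∃ p, p ≠ 0 ∧ hf σ J p p = 0 ∧ hf σ J v p ≠ 0 ∧ v ᵥ* g.1 = a • p ∧ w ᵥ* g.1 = w := by
    by_cases hvw : hf σ J v w = 0
    · have s := sing_pair hF h h' hvw
      have hv : v ∈ Submodule.span k {v} ⊔ Submodule.span k {w} :=
        (le_sup_left : Submodule.span k {v} ≤ _) (Submodule.mem_span_singleton_self v)
      have hw : w ∈ Submodule.span k {v} ⊔ Submodule.span k {w} :=
        (le_sup_right : Submodule.span k {w} ≤ _) (Submodule.mem_span_singleton_self w)
      have hvw' : v ∉ Submodule.span k {w} := fun hc => hne ((ptv_eq _ _ _ _).2 hc)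
      obtain ⟨φ, h1, h2⟩ := exists_functional
        (le_sup_right : Submodule.span k {w} ≤ Submodule.span k {v} ⊔ Submodule.span k {w}) hv hvw'
      obtain ⟨z, hz, hzφ⟩ := exists_iso_prod hF s φ (fun h => by
        rw [h] at h1
        exact zero_ne_one h1)
      have e1 : hf σ J v z ≠ 0 := by
        have := hzφ ⟨v, hv⟩
        rw [this, h1]; exact one_ne_zero
      have e2 : hf σ J w z = 0 := by
        have := hzφ ⟨w, hw⟩
        rw [this]; exact h2 _ (Submodule.mem_span_singleton_self w)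
      have hz0 : z ≠ 0 := by
        rintro rfl
        exact e1 (hf_zero_right _ _ _)
      have hzw : z ∉ Submodule.span k {w} := by
        intro hc
        obtain ⟨c, rfl⟩ := Submodule.mem_span_singleton.1 hc
        apply e1
        rw [hf_smul_right, hvw, mul_zero]
      have sw : Sing σ J (Submodule.span k {w}) := s.mono le_sup_right
      obtain ⟨g, hg, a, ha, hga, hgf⟩ := exists_adj hF sw h hz
        (fun x hx => by
          obtain ⟨c, rfl⟩ := Submodule.mem_span_singleton.1 hx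
          rw [hf_smul_left, hF.fm.symm0 hvw, mul_zero])
        (fun x hx => by
          obtain ⟨c, rfl⟩ := Submodule.mem_span_singleton.1 hx
          rw [hf_smul_left, e2, mul_zero]) hvw' hzw
      exact ⟨g, hg, a, ha, z, hz0, hz, e1, hga, hgf w (Submodule.mem_span_singleton_self w)⟩
    · obtain ⟨p, hp, -, hup, hpw⟩ := hF.thd ⊥ v w sing_bot h h'
        (fun x hx => by rw [(Submodule.mem_bot k).1 hx, hf_zero_left])
        (fun x hx => by rw [(Submodule.mem_bot k).1 hx, hf_zero_left]) hvw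
      have hwv : hf σ J w v ≠ 0 := Fm.symm_ne0 hF.fm hvw
      have hwp : hf σ J w p ≠ 0 := Fm.symm_ne0 hF.fm hpw
      have hp0 : p ≠ 0 := by
        rintro rfl
        exact hup (hf_zero_right _ _ _)
      have n1 : hf σ J w (σ (hf σ J w v)⁻¹ • v) = 1 := by
        rw [hf_smul_right, hF.fm.inv, inv_mul_cancel₀ hwv]
      have n2 : hf σ J w (σ (hf σ J w p)⁻¹ • p) = 1 := by
        rw [hf_smul_right, hF.fm.inv, inv_mul_cancel₀ hwp]
      have s1 : σ (hf σ J w v)⁻¹ ≠ 0 := by rw [Ne, map_eq_zero]; exact inv_ne_zero hwv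
      have s2 : σ (hf σ J w p)⁻¹ ≠ 0 := by rw [Ne, map_eq_zero]; exact inv_ne_zero hwp
      obtain ⟨m, hm, m1, m2, -⟩ := dual_move hF.fm h' (iso_smul h _) (iso_smul hp _) n1 n2
      refine ⟨m, hm, (σ (hf σ J w v)⁻¹)⁻¹ * σ (hf σ J w p)⁻¹, mul_ne_zero (inv_ne_zero s1) s2,
        p, hp0, hp, hup, ?_, m1⟩
      rw [smul_vecMul] at m2
      rw [mul_smul, ← m2, smul_smul, inv_mul_cancel₀ s1, one_smul]
  have hgF := EU_le hF.fm hg
  let g' : FormGroup σ J := ⟨g, hgF⟩
  have e1 : g' • ptv p hp0 hp = ptv v h0 h := smul_ptv g' hp0 hp h0 h ha hgv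
  have e2 : g' • ptv w h0' h' = ptv w h0' h' :=
    smul_ptv g' h0' h' h0' h' one_ne_zero (by rw [one_smul]; exact hgw)
  refine gen_of (Adj (d := 0)) (fun g A B hAB => adj_smul g hAB)
    (fun A B D h1 h2 => adj_trans hF h1 h2) (conn_pt hF) _ _ g'⁻¹ ?_ ?_
  · rw [inv_smul_eq_iff, e2]
  · have e3 : g'⁻¹ • ptv v h0 h = ptv p hp0 hp := by rw [inv_smul_eq_iff, e1]
    rw [e3]
    exact adj_pt h0 h hp0 hp hvp

/-! ### Maximal singular spaces -/

theorem not_col (hF : Fo σ ε J) {r : ℕ} (hr : ∀ Y, Sing σ J Y → finrank k Y ≤ r)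
    {A B : SGr σ J r} (hne : A ≠ B) : ¬ Col A B := by
  intro hc
  have s : Sing σ J (A.S ⊔ B.S) := by
    unfold Sing
    rw [ort_sup_left, ort_sup_right, ort_sup_right]
    exact ⟨⟨A.sing, hc⟩, col_symm hF.fm hc, B.sing⟩
  have h1 := hr _ s
  have h2 : A.S = A.S ⊔ B.S := Submodule.eq_of_le_of_finrank_le le_sup_left (by rw [A.dim]; exact h1)
  exact hne (SGr.eq_of_le (show B.S ≤ A.S from by rw [h2]; exact le_sup_right)).symm

theorem conn_mx (hF : Fo σ ε J) {d : ℕ} (hr : ∀ Y, Sing σ J Y → finrank k Y ≤ d + 1)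
    (x y : SGr σ J (d + 1)) : Relation.ReflTransGen Adj x y := by
  have h := con2 hF x y
  induction h with
  | refl => exact Relation.ReflTransGen.refl
  | @tail b c _ hbc ih =>
    by_cases hne : b = c
    · rw [← hne]; exact ih
    · exact ih.tail ⟨not_col hF hr hne, hbc⟩

/-- a vector orthogonal to two maximal singular spaces, with a nonzero skew part -/
theorem exists_sk {r : ℕ} (hF : Wf σ ε J r) {X Y : Submodule k (n → k)} (hX : Sing σ J X)
    (hY : Sing σ J Y) (hXd : finrank k X = r) (hYd : finrank k Y = r) :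
    ∃ v, (∀ x ∈ X, hf σ J x v = 0) ∧ (∀ y ∈ Y, hf σ J y v = 0) ∧
      ∃ c, c ≠ 0 ∧ c + ε * σ c + hf σ J v v = 0 := by
  have hF' := hF.fm
  have hFo := hF.fo
  by_cases hcc : ∃ c, c ≠ 0 ∧ c + ε * σ c = 0
  · obtain ⟨c, hc0, hc⟩ := hcc
    exact ⟨0, fun x _ => hf_zero_right _ _ _, fun x _ => hf_zero_right _ _ _, c, hc0, by
      rw [hf_zero_right, hc, add_zero]⟩
  have hn := hF.thick.resolve_left hcc
  push Not at hcc
  have hc0 : ∀ c, c + ε * σ c = 0 → c = 0 := fun c hc => by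
    by_contra h
    exact hcc c h hc
  obtain ⟨v, hvT, hv⟩ : ∃ v ∈ perp σ J (X ⊔ Y), hf σ J v v ≠ 0 := by
    by_contra hcon
    push Not at hcon
    have hs : Sing σ J (perp σ J (X ⊔ Y)) := by
      intro x hx y hy
      have h1 := hcon (x + y) ((perp σ J (X ⊔ Y)).add_mem hx hy)
      rw [hf_add_left, hf_add_right, hf_add_right, hcon x hx, hcon y hy, hF'.herm x y] at h1
      exact hc0 _ (by linear_combination h1)
    have le : ∀ Z, Z ≤ X ⊔ Y → Sing σ J Z → finrank k Z = r → perp σ J (X ⊔ Y) ≤ Z := by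
      intro Z hZ hZs hZd
      have s : Sing σ J (Z ⊔ perp σ J (X ⊔ Y)) := by
        unfold Sing
        rw [ort_sup_left, ort_sup_right, ort_sup_right]
        have o : Ort σ J Z (perp σ J (X ⊔ Y)) := fun x hx y hy => hy x (hZ hx)
        exact ⟨⟨hZs, o⟩, ort_symm hFo o, hs⟩
      have h2 : Z = Z ⊔ perp σ J (X ⊔ Y) :=
        Submodule.eq_of_le_of_finrank_le le_sup_left (by rw [hZd]; exact hF.wi.2 _ s)
      rw [h2]
      exact le_sup_right
    have h1 := le_inf (le X le_sup_left hX hXd) (le Y le_sup_right hY hYd)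
    have h2 := Submodule.finrank_mono h1
    have h3 := le_finrank_perp hF' (X ⊔ Y)
    have h4 := Submodule.finrank_sup_add_finrank_inf_eq X Y
    omega
  obtain ⟨β, hβ⟩ := hF'.tv v
  refine ⟨v, fun x hx => hvT x ((le_sup_left : X ≤ X ⊔ Y) hx),
    fun y hy => hvT y ((le_sup_right : Y ≤ X ⊔ Y) hy), -β, ?_, ?_⟩
  · rw [neg_ne_zero]
    rintro rfl
    rw [map_zero, mul_zero, add_zero] at hβ
    exact hv hβ
  · rw [hβ, map_neg]
    ring

/-- **gen2** -/
theorem gen_mx {d : ℕ} (hF : Wf σ ε J (d + 1)) (x y : SGr σ J (d + 1)) (hne : x ≠ y) :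
    Subgroup.closure ({g : FormGroup σ J | g • x = x} ∪ {g : FormGroup σ J | g • y = y}) = ⊤ := by
  have hFo := hF.fo
  have hF' := hF.fm
  obtain ⟨H, u, w, hHX, huX, huH, hXe, hwY, hwX, -, hHw, -⟩ :=
    exists_split x.sing y.sing (x.dim.trans y.dim.symm) (fun h => hne (SGr.ext h))
  have huw : hf σ J u w ≠ 0 := by
    intro h0
    have hp : ∀ z ∈ x.S, hf σ J z w = 0 := by
      intro z hz
      rw [hXe] at hz
      obtain ⟨a, ha, b, hb, rfl⟩ := Submodule.mem_sup.1 hz
      obtain ⟨e, rfl⟩ := Submodule.mem_span_singleton.1 hb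
      rw [hf_add_left, hf_smul_left, h0, hHw a ha, mul_zero, add_zero]
    have h1 := hF.wi.2 _ (sing_sup_span hFo x.sing (y.sing.zero hwY) hp)
    rw [finrank_sup_span hwX, x.dim] at h1
    omega
  obtain ⟨v, hvX, hvY, c, hc0, hc⟩ := exists_sk hF x.sing y.sing x.dim y.dim
  have hE : EP σ ε J w v c :=
    { uu := y.sing.zero hwY
      vu := hF'.symm0 (hvY w hwY)
      vv := hc }
  have hgF := ei_mem hF' hE
  set g := ei σ ε J w v c with hg
  have hgv : ∀ z, z ᵥ* g.1 =
      z + hf σ J z w • v - (ε * hf σ J z v) • w + (ε * c * hf σ J z w) • w :=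
    fun z => vecMul_ei hF' hE z
  have fixes : ∀ z, hf σ J z w = 0 → hf σ J z v = 0 → z ᵥ* g.1 = z := by
    intro z h1 h2
    rw [hgv, h1, h2]
    module
  let g' : FormGroup σ J := ⟨g, hgF⟩
  have e2 : g' • y = y := smul_eq_of_fix fun z hz => fixes z (y.sing z hz w hwY) (hvY z hz)
  have e1 : (g'⁻¹ • x).S = act g x.S := by
    rw [smul_S]
    have e : (g'⁻¹).1⁻¹ = g := inv_inv g
    rw [e]
  have hHd : finrank k H = d := by
    have h1 := finrank_sup_span huH
    rw [← hXe, x.dim] at h1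
    omega
  refine gen_of Adj (fun g A B hAB => adj_smul g hAB)
    (fun A B D h1 h2 => adj_trans hFo h1 h2) (conn_mx hFo hF.wi.2) _ _ g'⁻¹ ?_ ?_
  · rw [inv_smul_eq_iff, e2]
  · refine ⟨fun hcol => ?_, SGr.mk' H (x.sing.mono hHX) hHd, hHX, ?_⟩
    · have h1 : u ᵥ* g.1 ∈ (g'⁻¹ • x).S := by
        rw [e1]
        exact vecMul_mem_act huX
      have h2 := hcol u huX _ h1
      rw [hgv, hf_add_right, hf_sub_right, hf_add_right, hf_smul_right, hf_smul_right,
        hf_smul_right, hvX u huX, x.sing u huX u huX, mul_zero, mul_zero, map_zero, zero_mul, add_zero, sub_zero, zero_add,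
        mul_eq_zero, map_eq_zero] at h2
      rcases h2 with h2 | h2
      · rw [mul_eq_zero, mul_eq_zero] at h2
        rcases h2 with (h2 | h2) | h2
        · exact Fm.eps_ne hF' h2
        · exact hc0 h2
        · exact huw h2
      · exact huw h2
    · change H ≤ (g'⁻¹ • x).S
      rw [e1]
      intro z hz
      have h3 := vecMul_mem_act (g := g) (hHX hz)
      rwa [fixes z (hHw z hz) (hvX z (hHX hz))] at h3

end Vale.Agent.P092.H859.Cg
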