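import Vale.Agent.P092.SN.Blocks2
import Vale.Agent.P092.SD.Tw

/-!
P092 (helper859), Team N, block [N-EX]: transport of `SN.LegN` along a unitary.
-/

set_option linter.all false

open scoped InnerProductSpace ENNReal LinearAlgebra.Projectivization
open Filter Topology ContinuousLinearMap MeasureTheory TopologicalSpace

namespace Vale.Agent.P092.H859.TwN

open Vale.Agent.P092.RC
open Vale.Agent.P092.SD (cjH tw_pic tw_ms tw_uc surj_vec cj_surj cj_norm_ap)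
open Vale.Agent.P092.SN
open Vale.Agent.P092.H790.CTA (ORBG SIZEG)

variable {k : Type} [NontriviallyNormedField k] [ProperSpace k] {N : ℕ} {K K' : Type}
  [NormedAddCommGroup K] [InnerProductSpace ℂ K] [CompleteSpace K]
  [NormedAddCommGroup K'] [InnerProductSpace ℂ K'] [CompleteSpace K'] {u : K ≃ₗᵢ[ℂ] K'}
  {E Γ : Type} [Group E] [TopologicalSpace E] [Group Γ]
  {π : E →* (K →L[ℂ] K)} {lam : Γ →* (K →L[ℂ] K)}
  {W : Set (K →L[ℂ] K)} {Ω : K} {π' : E →* (K' →L[ℂ] K')} {lam' : Γ →* (K' →L[ℂ] K')}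
  {W' : Set (K' →L[ℂ] K')} {Ω' : K'} {w : kˣ} {q : Γ → RC.GG k N} {Z : ℝ → Set Γ}
  {m : Set Γ → (K →L[ℂ] K)} {ι : RC.GG k N →* E} {a a' : E →* RC.PG k (N + 1)}

theorem tw_orbg {V : Type} [NormedAddCommGroup V] [MeasurableSpace V] {μ : Measure V} {b : E}
    {n : V → E} {ρ : ℝ} (t : Tw u π lam W Ω π' lam' W' Ω')
    (h : ORBG μ b n ρ π lam W Ω) : ORBG μ b n ρ π' lam' W' Ω' := by
  intro g δ hδ
  obtain ⟨C, hC⟩ := h g δ hδ
  refine ⟨C, fun N T hT hT1 => ?_⟩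
  obtain ⟨T, rfl⟩ := cj_surj u T
  rw [t.W] at hT
  rw [norm_cj] at hT1
  have h1 := hC N T ((cm_cj u).1 hT) hT1
  rw [t.trn]
  refine le_trans (le_of_eq ?_) h1
  refine lintegral_congr fun s => ?_
  rw [t.pi, t.Om, cj_ap, cj_ap]
  congr 1
  exact u.toLinearIsometry.enorm_map _

theorem tw_sizeg {b : E} {sz : Γ → ℝ} (t : Tw u π lam W Ω π' lam' W' Ω')
    (h : SIZEG b π Ω m sz) : SIZEG b π' Ω' (fun S => cj u (m S)) sz := by
  intro g η hη ε hε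
  filter_upwards [h g η hη ε hε] with N hN
  rw [t.pi, t.Om, cj_ap, cj_norm_ap]
  exact hN

theorem tw_nws (t : Tw u π lam W Ω π' lam' W' Ω') (h : NWS w ι π Ω m q Z) :
    NWS w ι π' Ω' (fun S => cj u (m S)) q Z := by
  intro g ε hε
  obtain ⟨R, hR⟩ := h g ε hε
  refine ⟨R, fun N => ?_⟩
  rw [t.pi, t.Om, cj_ap, cj_norm_ap]
  exact hR N

/-- conjugation of a calculus -/
noncomputable def cjN (u : K ≃ₗᵢ[ℂ] K') (β : CY k N →⋆ₐ[ℂ] (K →L[ℂ] K)) :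
    CY k N →⋆ₐ[ℂ] (K' →L[ℂ] K') :=
  (cjH u).comp β

theorem cjN_ap (β : CY k N →⋆ₐ[ℂ] (K →L[ℂ] K)) (f : CY k N) : cjN u β f = cj u (β f) := rfl

theorem tw_efam {Ec : RC.YY k N → (CY k N →⋆ₐ[ℂ] (K →L[ℂ] K))}
    (t : Tw u π lam W Ω π' lam' W' Ω') (h : EFam w ι a π lam W m q Z Ec) :
    EFam w ι a π' lam' W' (fun S => cj u (m S)) q Z fun x => cjN u (Ec x) where
  cm x f := by
    rw [t.W, cjN_ap]
    exact (cm_cj u).2 (h.cm x f)
  cov γ x f := by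
    rw [cjN_ap, cjN_ap, t.lam, t.lam, ← map_mul, ← map_mul, h.cov]
  pcov g x f := by
    rw [cjN_ap, cjN_ap, t.pi, t.pi, ← map_mul, ← map_mul, h.pcov]
  dom g v A hA hv ζ ε hε := by
    obtain ⟨ζ, rfl⟩ := surj_vec u ζ
    obtain ⟨R, hR⟩ := h.dom g v A hA hv ζ ε hε
    refine ⟨R, fun T hT => ?_⟩
    filter_upwards [hR T hT] with N hN
    rw [cjN_ap, t.pi, cj_norm_ap, cj_ap, cj_norm_ap]
    exact hN
  agr x y hab ξ hξ := by
    obtain ⟨η, rfl⟩ := surj_vec u ξ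
    rw [h.agr x y hab η fun f => ?_, map_zero]
    have h1 := hξ f
    rw [cjN_ap, cjN_ap, cj_ap, cj_ap] at h1
    exact u.injective h1

/-- **Transport of a leg.** -/
theorem tw_legN [MeasurableSpace k] {μ : Measure k}
    {Ec F : RC.YY k N → (CY k N →⋆ₐ[ℂ] (K →L[ℂ] K))} (t : Tw u π lam W Ω π' lam' W' Ω')
    (h : LegN μ w ι a a' π lam W Ω m q Z Ec F) :
    LegN μ w ι a a' π' lam' W' Ω' (fun S => cj u (m S)) q Z (fun x => cjN u (Ec x))
      fun x => cjN u (F x) where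
  adm := h.adm
  hw := h.hw
  pic := tw_pic t h.pic
  ms := tw_ms t h.ms
  uc := tw_uc t h.uc
  ph := h.ph
  zm := h.zm
  ud := h.ud
  orb hj := by
    obtain ⟨ρ, h1, h2, h3⟩ := h.orb hj
    exact ⟨ρ, h1, h2, tw_orbg t h3⟩
  orb' hj := by
    obtain ⟨ρ, h1, h2, h3⟩ := h.orb' hj
    exact ⟨ρ, h1, h2, tw_orbg t h3⟩
  size := tw_sizeg t h.size
  size' := tw_sizeg t h.size'
  nws := tw_nws t h.nws
  nws' := tw_nws t h.nws'
  e := tw_efam t h.e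
  f := tw_efam t h.f
  nis := h.nis

end Vale.Agent.P092.H859.TwN
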