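import Vale.Agent.P092.H859.CLN

/-!
P092 (helper859), blocks C-N / D-N: the engine of `CLB` - `CLN` for walls of any type. The only
change: the set `Br r` of regular elements (at least two gaps larger than `r`) in the bound of the
quotients is independent of the two functions `G1` (the large gap) and `G2` (the other gaps) which
define the cones.
-/

set_option linter.all false

open scoped InnerProductSpace Pointwise
open Filter Topology ContinuousLinearMap TopologicalSpace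

namespace Vale.Agent.P092.H859.CN

open Vale.Agent.P092.H859.CL
open Vale.Agent.P092.H553 (ind ind_nonneg ind_le_one abs_ind_le ind_pos ind_neg)

section defs

variable {Γ Y : Type}

/-- Geometric separation of two sets of base points: the quotients of elements of the two cones
are regular, and the quotient map is finite-to-one. -/
def SepP [Group Γ] (Br : ℝ → Set Γ) (G1 G2 : Γ → ℝ) (bp : Γ → Y) (A A' : Set Y) : Prop :=
  ∀ R, ∃ S : Finset Γ, ∀ r, ∃ T,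
    (∀ x y, bp x ∈ A → bp y ∈ A' → T ≤ G1 x → T ≤ G1 y → G2 x ≤ R → G2 y ≤ R →
      x⁻¹ * y ∈ Br r) ∧
    ∀ x₁ y₁ x₂ y₂, bp x₁ ∈ A → bp y₁ ∈ A' → bp x₂ ∈ A → bp y₂ ∈ A' →
      T ≤ G1 x₁ → T ≤ G1 y₁ → T ≤ G1 x₂ → T ≤ G1 y₂ →
      G2 x₁ ≤ R → G2 y₁ ≤ R → G2 x₂ ≤ R → G2 y₂ ≤ R →
      x₁⁻¹ * y₁ = x₂⁻¹ * y₂ → x₂ * x₁⁻¹ ∈ S

/-- The geometry, for continuous functions of the base point. -/
structure GeoF {Γ Y : Type} [Group Γ] [TopologicalSpace Y] [MulAction Γ Y] (Br : ℝ → Set Γ)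
    (G1 G2 : Γ → ℝ) (bp : Γ → Y) : Prop where
  cact : ∀ s : Γ, Continuous fun y : Y => s • y
  fin : ∀ r, (FF G1 G2 r).Finite
  gap : ∀ s u, ∃ C, ∀ x, |G1 (s * x * u) - G1 x| ≤ C ∧ |G2 (s * x * u) - G2 x| ≤ C
  stab : ∀ (s u : Γ) (f : C(Y, ℝ)) (ε : ℝ), 0 < ε → ∀ r, ∃ T, ∀ x, T ≤ G1 x → G2 x ≤ r →
    |f (bp (s * x * u)) - f (s • bp x)| ≤ ε
  sep : ∀ A A' : Set Y, IsClosed A → IsClosed A' → Disjoint A A' → SepP Br G1 G2 bp A A'

end defs

variable {Γ D K Y : Type} [Group Γ] [Group D] [NormedAddCommGroup K] [InnerProductSpace ℂ K]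
  [CompleteSpace K]

/-- The analytic input: separation, and no regular mass along the subgroup `A`. -/
structure Sys (m : Set Γ → (K →L[ℂ] K)) (R : D → (K →L[ℂ] K)) (Bd : Set K)
    (ms : D → Set Γ → ℝ) (A : Subgroup D) (Br : ℝ → Set Γ) (G1 G2 : Γ → ℝ) : Prop where
  prj : Prj m
  rep : Rep R
  dense : Dense ((Submodule.span ℂ Bd : Submodule ℂ K) : Set K)
  norm : ∀ ξ ∈ Bd, ‖ξ‖ ≤ 1
  map : ∀ v, ∀ ξ ∈ Bd, R v ξ ∈ Bd
  sep : ∀ u, ∀ η ∈ Bd, ∀ ζ ∈ Bd, ∀ (F G P : Set Γ) (T : Finset Γ),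
    (∀ x ∈ F, ∀ y ∈ G, x⁻¹ * y ∈ P) →
    (∀ x₁ ∈ F, ∀ y₁ ∈ G, ∀ x₂ ∈ F, ∀ y₂ ∈ G, x₁⁻¹ * y₁ = x₂⁻¹ * y₂ → x₂ * x₁⁻¹ ∈ T) →
    ‖⟪m G ζ, R u (m F η)⟫_ℂ‖ ≤ Real.sqrt T.card * Real.sqrt (ms u P)
  nrm : ∀ ε : ℝ, 0 < ε → ∃ r, ∀ u ∈ A, ms u (Br r) ≤ ε
  nrv : ∀ ξ ∈ Bd, ∀ ε : ℝ, 0 < ε → ∃ r, ∀ w ∈ A, ‖m (BB G1 G2 r) (R w ξ)‖ ≤ ε

variable {m : Set Γ → (K →L[ℂ] K)} {R : D → (K →L[ℂ] K)} {Bd : Set K}
  {ms : D → Set Γ → ℝ} {A : Subgroup D} {Br : ℝ → Set Γ} {G1 G2 : Γ → ℝ} {bp : Γ → Y} {l l' : Filter D}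

/-- No regular mass on all vectors. -/
theorem Sys.nrv' (h : Sys m R Bd ms A Br G1 G2) (ξ : K) {ε : ℝ} (hε : 0 < ε) :
    ∃ r, ∀ w ∈ A, ‖m (BB G1 G2 r) (R w ξ)‖ ≤ ε := by
  obtain ⟨N, hN⟩ : ∃ N : Submodule ℂ K, ∀ ξ, ξ ∈ N ↔ ∀ ε : ℝ, 0 < ε →
      ∃ r, ∀ w ∈ A, ‖m (BB G1 G2 r) (R w ξ)‖ ≤ ε := by
    refine ⟨⟨⟨⟨{ξ | ∀ ε : ℝ, 0 < ε → ∃ r, ∀ w ∈ A, ‖m (BB G1 G2 r) (R w ξ)‖ ≤ ε}, ?_⟩, ?_⟩, ?_⟩,
      fun ξ => Iff.rfl⟩
    · intro ξ η hξ hη ε hε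
      obtain ⟨r1, hr1⟩ := hξ (ε / 2) (by positivity)
      obtain ⟨r2, hr2⟩ := hη (ε / 2) (by positivity)
      refine ⟨max r1 r2, fun w hw => ?_⟩
      have h1 := (h.prj.mono (BB_mono (G1 := G1) (G2 := G2) (le_max_left r1 r2)) (R w ξ)).trans
        (hr1 w hw)
      have h2 := (h.prj.mono (BB_mono (G1 := G1) (G2 := G2) (le_max_right r1 r2)) (R w η)).trans
        (hr2 w hw)
      rw [map_add, map_add]
      exact (norm_add_le _ _).trans (by linarith)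
    · intro ε hε
      refine ⟨0, fun w _ => ?_⟩
      rw [map_zero, map_zero, norm_zero]
      exact hε.le
    · intro c ξ hξ ε hε
      obtain ⟨r1, hr1⟩ := hξ (ε / (‖c‖ + 1)) (by positivity)
      refine ⟨r1, fun w hw => ?_⟩
      have h1 := hr1 w hw
      rw [map_smul, map_smul, norm_smul]
      rw [le_div_iff₀ (by positivity)] at h1
      have := norm_nonneg (m (BB G1 G2 r1) (R w ξ))
      nlinarith
  have hspan : Submodule.span ℂ Bd ≤ N :=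
    Submodule.span_le.mpr fun ξ hξ => (hN ξ).2 (h.nrv ξ hξ)
  obtain ⟨η, hη, hd⟩ := Metric.mem_closure_iff.mp (h.dense ξ) (ε / 2) (by positivity)
  obtain ⟨r, hr⟩ := (hN η).1 (hspan hη) (ε / 2) (by positivity)
  refine ⟨r, fun w hw => ?_⟩
  have h1 := hr w hw
  have h2 : m (BB G1 G2 r) (R w ξ) = m (BB G1 G2 r) (R w (ξ - η)) + m (BB G1 G2 r) (R w η) := by
    rw [← map_add, ← map_add, sub_add_cancel]
  rw [h2]
  rw [dist_eq_norm] at hd
  have h3 : ‖m (BB G1 G2 r) (R w (ξ - η))‖ ≤ ε / 2 :=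
    ((h.prj.norm_le _ _).trans (h.rep.norm_le _ _)).trans hd.le
  exact (norm_add_le _ _).trans (by linarith)

/-- Escape on all vectors. -/
theorem esc2 (h : Sys m R Bd ms A Br G1 G2) (he : Esc m R Bd A l) (g : Γ) (ξ : K) :
    Tendsto (fun w => ‖m {g} (R w ξ)‖) l (𝓝 0) := by
  have h1 := vec_of_total (f := fun w => m {g} * R w) (l := l) (C := 1) (fun w =>
    (norm_mul_le _ _).trans (mul_le_one₀ (h.prj.opNorm_le _) (norm_nonneg _) (h.rep.opNorm_le _)))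
    h.dense (fun ξ hξ => tendsto_zero_iff_norm_tendsto_zero.mpr (he.esc g ξ hξ)) ξ
  exact tendsto_zero_iff_norm_tendsto_zero.mp h1

/-- Sets of the form finite plus regular are negligible. -/
theorem negl (h : Sys m R Bd ms A Br G1 G2) (he : Esc m R Bd A l) (hf : ∀ r, (FF G1 G2 r).Finite)
    {N : Set Γ} (hN : ∀ r, ∃ T, N ⊆ FF G1 G2 T ∪ BB G1 G2 r) (ξ : K) :
    Tendsto (fun w => ‖m N (R w ξ)‖) l (𝓝 0) := by
  rw [Metric.tendsto_nhds]
  intro ε hε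
  obtain ⟨r, hr⟩ := h.nrv' ξ (ε := ε / 3) (by positivity)
  obtain ⟨T, hT⟩ := hN r
  have h1 := h.prj.tendsto_finite (f := fun w => R w ξ) (l := l)
    (fun g => esc2 h he g ξ) (hf T)
  filter_upwards [he.mem, (Metric.tendsto_nhds.mp h1) (ε / 3) (by positivity)] with w hw h2
  rw [dist_zero_right, norm_norm] at h2 ⊢
  have h3 := hr w hw
  have h4 := h.prj.mono hT (R w ξ)
  have h5 := h.prj.norm_union_le (FF G1 G2 T) (BB G1 G2 r) (R w ξ)
  linarith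

/-- **Purity**, uniform form: vectors dominated by `R(w) ξ` and `R(w') η`. -/
theorem pure_unif (h : Sys m R Bd ms A Br G1 G2) (hf : ∀ r, (FF G1 G2 r).Finite)
    (he : Esc m R Bd A l) (he' : Esc m R Bd A l') {A1 A2 : Set Y} (hd : SepP Br G1 G2 bp A2 A1)
    {ξ η : K} (hξ : ξ ∈ Bd) (hη : η ∈ Bd) {ε : ℝ} (hε : 0 < ε) :
    ∀ᶠ p : D × D in l ×ˢ l', ∀ a ∈ Bd, ∀ b ∈ Bd, (∀ S, ‖m S a‖ ≤ ‖m S (R p.1 ξ)‖) →
      (∀ S, ‖m S b‖ ≤ ‖m S (R p.2 η)‖) →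
      ‖⟪m (cn G1 G2 bp A1) a, R (p.1 * p.2⁻¹) (m (cn G1 G2 bp A2) b)⟫_ℂ‖ < ε := by
  obtain ⟨δ, hδ⟩ : ∃ δ, δ = ε / 6 := ⟨_, rfl⟩
  have hδ0 : 0 < δ := by rw [hδ]; positivity
  obtain ⟨r1, hr1⟩ := h.nrv ξ hξ δ hδ0
  obtain ⟨r2, hr2⟩ := h.nrv η hη δ hδ0
  obtain ⟨R0, hR0⟩ : ∃ R0, R0 = max r1 r2 := ⟨_, rfl⟩
  obtain ⟨S, hS⟩ := hd R0
  obtain ⟨r, hr⟩ := h.nrm (δ ^ 2 / ((S.card : ℝ) + 1)) (by positivity)
  obtain ⟨T, hT1, hT2⟩ := hS r
  obtain ⟨T1, hT1d⟩ : ∃ T1, T1 = max T R0 := ⟨_, rfl⟩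
  -- the good parts of the cones
  obtain ⟨Gd, hGd⟩ : ∃ Gd : Set Y → Set Γ, Gd = fun A0 : Set Y =>
      cn G1 G2 bp A0 ∩ {g | T ≤ G1 g ∧ G2 g ≤ R0} := ⟨_, rfl⟩
  have hsub : ∀ A0 : Set Y, Gd A0 ⊆ cn G1 G2 bp A0 := fun A0 => by
    rw [hGd]; exact Set.inter_subset_left
  have hrest : ∀ A0 : Set Y, cn G1 G2 bp A0 \ Gd A0 ⊆
      FF G1 G2 T1 ∪ BB G1 G2 R0 := by
    intro A0 g hg
    obtain ⟨⟨h1, h2⟩, h3⟩ := hg
    rw [hGd] at h3
    simp only [Set.mem_inter_iff, Set.mem_setOf_eq, not_and, not_le] at h3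
    by_cases h4 : G2 g ≤ R0
    · left
      have h5 : G1 g < T := by
        by_contra h5
        push Not at h5
        exact absurd (h3 ⟨h1, h2⟩ h5) (not_lt.mpr h4)
      refine ⟨?_, ?_⟩
      · rw [hT1d]; exact h5.le.trans (le_max_left _ _)
      · rw [hT1d]; exact h4.trans (le_max_right _ _)
    · right
      push Not at h4
      exact ⟨h4.trans_le h1, h4⟩
  have hreg : ∀ w ∈ A, ‖m (BB G1 G2 R0) (R w ξ)‖ ≤ δ ∧ ‖m (BB G1 G2 R0) (R w η)‖ ≤ δ := by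
    intro w hw
    refine ⟨(h.prj.mono (BB_mono ?_) _).trans (hr1 w hw),
      (h.prj.mono (BB_mono ?_) _).trans (hr2 w hw)⟩
    · rw [hR0]; exact le_max_left _ _
    · rw [hR0]; exact le_max_right _ _
  have e1 := h.prj.tendsto_finite (f := fun w => R w ξ) (l := l)
    (fun g => he.esc g ξ hξ) (hf T1)
  have e2 := h.prj.tendsto_finite (f := fun w => R w η) (l := l')
    (fun g => he'.esc g η hη) (hf T1)
  have f1 : ∀ᶠ w in l, w ∈ A ∧ ‖m (FF G1 G2 T1) (R w ξ)‖ < δ := by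
    filter_upwards [he.mem, (Metric.tendsto_nhds.mp e1) δ hδ0] with w a b
    rw [dist_zero_right, norm_norm] at b
    exact ⟨a, b⟩
  have f2 : ∀ᶠ w in l', w ∈ A ∧ ‖m (FF G1 G2 T1) (R w η)‖ < δ := by
    filter_upwards [he'.mem, (Metric.tendsto_nhds.mp e2) δ hδ0] with w a b
    rw [dist_zero_right, norm_norm] at b
    exact ⟨a, b⟩
  filter_upwards [f1.prod_mk f2] with p hp a haB b hbB hda hdb
  obtain ⟨w, w'⟩ := p
  obtain ⟨⟨hw, hw1⟩, hw', hw2⟩ := hp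
  simp only at hw hw1 hw' hw2 hda hdb ⊢
  have ha1 : ‖a‖ ≤ 1 := h.norm a haB
  have hb1 : ‖b‖ ≤ 1 := h.norm b hbB
  have ga : ‖m (cn G1 G2 bp A1 \ Gd A1) a‖ ≤ 2 * δ := by
    have h3 := hda (cn G1 G2 bp A1 \ Gd A1)
    have h4 := h.prj.mono (hrest A1) (R w ξ)
    have h5 := h.prj.norm_union_le (FF G1 G2 T1) (BB G1 G2 R0) (R w ξ)
    have h6 := (hreg w hw).1
    linarith
  have gb : ‖m (cn G1 G2 bp A2 \ Gd A2) b‖ ≤ 2 * δ := by
    have h3 := hdb (cn G1 G2 bp A2 \ Gd A2)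
    have h4 := h.prj.mono (hrest A2) (R w' η)
    have h5 := h.prj.norm_union_le (FF G1 G2 T1) (BB G1 G2 R0) (R w' η)
    have h6 := (hreg w' hw').2
    linarith
  obtain ⟨u, hu⟩ : ∃ u, u = w * w'⁻¹ := ⟨_, rfl⟩
  have huA : u ∈ A := by rw [hu]; exact A.mul_mem hw (A.inv_mem hw')
  rw [← hu]
  have split : ∀ (A0 : Set Y) (c : K), m (cn G1 G2 bp A0) c = m (Gd A0) c +
      m (cn G1 G2 bp A0 \ Gd A0) c := by
    intro A0 c
    have h4 := h.prj.split (cn G1 G2 bp A0) (Gd A0)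
    rw [Set.inter_eq_right.mpr (hsub A0)] at h4
    rw [h4, add_apply]
  have main : ‖⟪m (Gd A1) a, R u (m (Gd A2) b)⟫_ℂ‖ ≤ δ := by
    have h4 := h.sep u b hbB a haB
      (Gd A2) (Gd A1) (Br r) S ?_ ?_
    · refine h4.trans ?_
      have h5 := hr u huA
      calc Real.sqrt S.card * Real.sqrt (ms u (Br r))
          ≤ Real.sqrt S.card * Real.sqrt (δ ^ 2 / ((S.card : ℝ) + 1)) := by gcongr
        _ = Real.sqrt (S.card * (δ ^ 2 / ((S.card : ℝ) + 1))) := by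
            rw [Real.sqrt_mul (Nat.cast_nonneg _)]
        _ ≤ Real.sqrt (δ ^ 2) := by
            refine Real.sqrt_le_sqrt ?_
            rw [mul_div_assoc', div_le_iff₀ (by positivity)]
            have := sq_nonneg δ
            nlinarith
        _ = δ := Real.sqrt_sq hδ0.le
    · intro x hx y hy
      rw [hGd] at hx hy
      obtain ⟨⟨_, x1⟩, x2, x3⟩ := hx
      obtain ⟨⟨_, y1⟩, y2, y3⟩ := hy
      exact hT1 x y x1 y1 x2 y2 x3 y3
    · intro x₁ hx₁ y₁ hy₁ x₂ hx₂ y₂ hy₂ hxy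
      rw [hGd] at hx₁ hy₁ hx₂ hy₂
      obtain ⟨⟨_, x1⟩, x2, x3⟩ := hx₁
      obtain ⟨⟨_, y1⟩, y2, y3⟩ := hy₁
      obtain ⟨⟨_, x1'⟩, x2', x3'⟩ := hx₂
      obtain ⟨⟨_, y1'⟩, y2', y3'⟩ := hy₂
      exact hT2 x₁ y₁ x₂ y₂ x1 y1 x1' y1' x2 y2 x2' y2' x3 y3 x3' y3' hxy
  have n1 : ‖m (Gd A1) a‖ ≤ 1 := (h.prj.norm_le _ _).trans ha1
  have n2 : ∀ c : K, ‖R u c‖ ≤ ‖c‖ := fun c => h.rep.norm_le _ _
  have n3 : ‖m (cn G1 G2 bp A2) b‖ ≤ 1 := (h.prj.norm_le _ _).trans hb1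
  have expand : ⟪m (cn G1 G2 bp A1) a, R u (m (cn G1 G2 bp A2) b)⟫_ℂ =
      ⟪m (Gd A1) a, R u (m (Gd A2) b)⟫_ℂ +
      ⟪m (Gd A1) a, R u (m (cn G1 G2 bp A2 \ Gd A2) b)⟫_ℂ +
      ⟪m (cn G1 G2 bp A1 \ Gd A1) a, R u (m (cn G1 G2 bp A2) b)⟫_ℂ := by
    conv_lhs => rw [split A1 a]
    rw [inner_add_left]
    congr 1
    rw [split A2 b, map_add, inner_add_right]
  rw [expand]
  have t2 : ‖⟪m (Gd A1) a, R u (m (cn G1 G2 bp A2 \ Gd A2) b)⟫_ℂ‖ ≤ 2 * δ := by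
    refine (norm_inner_le_norm _ _).trans ?_
    calc _ ≤ 1 * (2 * δ) := mul_le_mul n1 ((n2 _).trans gb) (norm_nonneg _) zero_le_one
      _ = _ := one_mul _
  have t3 : ‖⟪m (cn G1 G2 bp A1 \ Gd A1) a,
      R u (m (cn G1 G2 bp A2) b)⟫_ℂ‖ ≤ 2 * δ := by
    refine (norm_inner_le_norm _ _).trans ?_
    calc _ ≤ (2 * δ) * 1 := mul_le_mul ga ((n2 _).trans n3) (norm_nonneg _) (by positivity)
      _ = _ := mul_one _
  calc _ ≤ ‖⟪m (Gd A1) a, R u (m (Gd A2) b)⟫_ℂ‖ +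
      ‖⟪m (Gd A1) a, R u (m (cn G1 G2 bp A2 \ Gd A2) b)⟫_ℂ‖ +
      ‖⟪m (cn G1 G2 bp A1 \ Gd A1) a, R u (m (cn G1 G2 bp A2) b)⟫_ℂ‖ :=
        norm_add₃_le
    _ ≤ 5 * δ := by linarith
    _ < ε := by rw [hδ]; linarith

/-- **Purity**: wall limits over disjoint sets of base points are orthogonal. -/
theorem pure (h : Sys m R Bd ms A Br G1 G2) (hf : ∀ r, (FF G1 G2 r).Finite)
    (he : Esc m R Bd A l) (he' : Esc m R Bd A l') {A1 A2 : Set Y} (hd : SepP Br G1 G2 bp A2 A1)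
    (ξ η : K) : Tendsto (fun p : D × D => ⟪P m R p.1 (cn G1 G2 bp A1) ξ,
      P m R p.2 (cn G1 G2 bp A2) η⟫_ℂ) (l ×ˢ l') (𝓝 0) := by
  refine form_of_total (fun p => P_opNorm h.prj h.rep _ _) (fun p => P_opNorm h.prj h.rep _ _)
    h.dense (fun ξ hξ η hη => ?_) ξ η
  rw [Metric.tendsto_nhds]
  intro ε hε
  filter_upwards [pure_unif (A1 := A1) (A2 := A2) h hf he he' hd hξ hη hε] with p hp
  rw [dist_zero_right, P_inner_two h.rep _ _ _ _ _ _ h.prj]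
  exact hp _ (h.map _ _ hξ) _ (h.map _ _ hη) (fun S => le_rfl) (fun S => le_rfl)

section key

variable {mp : (Γ → ℝ) → (K →L[ℂ] K)}

/-- Analytic input with functions. -/
structure SysF (mp : (Γ → ℝ) → (K →L[ℂ] K)) (R : D → (K →L[ℂ] K)) (Bd : Set K)
    (ms : D → Set Γ → ℝ) (A : Subgroup D) (Br : ℝ → Set Γ) (G1 G2 : Γ → ℝ) : Prop where
  fn : Fn mp
  sys : Sys (st mp) R Bd ms A Br G1 G2
  mpb : ∀ F : Γ → ℝ, (∀ g, |F g| ≤ 1) → ∀ ξ ∈ Bd, mp F ξ ∈ Bd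

/-- Functions whose level sets are separated. -/
def SepF (Br : ℝ → Set Γ) (G1 G2 : Γ → ℝ) (bp : Γ → Y) (f : Y → ℝ) : Prop :=
  ∀ c d : ℝ, c < d → SepP Br G1 G2 bp {y | f y ≤ c} {y | d ≤ f y} ∧
    SepP Br G1 G2 bp {y | d ≤ f y} {y | f y ≤ c}

theorem SepP.mono {Br : ℝ → Set Γ} {G1 G2 : Γ → ℝ} {bp : Γ → Y} {A A' A0 A0' : Set Y}
    (h : SepP Br G1 G2 bp A A') (h1 : A0 ⊆ A) (h2 : A0' ⊆ A') : SepP Br G1 G2 bp A0 A0' := by
  intro R
  obtain ⟨S, hS⟩ := h R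
  refine ⟨S, fun r => ?_⟩
  obtain ⟨T, hT1, hT2⟩ := hS r
  exact ⟨T, fun x y hx hy => hT1 x y (h1 hx) (h2 hy),
    fun x₁ y₁ x₂ y₂ a b c d => hT2 x₁ y₁ x₂ y₂ (h1 a) (h2 b) (h1 c) (h2 d)⟩

/-- The key estimate on bounded vectors. -/
theorem key_bd (h : SysF mp R Bd ms A Br G1 G2) (hfin : ∀ r, (FF G1 G2 r).Finite)
    (he : Esc (st mp) R Bd A l) (he' : Esc (st mp) R Bd A l') {f : Y → ℝ}
    (h01 : ∀ y, 0 ≤ f y ∧ f y ≤ 1) (hs : SepF Br G1 G2 bp f)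
    {ξ η : K} (hξ : ξ ∈ Bd) (hη : η ∈ Bd) {ε : ℝ} (hε : 0 < ε) :
    ∀ᶠ p : D × D in l ×ˢ l', ∀ F : Γ → ℝ, (∀ g, |F g| ≤ 1) →
      ‖⟪mp (ind fun g => G2 g ≤ G1 g) (R p.1 ξ),
          R (p.1 * p.2⁻¹) (mp (cf G1 G2 bp f) (mp F (R p.2 η)))⟫_ℂ -
        ⟪mp (cf G1 G2 bp f) (R p.1 ξ),
          R (p.1 * p.2⁻¹) (mp (ind fun g => G2 g ≤ G1 g) (mp F (R p.2 η)))⟫_ℂ‖ ≤ ε := by
  obtain ⟨N, hN⟩ := exists_nat_gt (18 / ε)
  have hN0 : 0 < N := by
    have h1 : (0 : ℝ) < N := lt_trans (by positivity) hN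
    exact_mod_cast h1
  have hNr : (0 : ℝ) < N := by exact_mod_cast hN0
  obtain ⟨ε', hε'⟩ : ∃ ε' : ℝ, ε' = ε / (4 * (N + 1) ^ 2) := ⟨_, rfl⟩
  have hε'0 : 0 < ε' := by rw [hε']; positivity
  obtain ⟨Uc, hUc⟩ : ∃ Uc : ℕ → Set Y, Uc = fun i => {y | ⌊(N : ℝ) * f y⌋₊ = i} := ⟨_, rfl⟩
  have hsepc : ∀ i j : ℕ, ¬ (i ≤ j + 1 ∧ j ≤ i + 1) → SepP Br G1 G2 bp (Uc i) (Uc j) := by
    intro i j hij
    have hlo : ∀ (k : ℕ) y, y ∈ Uc k → (k : ℝ) / N ≤ f y := by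
      intro k y hy
      rw [hUc] at hy
      have h0 : 0 ≤ (N : ℝ) * f y := mul_nonneg hNr.le (h01 y).1
      have h1 : (k : ℝ) ≤ N * f y := by rw [← hy]; exact Nat.floor_le h0
      rw [div_le_iff₀ hNr]; linarith
    have hhi : ∀ (k : ℕ) y, y ∈ Uc k → f y ≤ ((k : ℝ) + 1) / N := by
      intro k y hy
      rw [hUc] at hy
      have h2 : (N : ℝ) * f y < k + 1 := by rw [← hy]; exact Nat.lt_floor_add_one _
      rw [le_div_iff₀ hNr]; linarith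
    rw [not_and_or, not_le, not_le] at hij
    rcases hij with h1 | h1
    · have h2 : ((j : ℝ) + 1) / N < (i : ℝ) / N := by
        have : (j : ℝ) + 1 < i := by exact_mod_cast h1
        gcongr
      exact (hs _ _ h2).2.mono (fun y hy => hlo i y hy) (fun y hy => hhi j y hy)
    · have h2 : ((i : ℝ) + 1) / N < (j : ℝ) / N := by
        have : (i : ℝ) + 1 < j := by exact_mod_cast h1
        gcongr
      exact (hs _ _ h2).1.mono (fun y hy => hhi i y hy) (fun y hy => hlo j y hy)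
  have hev : ∀ᶠ p : D × D in l ×ˢ l', ∀ ij ∈ (Finset.range (N + 1)) ×ˢ (Finset.range (N + 1)),
      ¬ (ij.1 ≤ ij.2 + 1 ∧ ij.2 ≤ ij.1 + 1) → ∀ a ∈ Bd, ∀ b ∈ Bd,
      (∀ S, ‖st mp S a‖ ≤ ‖st mp S (R p.1 ξ)‖) → (∀ S, ‖st mp S b‖ ≤ ‖st mp S (R p.2 η)‖) →
      ‖⟪st mp (cn G1 G2 bp (Uc ij.2)) a,
        R (p.1 * p.2⁻¹) (st mp (cn G1 G2 bp (Uc ij.1)) b)⟫_ℂ‖ < ε' := by
    rw [Filter.eventually_all_finset]
    intro ij _
    by_cases hij : ij.1 ≤ ij.2 + 1 ∧ ij.2 ≤ ij.1 + 1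
    · exact Eventually.of_forall fun p h => absurd hij h
    · filter_upwards [pure_unif h.sys hfin he he' (hsepc ij.1 ij.2 hij) hξ hη hε'0] with p hp _
      exact hp
  filter_upwards [hev] with p hp F hF
  obtain ⟨a, ha⟩ : ∃ a, a = R p.1 ξ := ⟨_, rfl⟩
  obtain ⟨b, hb⟩ : ∃ b, b = R p.2 η := ⟨_, rfl⟩
  rw [← ha, ← hb]
  rw [← ha, ← hb] at hp
  have haB : a ∈ Bd := by rw [ha]; exact h.sys.map _ _ hξ
  have hbB : b ∈ Bd := by rw [hb]; exact h.sys.map _ _ hη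
  have hq : ∀ g : Γ, 0 ≤ ind (fun g => G2 g ≤ G1 g) g ∧ ind (fun g => G2 g ≤ G1 g) g ≤ 1 :=
    fun g => ⟨ind_nonneg _ g, ind_le_one _ g⟩
  have main := pair_estF (mp := mp) h.fn (R (p.1 * p.2⁻¹)) (h.sys.rep.norm_le _)
    (q := ind fun g => G2 g ≤ G1 g) (H := fun g => f (bp g)) hq (fun g => h01 _) N hN0
    (mp F b) a (h.sys.norm _ (h.mpb F hF b hbB)) (h.sys.norm _ haB) (ε := ε') ?_
  · refine main.trans ?_
    have h1 : (9 : ℝ) / N ≤ ε / 2 := by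
      rw [div_le_iff₀ hNr]
      rw [div_lt_iff₀ hε] at hN
      linarith
    have h2 : 2 * ((N : ℝ) + 1) ^ 2 * ε' = ε / 2 := by
      rw [hε']; field_simp; ring
    linarith
  · intro i j hij F' G' hF' hG' hFi hGj
    have hm : ∀ {a b : ℝ}, |a| ≤ 1 → |b| ≤ 1 → |a * b| ≤ 1 := fun {a b} ha hb => by
      rw [abs_mul]; exact mul_le_one₀ ha (abs_nonneg _) hb
    have bq : ∀ g : Γ, |ind (fun g => G2 g ≤ G1 g) g| ≤ 1 := abs_ind_le _
    have b1 : ∀ g, |ind (fun g => G2 g ≤ G1 g) g * F' g| ≤ 1 := fun g => hm (bq g) (hF' g)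
    have b2 : ∀ g, |ind (fun g => G2 g ≤ G1 g) g * G' g| ≤ 1 := fun g => hm (bq g) (hG' g)
    have supp : ∀ (X : Γ → ℝ) (k : ℕ), (∀ g, X g ≠ 0 → ⌊(N : ℝ) * f (bp g)⌋₊ = k) →
        ∀ g, ind (fun g => G2 g ≤ G1 g) g * X g ≠ 0 → g ∈ cn G1 G2 bp (Uc k) := by
      intro X k hX g hg
      have h1 : G2 g ≤ G1 g := by
        by_contra h2
        rw [ind_neg (P := fun g => G2 g ≤ G1 g) h2, zero_mul] at hg
        exact hg rfl
      have h2 : X g ≠ 0 := fun h3 => hg (by rw [h3, mul_zero])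
      refine ⟨h1, ?_⟩
      rw [hUc]; exact hX g h2
    by_cases hi : i ∈ Finset.range (N + 1)
    · by_cases hj : j ∈ Finset.range (N + 1)
      · have h3 := hp (i, j) (Finset.mem_product.mpr ⟨hi, hj⟩) hij
          (mp (fun g => ind (fun g => G2 g ≤ G1 g) g * G' g) a) (h.mpb _ b2 a haB)
          (mp (fun g => ind (fun g => G2 g ≤ G1 g) g * F' g) (mp F b))
          (h.mpb _ b1 _ (h.mpb F hF b hbB)) (fun S => h.fn.st_le b2 S a)
          (fun S => (h.fn.st_le b1 S _).trans (h.fn.st_le hF S b))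
        have e1 := congrArg (fun T : K →L[ℂ] K => T a) (h.fn.st_mul b2 (supp G' j hGj))
        have e2 := congrArg (fun T : K →L[ℂ] K => T (mp F b)) (h.fn.st_mul b1 (supp F' i hFi))
        simp only [mul_ap'] at e1 e2
        simp only at h3
        rw [e1, e2] at h3
        exact h3.le
      · have h0 : G' = fun _ => 0 := by
          funext g
          by_contra h4
          have h5 := hGj g h4
          refine hj (Finset.mem_range.mpr ?_)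
          rw [← h5, Nat.lt_succ_iff]
          refine Nat.floor_le_of_le ?_
          have := (h01 (bp g)).2
          nlinarith
        rw [h0]
        have h4 : (fun g : Γ => ind (fun g => G2 g ≤ G1 g) g * (fun _ : Γ => (0 : ℝ)) g) =
            fun _ => (0 : ℝ) := by funext g; simp
        rw [h4, h.fn.zero, zero_apply, inner_zero_left, norm_zero]
        exact hε'0.le
    · have h0 : F' = fun _ => 0 := by
        funext g
        by_contra h4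
        have h5 := hFi g h4
        refine hi (Finset.mem_range.mpr ?_)
        rw [← h5, Nat.lt_succ_iff]
        refine Nat.floor_le_of_le ?_
        have := (h01 (bp g)).2
        nlinarith
      rw [h0]
      have h4 : (fun g : Γ => ind (fun g => G2 g ≤ G1 g) g * (fun _ : Γ => (0 : ℝ)) g) =
          fun _ => (0 : ℝ) := by funext g; simp
      rw [h4, h.fn.zero, zero_apply, map_zero, inner_zero_right, norm_zero]
      exact hε'0.le

/-- **Key lemma**, functions with values in `[0,1]`. -/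
theorem key01 (h : SysF mp R Bd ms A Br G1 G2) (hfin : ∀ r, (FF G1 G2 r).Finite)
    (he : Esc (st mp) R Bd A l) (he' : Esc (st mp) R Bd A l') {f g : Y → ℝ}
    (h01 : ∀ y, 0 ≤ f y ∧ f y ≤ 1) (hs : SepF Br G1 G2 bp f) (hg : ∀ y, |g y| ≤ 1) (ξ η : K) :
    Tendsto (fun p : D × D =>
      ⟪PF mp R p.1 (cf G1 G2 bp fun _ => 1) ξ, PF mp R p.2 (cf G1 G2 bp fun y => f y * g y) η⟫_ℂ -
      ⟪PF mp R p.1 (cf G1 G2 bp f) ξ, PF mp R p.2 (cf G1 G2 bp g) η⟫_ℂ) (l ×ˢ l') (𝓝 0) := by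
  have hfa : ∀ y, |f y| ≤ 1 := fun y => by rw [abs_of_nonneg (h01 y).1]; exact (h01 y).2
  have hfg : ∀ y, |f y * g y| ≤ 1 := fun y => by
    rw [abs_mul]; exact mul_le_one₀ (hfa y) (abs_nonneg _) (hg y)
  have h1a : ∀ y : Y, |(1 : ℝ)| ≤ 1 := fun y => by rw [abs_one]
  have n1 : ∀ w (x : K), ‖PF mp R w (cf G1 G2 bp fun _ => 1) x‖ ≤ ‖x‖ := fun w x => by
    have := PF_norm h.fn h.sys.rep zero_le_one (cf_abs (G1 := G1) (G2 := G2) (bp := bp) h1a) w x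
    rwa [one_mul] at this
  have n2 : ∀ w (x : K), ‖PF mp R w (cf G1 G2 bp fun y => f y * g y) x‖ ≤ ‖x‖ := fun w x => by
    have := PF_norm h.fn h.sys.rep zero_le_one (cf_abs (G1 := G1) (G2 := G2) (bp := bp) hfg) w x
    rwa [one_mul] at this
  have n3 : ∀ w (x : K), ‖PF mp R w (cf G1 G2 bp f) x‖ ≤ ‖x‖ := fun w x => by
    have := PF_norm h.fn h.sys.rep zero_le_one (cf_abs (G1 := G1) (G2 := G2) (bp := bp) hfa) w x
    rwa [one_mul] at this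
  have n4 : ∀ w (x : K), ‖PF mp R w (cf G1 G2 bp g) x‖ ≤ ‖x‖ := fun w x => by
    have := PF_norm h.fn h.sys.rep zero_le_one (cf_abs (G1 := G1) (G2 := G2) (bp := bp) hg) w x
    rwa [one_mul] at this
  refine bform_of_total (B := fun (p : D × D) ξ η =>
      ⟪PF mp R p.1 (cf G1 G2 bp fun _ => 1) ξ, PF mp R p.2 (cf G1 G2 bp fun y => f y * g y) η⟫_ℂ -
      ⟪PF mp R p.1 (cf G1 G2 bp f) ξ, PF mp R p.2 (cf G1 G2 bp g) η⟫_ℂ) (C := 2) (by norm_num)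
    ?_ ?_ ?_ ?_ ?_ h.sys.dense ?_ ξ η
  · intro p x y
    refine (norm_sub_le _ _).trans ?_
    have a1 := norm_inner_le_norm (𝕜 := ℂ) (PF mp R p.1 (cf G1 G2 bp fun _ => 1) x)
      (PF mp R p.2 (cf G1 G2 bp fun y => f y * g y) y)
    have a2 := norm_inner_le_norm (𝕜 := ℂ) (PF mp R p.1 (cf G1 G2 bp f) x)
      (PF mp R p.2 (cf G1 G2 bp g) y)
    have a3 : ‖PF mp R p.1 (cf G1 G2 bp fun _ => 1) x‖ *
        ‖PF mp R p.2 (cf G1 G2 bp fun y => f y * g y) y‖ ≤ ‖x‖ * ‖y‖ :=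
      mul_le_mul (n1 _ _) (n2 _ _) (norm_nonneg _) (norm_nonneg _)
    have a4 : ‖PF mp R p.1 (cf G1 G2 bp f) x‖ *
        ‖PF mp R p.2 (cf G1 G2 bp g) y‖ ≤ ‖x‖ * ‖y‖ :=
      mul_le_mul (n3 _ _) (n4 _ _) (norm_nonneg _) (norm_nonneg _)
    linarith
  · intro p x x' y
    simp only [map_add, inner_add_left]; ring
  · intro p x y y'
    simp only [map_add, inner_add_right]; ring
  · intro p c x y
    simp only [map_smul, inner_smul_left]
    rw [← mul_sub, norm_mul, RCLike.norm_conj]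
  · intro p c x y
    simp only [map_smul, inner_smul_right]
    rw [← mul_sub, norm_mul]
  · intro ξ hξ η hη
    rw [Metric.tendsto_nhds]
    intro ε hε
    filter_upwards [key_bd h hfin he he' h01 hs hξ hη (half_pos hε)] with p hp
    have h1 := hp (fun x => g (bp x)) (fun x => hg _)
    rw [dist_zero_right, PF_two h.fn h.sys.rep, PF_two h.fn h.sys.rep]
    have e0 : (cf G1 G2 bp fun _ => (1 : ℝ)) = ind fun g => G2 g ≤ G1 g := by
      funext x; rw [cf, mul_one]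
    have e1 : mp (cf G1 G2 bp fun y => f y * g y) (R p.2 η) =
        mp (cf G1 G2 bp f) (mp (fun x => g (bp x)) (R p.2 η)) := by
      rw [← h.fn.mul_ap (cf_abs hfa) (fun x => hg (bp x))]
      congr 2
      funext x
      rw [cf, cf]; ring
    have e2 : mp (cf G1 G2 bp g) (R p.2 η) =
        mp (ind fun g => G2 g ≤ G1 g) (mp (fun x => g (bp x)) (R p.2 η)) := by
      rw [← h.fn.mul_ap (abs_ind_le _) (fun x => hg (bp x))]
      rfl
    rw [e0, e1, e2]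
    linarith

end key

section full

variable {mp : (Γ → ℝ) → (K →L[ℂ] K)}

/-- One half of the Cauchy estimate. -/
theorem half01 (h : SysF mp R Bd ms A Br G1 G2) (hfin : ∀ r, (FF G1 G2 r).Finite)
    (he : Esc (st mp) R Bd A l) (he' : Esc (st mp) R Bd A l') (hfu : Full (st mp) R G1 G2 l)
    {f : Y → ℝ} (h01 : ∀ y, 0 ≤ f y ∧ f y ≤ 1) (hs : SepF Br G1 G2 bp f) (ξ : K) :
    Tendsto (fun p : D × D => ⟪ξ, PF mp R p.2 (cf G1 G2 bp fun y => f y * f y) ξ⟫_ℂ -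
      ⟪PF mp R p.1 (cf G1 G2 bp f) ξ, PF mp R p.2 (cf G1 G2 bp f) ξ⟫_ℂ) (l ×ˢ l') (𝓝 0) := by
  have hfa : ∀ y, |f y| ≤ 1 := fun y => by rw [abs_of_nonneg (h01 y).1]; exact (h01 y).2
  have hff : ∀ y, |f y * f y| ≤ 1 := fun y => by
    rw [abs_mul]; exact mul_le_one₀ (hfa y) (abs_nonneg _) (hfa y)
  have h1 := key01 h hfin he he' h01 hs hfa ξ ξ
  have h2 : Tendsto (fun p : D × D => ⟪R 1 ξ - PF mp R p.1 (cf G1 G2 bp fun _ => 1) ξ,
      PF mp R p.2 (cf G1 G2 bp fun y => f y * f y) ξ⟫_ℂ) (l ×ˢ l') (𝓝 0) := by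
    have h3 := ((full_one (bp := bp) hfu ξ).const_sub (R 1 ξ)).norm
    rw [sub_self, norm_zero] at h3
    have h4 := (h3.mul_const ‖ξ‖).comp (tendsto_fst (f := l) (g := l'))
    rw [zero_mul] at h4
    refine squeeze_zero_norm (fun p => ?_) h4
    refine (norm_inner_le_norm _ _).trans ?_
    rw [Function.comp_apply]
    have := PF_norm h.fn h.sys.rep zero_le_one
      (cf_abs (G1 := G1) (G2 := G2) (bp := bp) hff) p.2 ξ
    rw [one_mul] at this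
    exact mul_le_mul_of_nonneg_left this (norm_nonneg _)
  have h5 := h2.add h1
  rw [add_zero] at h5
  refine h5.congr fun p => ?_
  have e1 : ⟪R 1 ξ, PF mp R p.2 (cf G1 G2 bp fun y => f y * f y) ξ⟫_ℂ =
      ⟪ξ, PF mp R p.2 (cf G1 G2 bp fun y => f y * f y) ξ⟫_ℂ := by
    rw [h.sys.rep.inner_left, inv_one, ← mul_ap', one_PF h.fn h.sys.rep]
  rw [inner_sub_left, e1]
  ring

/-- The Cauchy estimate, functions with values in `[0, 1]`. -/
theorem cau01 (h : SysF mp R Bd ms A Br G1 G2) (hfin : ∀ r, (FF G1 G2 r).Finite)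
    (he : Esc (st mp) R Bd A l) (he' : Esc (st mp) R Bd A l') (hfu : Full (st mp) R G1 G2 l)
    (hfu' : Full (st mp) R G1 G2 l')
    {f : Y → ℝ} (h01 : ∀ y, 0 ≤ f y ∧ f y ≤ 1) (hs : SepF Br G1 G2 bp f) (ξ : K) :
    Tendsto (fun p : D × D => ‖PF mp R p.1 (cf G1 G2 bp f) ξ - PF mp R p.2 (cf G1 G2 bp f) ξ‖)
      (l ×ˢ l') (𝓝 0) := by
  have hfa : ∀ y, |f y| ≤ 1 := fun y => by rw [abs_of_nonneg (h01 y).1]; exact (h01 y).2
  have hca := cf_abs (G1 := G1) (G2 := G2) (bp := bp) hfa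
  have h1 := half01 h hfin he he' hfu h01 hs ξ
  have h2 := (half01 h hfin he' he hfu' h01 hs ξ).comp
    (Filter.tendsto_prod_swap (f := l) (g := l'))
  have h3 := ((Complex.continuous_re.tendsto _).comp (h1.add h2))
  rw [add_zero, Complex.zero_re] at h3
  have h4 : Tendsto (fun p : D × D =>
      ‖PF mp R p.1 (cf G1 G2 bp f) ξ - PF mp R p.2 (cf G1 G2 bp f) ξ‖ ^ 2) (l ×ˢ l') (𝓝 0) := by
    refine squeeze_zero (fun p => by positivity) (fun p => ?_) h3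
    have a1 := PF_sq h.fn h.sys.rep hca p.1 ξ
    have a2 := PF_sq h.fn h.sys.rep hca p.2 ξ
    rw [cf_mul] at a1 a2
    have a3 := @norm_sub_sq ℂ K _ _ _ (PF mp R p.1 (cf G1 G2 bp f) ξ)
      (PF mp R p.2 (cf G1 G2 bp f) ξ)
    have a4 : (⟪PF mp R p.2 (cf G1 G2 bp f) ξ, PF mp R p.1 (cf G1 G2 bp f) ξ⟫_ℂ).re =
        (⟪PF mp R p.1 (cf G1 G2 bp f) ξ, PF mp R p.2 (cf G1 G2 bp f) ξ⟫_ℂ).re := by
      rw [← inner_conj_symm, Complex.conj_re]
    rw [a3]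
    simp only [Function.comp_apply, Prod.fst_swap, Prod.snd_swap, Complex.add_re, Complex.sub_re]
    rw [a4]
    change ‖PF mp R p.1 (cf G1 G2 bp f) ξ‖ ^ 2 - 2 *
      (⟪PF mp R p.1 (cf G1 G2 bp f) ξ, PF mp R p.2 (cf G1 G2 bp f) ξ⟫_ℂ).re +
      ‖PF mp R p.2 (cf G1 G2 bp f) ξ‖ ^ 2 ≤ _
    linarith
  have h5 := h4.sqrt
  rw [Real.sqrt_zero] at h5
  exact h5.congr fun p => Real.sqrt_sq (norm_nonneg _)

theorem SepF.affine {f : Y → ℝ} (hs : SepF Br G1 G2 bp f) {a b : ℝ} (ha : 0 < a) :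
    SepF Br G1 G2 bp fun y => a * f y + b := by
  intro c d hcd
  have h1 := hs ((c - b) / a) ((d - b) / a) (by gcongr)
  have e1 : {y | a * f y + b ≤ c} = {y | f y ≤ (c - b) / a} := by
    ext y
    simp only [Set.mem_setOf_eq]
    rw [le_div_iff₀ ha]
    constructor <;> intro h <;> linarith
  have e2 : {y | d ≤ a * f y + b} = {y | (d - b) / a ≤ f y} := by
    ext y
    simp only [Set.mem_setOf_eq]
    rw [div_le_iff₀ ha]
    constructor <;> intro h <;> linarith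
  rw [e1, e2]
  exact h1

/-- The Cauchy estimate, bounded real functions. -/
theorem cauR (h : SysF mp R Bd ms A Br G1 G2) (hfin : ∀ r, (FF G1 G2 r).Finite)
    (he : Esc (st mp) R Bd A l) (he' : Esc (st mp) R Bd A l') (hfu : Full (st mp) R G1 G2 l)
    (hfu' : Full (st mp) R G1 G2 l')
    {f : Y → ℝ} {C : ℝ} (hC : ∀ y, |f y| ≤ C) (hs : SepF Br G1 G2 bp f) (ξ : K) :
    Tendsto (fun p : D × D => ‖PF mp R p.1 (cf G1 G2 bp f) ξ - PF mp R p.2 (cf G1 G2 bp f) ξ‖)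
      (l ×ˢ l') (𝓝 0) := by
  obtain ⟨M, hM⟩ : ∃ M : ℝ, M = |C| + 1 := ⟨_, rfl⟩
  have hM0 : 0 < M := by rw [hM]; positivity
  have hCM : ∀ y, |f y| ≤ M := fun y => (hC y).trans ((le_abs_self C).trans (by rw [hM]; linarith))
  obtain ⟨f0, hf0⟩ : ∃ f0 : Y → ℝ, f0 = fun y => (1 / (2 * M)) * f y + 1 / 2 := ⟨_, rfl⟩
  have h01 : ∀ y, 0 ≤ f0 y ∧ f0 y ≤ 1 := fun y => by
    obtain ⟨a1, a2⟩ := abs_le.mp (hCM y)
    rw [hf0]
    simp only
    have e : 1 / (2 * M) * f y = f y / M / 2 := by field_simp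
    have b1 : -1 ≤ f y / M := by rw [le_div_iff₀ hM0]; linarith
    have b2 : f y / M ≤ 1 := by rw [div_le_one hM0]; exact a2
    rw [e]
    constructor <;> linarith
  have hs0 : SepF Br G1 G2 bp f0 := by rw [hf0]; exact hs.affine (by positivity)
  have h1 := cau01 h hfin he he' hfu hfu' h01 hs0 ξ
  have h2 : Tendsto (fun p : D × D => ‖PF mp R p.1 (cf G1 G2 bp fun _ => 1) ξ -
      PF mp R p.2 (cf G1 G2 bp fun _ => 1) ξ‖) (l ×ˢ l') (𝓝 0) := by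
    have a1 := (full_one (bp := bp) hfu ξ).comp (tendsto_fst (f := l) (g := l'))
    have a2 := (full_one (bp := bp) hfu' ξ).comp (tendsto_snd (f := l) (g := l'))
    have a3 := (a1.sub a2).norm
    rw [sub_self, norm_zero] at a3
    exact a3
  have h3 := (h1.const_mul (2 * M)).add (h2.const_mul M)
  rw [mul_zero, mul_zero, add_zero] at h3
  refine squeeze_zero (fun p => norm_nonneg _) (fun p => ?_) h3
  have hfa0 : ∀ y, |f0 y| ≤ 1 := fun y => by rw [abs_of_nonneg (h01 y).1]; exact (h01 y).2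
  have hfa1 : ∀ y : Y, |(1 : ℝ)| ≤ 1 := fun y => by rw [abs_one]
  have e1 : ∀ w (x : K), PF mp R w (cf G1 G2 bp f) x =
      ((2 * M : ℝ) : ℂ) • PF mp R w (cf G1 G2 bp f0) x +
        ((-M : ℝ) : ℂ) • PF mp R w (cf G1 G2 bp fun _ => 1) x := by
    intro w x
    have c0 := cf_abs (G1 := G1) (G2 := G2) (bp := bp) hfa0
    have c1 := cf_abs (G1 := G1) (G2 := G2) (bp := bp) hfa1
    have e2 : cf G1 G2 bp f = fun g => (2 * M) * cf G1 G2 bp f0 g +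
        (-M) * cf G1 G2 bp (fun _ => 1) g := by
      funext g
      rw [hf0, cf, cf, cf]
      field_simp
      ring
    rw [e2, PF_add h.fn h.sys.rep w (mul_bd _ c0) (mul_bd _ c1), PF_smul h.fn h.sys.rep w _ c0,
      PF_smul h.fn h.sys.rep w _ c1]
    rfl
  rw [e1, e1, add_sub_add_comm, ← smul_sub, ← smul_sub]
  refine (norm_add_le _ _).trans ?_
  rw [norm_smul, norm_smul, Complex.norm_real, Complex.norm_real, Real.norm_eq_abs,
    Real.norm_eq_abs, abs_neg, abs_of_pos hM0, abs_of_pos (by linarith : 0 < 2 * M)]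

/-- Complex functions whose real and imaginary parts are separated. -/
def SepC (Br : ℝ → Set Γ) (G1 G2 : Γ → ℝ) (bp : Γ → Y) (f : Y → ℂ) : Prop :=
  SepF Br G1 G2 bp (fun y => (f y).re) ∧ SepF Br G1 G2 bp fun y => (f y).im

/-- The Cauchy estimate. -/
theorem cauC (h : SysF mp R Bd ms A Br G1 G2) (hfin : ∀ r, (FF G1 G2 r).Finite)
    (he : Esc (st mp) R Bd A l) (he' : Esc (st mp) R Bd A l') (hfu : Full (st mp) R G1 G2 l)
    (hfu' : Full (st mp) R G1 G2 l')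
    {f : Y → ℂ} {C : ℝ} (hC : ∀ y, ‖f y‖ ≤ C) (hs : SepC Br G1 G2 bp f) (ξ : K) :
    Tendsto (fun p : D × D => ‖PC mp R p.1 (cfc G1 G2 bp f) ξ - PC mp R p.2 (cfc G1 G2 bp f) ξ‖)
      (l ×ˢ l') (𝓝 0) := by
  have h1 := cauR h hfin he he' hfu hfu' (f := fun y => (f y).re) (C := C)
    (fun y => (Complex.abs_re_le_norm _).trans (hC y)) hs.1 ξ
  have h2 := cauR h hfin he he' hfu hfu' (f := fun y => (f y).im) (C := C)
    (fun y => (Complex.abs_im_le_norm _).trans (hC y)) hs.2 ξ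
  have h3 := h1.add h2
  rw [add_zero] at h3
  refine squeeze_zero (fun p => norm_nonneg _) (fun p => ?_) h3
  rw [CL.cfc_split, CL.cfc_split, add_sub_add_comm, ← smul_sub]
  refine (norm_add_le _ _).trans ?_
  rw [norm_smul, Complex.norm_I, one_mul]

/-- **Strong convergence** in the full case. -/
theorem strong (h : SysF mp R Bd ms A Br G1 G2) (hfin : ∀ r, (FF G1 G2 r).Finite)
    (he : Esc (st mp) R Bd A l) [l.NeBot] (hfu : Full (st mp) R G1 G2 l)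
    {f : Y → ℂ} {C : ℝ} (hC : ∀ y, ‖f y‖ ≤ C) (hs : SepC Br G1 G2 bp f) (ξ : K) :
    ∃ x, Tendsto (fun w => PC mp R w (cfc G1 G2 bp f) ξ) l (𝓝 x) := by
  rw [← cauchy_map_iff_exists_tendsto]
  refine cauchy_map_iff.mpr ⟨inferInstance, ?_⟩
  rw [tendsto_uniformity_iff_dist_tendsto_zero]
  refine (cauC h hfin he he hfu hfu hC hs ξ).congr fun p => ?_
  rw [dist_eq_norm]

section cont

variable [TopologicalSpace Y] [CompactSpace Y]

theorem sepC_of (hS : ∀ f : C(Y, ℝ), SepF Br G1 G2 bp f) (f : C(Y, ℂ)) : SepC Br G1 G2 bp f :=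
  ⟨hS ⟨fun y => (f y).re, Complex.continuous_re.comp f.continuous⟩,
    hS ⟨fun y => (f y).im, Complex.continuous_im.comp f.continuous⟩⟩

/-- **The homomorphism of the full case.** -/
theorem exists_beta (h : SysF mp R Bd ms A Br G1 G2) (hfin : ∀ r, (FF G1 G2 r).Finite)
    (he : Esc (st mp) R Bd A l) [l.NeBot] (hfu : Full (st mp) R G1 G2 l) (h1 : R 1 = 1)
    (hS : ∀ f : C(Y, ℝ), SepF Br G1 G2 bp f) :
    ∃ β : C(Y, ℂ) →⋆ₐ[ℂ] (K →L[ℂ] K), ∀ (f : C(Y, ℂ)) ξ,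
      Tendsto (fun w => PC mp R w (cfc G1 G2 bp f) ξ) l (𝓝 (β f ξ)) := by
  obtain ⟨T, hT⟩ : ∃ T : C(Y, ℂ) → (K →L[ℂ] K), ∀ (f : C(Y, ℂ)) ξ,
      Tendsto (fun w => PC mp R w (cfc G1 G2 bp f) ξ) l (𝓝 (T f ξ)) := by
    refine ⟨fun f : C(Y, ℂ) => lm l fun w => PC mp R w (cfc G1 G2 bp f), fun f ξ => ?_⟩
    exact lm_spec' (fun w => PC_opNorm h.fn h.sys.rep (norm_nonneg f)
      (CL.cfc_norm fun y => f.norm_coe_le_norm y) w)
      (fun ξ => strong h hfin he hfu (fun y => f.norm_coe_le_norm y) (sepC_of hS f) ξ) ξ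
  have bd : ∀ f : C(Y, ℂ), ∀ g, ‖cfc G1 G2 bp f g‖ ≤ ‖f‖ := fun f =>
    CL.cfc_norm fun y => f.norm_coe_le_norm y
  have hone : T 1 = 1 := by
    ext ξ
    refine tendsto_nhds_unique (hT 1 ξ) ?_
    have h2 := full_one (bp := bp) hfu ξ
    rw [h1] at h2
    refine h2.congr fun w => ?_
    rw [← PC_real h.fn]
    congr 2
    funext g
    rw [cf, CL.cfc]; simp
  have hadd : ∀ f g, T (f + g) = T f + T g := by
    intro f g
    ext ξ
    refine tendsto_nhds_unique (hT (f + g) ξ) (((hT f ξ).add (hT g ξ)).congr fun w => ?_)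
    rw [← add_apply, ← PC_add h.fn (bd f) (bd g), ← CL.cfc_add]
    rfl
  have hsm : ∀ (c : ℂ) f, T (c • f) = c • T f := by
    intro c f
    ext ξ
    refine tendsto_nhds_unique (hT (c • f) ξ) (((hT f ξ).const_smul c).congr fun w => ?_)
    rw [← smul_apply, ← PC_smul h.fn c (bd f), ← CL.cfc_smul]
    rfl
  have hmul : ∀ f g, T (f * g) = T f * T g := by
    intro f g
    ext ξ
    refine tendsto_nhds_unique (hT (f * g) ξ) ((tendsto_mul_ap (fun w =>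
      PC_opNorm h.fn h.sys.rep (norm_nonneg f) (bd f) w) (hT f) (hT g) ξ).congr fun w => ?_)
    rw [← PC_mul h.fn h.sys.rep h1 (bd f) (bd g), ← CL.cfc_mul]
    rfl
  have hstar : ∀ f, T (star f) = star (T f) := by
    intro f
    ext ξ
    refine ext_inner_right ℂ fun η => ?_
    rw [star_eq_adjoint, adjoint_inner_left]
    have a1 := (hT (star f) ξ).inner (𝕜 := ℂ) (tendsto_const_nhds (x := η))
    have a2 := (tendsto_const_nhds (x := ξ)).inner (𝕜 := ℂ) (hT f η)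
    refine tendsto_nhds_unique a1 (a2.congr fun w => ?_)
    have a3 := PC_inner h.fn h.sys.rep (F := cfc G1 G2 bp ((star f : C(Y, ℂ)) : Y → ℂ))
      (C := ‖star f‖) (bd (star f)) w ξ η
    rw [a3, ← CL.cfc_conj]
    congr 3
    congr 1
    funext y
    change f y = (starRingEnd ℂ) (star (f y))
    rw [starRingEnd_apply, star_star]
  have hzero : T 0 = 0 := by
    have := hsm 0 0
    rwa [zero_smul, zero_smul] at this
  have hcomm : ∀ c : ℂ, T (algebraMap ℂ C(Y, ℂ) c) = algebraMap ℂ (K →L[ℂ] K) c := fun c => by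
    rw [Algebra.algebraMap_eq_smul_one, hsm, hone, Algebra.algebraMap_eq_smul_one]
  exact ⟨⟨⟨⟨⟨⟨T, hone⟩, hmul⟩, hzero, hadd⟩, hcomm⟩, hstar⟩, fun f ξ => hT f ξ⟩

/-- Independence of the filter. -/
theorem beta_indep (h : SysF mp R Bd ms A Br G1 G2) (hfin : ∀ r, (FF G1 G2 r).Finite)
    (he : Esc (st mp) R Bd A l) [l.NeBot] (hfu : Full (st mp) R G1 G2 l)
    (he' : Esc (st mp) R Bd A l') [l'.NeBot] (hfu' : Full (st mp) R G1 G2 l')
    (hS : ∀ f : C(Y, ℝ), SepF Br G1 G2 bp f) {β β' : C(Y, ℂ) →⋆ₐ[ℂ] (K →L[ℂ] K)}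
    (hβ : ∀ (f : C(Y, ℂ)) ξ, Tendsto (fun w => PC mp R w (cfc G1 G2 bp f) ξ) l (𝓝 (β f ξ)))
    (hβ' : ∀ (f : C(Y, ℂ)) ξ, Tendsto (fun w => PC mp R w (cfc G1 G2 bp f) ξ) l' (𝓝 (β' f ξ))) : β = β' := by
  refine StarAlgHom.ext fun f => ?_
  ext ξ
  have h1 := (hβ f ξ).comp (tendsto_fst (f := l) (g := l'))
  have h2 := (hβ' f ξ).comp (tendsto_snd (f := l) (g := l'))
  have h3 := (h1.sub h2).norm
  have h4 := cauC h hfin he he' hfu hfu' (fun y => f.norm_coe_le_norm y) (sepC_of hS f) ξ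
  have h5 := tendsto_nhds_unique h3 h4
  exact sub_eq_zero.mp (norm_eq_zero.mp h5)

end cont

end full

section asy

variable {mp : (Γ → ℝ) → (K →L[ℂ] K)} {lam : Γ → (K →L[ℂ] K)} {W : Set (K →L[ℂ] K)} {C : ℝ}

/-- Negligible functions. -/
theorem negl_fn (h : SysF mp R Bd ms A Br G1 G2) (hfin : ∀ r, (FF G1 G2 r).Finite)
    (he : Esc (st mp) R Bd A l) {F : Γ → ℂ} (hF : ∀ g, ‖F g‖ ≤ C) (hN : Neg G1 G2 F) (ξ : K) :
    Tendsto (fun w => mc mp F (R w ξ)) l (𝓝 0) := by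
  rw [Metric.tendsto_nhds]
  intro ε hε
  obtain ⟨δ, hδ⟩ : ∃ δ, δ = ε / (2 * (‖ξ‖ + 1)) := ⟨_, rfl⟩
  have hδ0 : 0 < δ := by rw [hδ]; positivity
  have h1 := negl h.sys he hfin (N := {g | δ < ‖F g‖})
    (fun r => (hN δ hδ0 r).imp fun T hT g hg => hT g hg) ξ
  filter_upwards [(Metric.tendsto_nhds.mp h1) (ε / (2 * (|C| + 1))) (by positivity)] with w hw
  rw [dist_zero_right, norm_norm] at hw
  rw [dist_zero_right, mc_norm_eq h.fn hF]
  have b1 : ∀ g : Γ, |ind (fun g => g ∈ {g | δ < ‖F g‖}) g| ≤ 1 := abs_ind_le _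
  have h2 : ‖mp (fun g => ‖F g‖) (R w ξ)‖ ≤
      ‖mp (fun g => |C| * ind (fun g => g ∈ {g | δ < ‖F g‖}) g + δ * 1) (R w ξ)‖ := by
    refine h.fn.mono (C := C) (fun g => by rw [abs_norm]; exact hF g) (D := |C| * 1 + δ * 1)
      (fun g => ?_) (fun g => ?_) _
    · refine (abs_add_le _ _).trans (add_le_add ?_ ?_)
      · rw [abs_mul, abs_abs]
        exact mul_le_mul_of_nonneg_left (b1 g) (abs_nonneg _)
      · rw [abs_mul, abs_one, abs_of_pos hδ0]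
    · rw [abs_norm]
      refine le_trans ?_ (le_abs_self _)
      by_cases hg : δ < ‖F g‖
      · rw [ind_pos (P := fun g => g ∈ {g | δ < ‖F g‖}) hg, mul_one]
        have := (hF g).trans (le_abs_self C)
        linarith
      · rw [ind_neg (P := fun g => g ∈ {g | δ < ‖F g‖}) hg, mul_zero, zero_add, mul_one]
        exact not_lt.mp hg
  have c1 : ∀ g : Γ, |(fun _ : Γ => (1 : ℝ)) g| ≤ 1 := fun g => by simp
  have h3 : mp (fun g => |C| * ind (fun g => g ∈ {g | δ < ‖F g‖}) g + δ * 1) (R w ξ) =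
      ((|C| : ℝ) : ℂ) • st mp {g | δ < ‖F g‖} (R w ξ) + (δ : ℂ) • R w ξ := by
    rw [h.fn.add (mul_bd _ b1) (mul_bd _ c1), h.fn.smul _ b1, h.fn.smul _ c1, h.fn.one]
    rfl
  rw [h3] at h2
  have h4 : ‖((|C| : ℝ) : ℂ) • st mp {g | δ < ‖F g‖} (R w ξ) + (δ : ℂ) • R w ξ‖ ≤
      |C| * ‖st mp {g | δ < ‖F g‖} (R w ξ)‖ + δ * ‖ξ‖ := by
    refine (norm_add_le _ _).trans ?_
    rw [norm_smul, norm_smul, Complex.norm_real, Complex.norm_real, Real.norm_eq_abs,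
      Real.norm_eq_abs, abs_abs, abs_of_pos hδ0]
    gcongr
    exact h.sys.rep.norm_le _ _
  have h5 : |C| * ‖st mp {g | δ < ‖F g‖} (R w ξ)‖ ≤ |C| * (ε / (2 * (|C| + 1))) :=
    mul_le_mul_of_nonneg_left hw.le (abs_nonneg _)
  have h6 : |C| * (ε / (2 * (|C| + 1))) < ε / 2 := by
    have h7 : (0 : ℝ) < |C| + 1 := by positivity
    rw [mul_div_assoc', div_lt_iff₀ (by positivity)]
    have := abs_nonneg C
    nlinarith
  have h8 : δ * ‖ξ‖ ≤ ε / 2 := by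
    rw [hδ, div_mul_eq_mul_div, div_le_iff₀ (by positivity)]
    have := norm_nonneg ξ
    nlinarith
  linarith

/-- Shifted functions of the base point. -/
theorem neg_shift [TopologicalSpace Y] [MulAction Γ Y] (hG : GeoF Br G1 G2 bp) (s u : Γ)
    (f : C(Y, ℂ)) :
    Neg G1 G2 fun g => cfc G1 G2 bp f (s * g * u) - cfc G1 G2 bp (fun y => f (s • y)) g := by
  intro ε hε r
  obtain ⟨C, hC⟩ := hG.gap s u
  obtain ⟨Tr, hTr⟩ := hG.stab s u ⟨fun y => (f y).re, Complex.continuous_re.comp f.continuous⟩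
    (ε / 2) (by positivity) r
  obtain ⟨Ti, hTi⟩ := hG.stab s u ⟨fun y => (f y).im, Complex.continuous_im.comp f.continuous⟩
    (ε / 2) (by positivity) r
  obtain ⟨T, hT⟩ : ∃ T, T = max (max (max Tr Ti) (r + 2 * |C|)) r := ⟨_, rfl⟩
  have m1 : Tr ≤ T := by
    rw [hT]; exact ((le_max_left _ _).trans (le_max_left _ _)).trans (le_max_left _ _)
  have m2 : Ti ≤ T := by
    rw [hT]; exact ((le_max_right _ _).trans (le_max_left _ _)).trans (le_max_left _ _)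
  have m3 : r + 2 * |C| ≤ T := by rw [hT]; exact (le_max_right _ _).trans (le_max_left _ _)
  have m4 : r ≤ T := by rw [hT]; exact le_max_right _ _
  refine ⟨T, fun g hg => ?_⟩
  by_contra hn
  rw [Set.mem_union, not_or] at hn
  obtain ⟨n1, n2⟩ := hn
  refine absurd hg (not_lt.mpr ?_)
  obtain ⟨c1, c2⟩ := hC g
  have hC0 : C ≤ |C| := le_abs_self C
  have hC1 := abs_nonneg C
  obtain ⟨a1, a2⟩ := abs_le.mp c1
  obtain ⟨b1, b2⟩ := abs_le.mp c2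
  by_cases h2 : G2 g ≤ r
  · have h1 : T < G1 g := by
      by_contra h1
      push Not at h1
      exact n1 ⟨h1, h2.trans m4⟩
    have e1 : G2 g ≤ G1 g := by linarith
    have e2 : G2 (s * g * u) ≤ G1 (s * g * u) := by linarith
    simp only [CL.cfc]
    rw [ind_pos (P := fun g => G2 g ≤ G1 g) e1, ind_pos (P := fun g => G2 g ≤ G1 g) e2]
    simp only [Complex.ofReal_one, one_mul]
    have r1 := hTr g (m1.trans h1.le) h2
    have r2 := hTi g (m2.trans h1.le) h2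
    simp only [ContinuousMap.coe_mk] at r1 r2
    have r3 := Complex.norm_le_abs_re_add_abs_im (f (bp (s * g * u)) - f (s • bp g))
    rw [Complex.sub_re, Complex.sub_im] at r3
    linarith
  · push Not at h2
    have h1 : G1 g ≤ r := by
      by_contra h1
      push Not at h1
      exact n2 ⟨h1, h2⟩
    have h3 : T < G2 g := by
      by_contra h3
      push Not at h3
      exact n1 ⟨h1.trans m4, h3⟩
    have e1 : ¬ G2 g ≤ G1 g := by push Not; linarith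
    have e2 : ¬ G2 (s * g * u) ≤ G1 (s * g * u) := by push Not; linarith
    simp only [CL.cfc]
    rw [ind_neg (P := fun g => G2 g ≤ G1 g) e1, ind_neg (P := fun g => G2 g ≤ G1 g) e2]
    simp only [Complex.ofReal_zero, zero_mul, sub_zero, norm_zero]
    exact hε.le

/-- Right translation changes the functions of the base point by a negligible function. -/
theorem neg_right [TopologicalSpace Y] [MulAction Γ Y] (hG : GeoF Br G1 G2 bp) (u : Γ)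
    (f : C(Y, ℂ)) : Neg G1 G2 fun g => cfc G1 G2 bp f (g * u) - cfc G1 G2 bp f g := by
  have h1 := neg_shift hG 1 u f
  simpa using h1

/-- Asymptotic covariance. -/
theorem asy_cov [TopologicalSpace Y] [CompactSpace Y] [MulAction Γ Y]
    (h : SysF mp R Bd ms A Br G1 G2) (hG : GeoF Br G1 G2 bp) (hL : Leg mp R lam W)
    (he : Esc (st mp) R Bd A l) (s : Γ) {f f' : C(Y, ℂ)} (hff : ∀ y, f' (s • y) = f y) (ξ : K) :
    Tendsto (fun w => (lam s * PC mp R w (cfc G1 G2 bp f) * lam s⁻¹ -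
      PC mp R w (cfc G1 G2 bp f')) ξ) l (𝓝 0) := by
  have bd : ∀ f : C(Y, ℂ), ∀ g, ‖cfc G1 G2 bp f g‖ ≤ ‖f‖ := fun f =>
    CL.cfc_norm fun y => f.norm_coe_le_norm y
  have hf' : ∀ y, f' y = f (s⁻¹ • y) := fun y => by rw [← hff, smul_inv_smul]
  have h1 := neg_shift hG s⁻¹ 1 f
  have e1 : (fun g => cfc G1 G2 bp f (s⁻¹ * g * 1) -
      cfc G1 G2 bp (fun y => f (s⁻¹ • y)) g) =
      fun g => cfc G1 G2 bp f (s⁻¹ * g) + (-1) * cfc G1 G2 bp f' g := by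
    funext g
    rw [mul_one]
    have : (fun y => f (s⁻¹ • y)) = (f' : Y → ℂ) := by funext y; rw [hf']
    rw [this]; ring
  rw [e1] at h1
  have b1 : ∀ g, ‖cfc G1 G2 bp f (s⁻¹ * g)‖ ≤ ‖f‖ := fun g => bd f _
  have b2 : ∀ g, ‖(-1) * cfc G1 G2 bp f' g‖ ≤ ‖f'‖ := fun g => by
    rw [norm_mul, norm_neg, norm_one, one_mul]; exact bd f' g
  have h2 := negl_fn h hG.fin he (C := ‖f‖ + ‖f'‖)
    (fun g => (norm_add_le _ _).trans (add_le_add (b1 g) (b2 g))) h1 ξ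
  refine squeeze_zero_norm (fun w => ?_) (tendsto_zero_iff_norm_tendsto_zero.mp h2)
  rw [PC_lam hL h.fn s (bd f)]
  rw [mc_add h.fn b1 b2, mc_smul h.fn _ (bd f')]
  have e2 : (PC mp R w (fun g => cfc G1 G2 bp f (s⁻¹ * g)) - PC mp R w (cfc G1 G2 bp f')) ξ =
      R w⁻¹ ((mc mp (fun g => cfc G1 G2 bp f (s⁻¹ * g)) +
        (-1 : ℂ) • mc mp (cfc G1 G2 bp f')) (R w ξ)) := by
    rw [sub_apply, PC_ap, PC_ap, ← map_sub, add_apply, smul_apply, neg_one_smul, sub_eq_add_neg]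
  rw [e2]
  exact h.sys.rep.norm_le _ _

/-- Asymptotic commutation with contracted elements. -/
theorem asy_slow [TopologicalSpace D] (h : SysF mp R Bd ms A Br G1 G2) (hS : Slow mp R Bd) {n : D}
    (hn : Tendsto (fun w => w * n * w⁻¹) l (𝓝 1)) {F : Γ → ℂ} (hF : ∀ g, ‖F g‖ ≤ C) (ξ : K) :
    Tendsto (fun w => (PC mp R w F * R n - R n * PC mp R w F) ξ) l (𝓝 0) := by
  have hCn : ∀ w, ‖PC mp R w F * R n - R n * PC mp R w F‖ ≤ 2 * |C| := fun w => by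
    have h1 := PC_opNorm h.fn h.sys.rep (abs_nonneg C)
      (fun g => (hF g).trans (le_abs_self C)) w
    have h2 := h.sys.rep.opNorm_le n
    have h3 : ‖PC mp R w F * R n‖ ≤ |C| := (norm_mul_le _ _).trans
      (by have := mul_le_mul h1 h2 (norm_nonneg _) (abs_nonneg C); rwa [mul_one] at this)
    have h4 : ‖R n * PC mp R w F‖ ≤ |C| := (norm_mul_le _ _).trans
      (by have := mul_le_mul h2 h1 (norm_nonneg _) zero_le_one; rwa [one_mul] at this)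
    exact (norm_sub_le _ _).trans (by linarith)
  refine vec_of_total hCn h.sys.dense (fun ζ hζ => ?_) ξ
  rw [Metric.tendsto_nhds]
  intro ε hε
  obtain ⟨δ, hδ⟩ : ∃ δ, δ = ε / (4 * (|C| + 1)) := ⟨_, rfl⟩
  have hδ0 : 0 < δ := by rw [hδ]; positivity
  filter_upwards [hn.eventually (hS δ hδ0)] with w hw
  rw [dist_zero_right]
  obtain ⟨e, he⟩ : ∃ e, e = w * n * w⁻¹ := ⟨_, rfl⟩
  rw [← he] at hw
  have hη : R w ζ ∈ Bd := h.sys.map _ _ hζ
  have e1 : (PC mp R w F * R n - R n * PC mp R w F) ζ =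
      R w⁻¹ (mc mp F (R e (R w ζ)) - R e (mc mp F (R w ζ))) := by
    have a1 : R w (R n ζ) = R e (R w ζ) := by
      rw [← mul_ap', ← mul_ap', ← h.sys.rep.mul, ← h.sys.rep.mul, he]
      congr 2; group
    have a2 : ∀ x, R n (R w⁻¹ x) = R w⁻¹ (R e x) := fun x => by
      rw [← mul_ap', ← mul_ap', ← h.sys.rep.mul, ← h.sys.rep.mul, he]
      congr 2; group
    rw [sub_apply, mul_ap', mul_ap', PC_ap, PC_ap, a1, a2, map_sub]
  rw [e1]
  refine (h.sys.rep.norm_le _ _).trans_lt ?_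
  -- real functions
  have key : ∀ X : Γ → ℝ, (∀ g, |X g| ≤ C) →
      ‖mp X (R e (R w ζ)) - R e (mp X (R w ζ))‖ ≤ (|C| + 1) * δ := by
    intro X hX
    have h1 := scale_le hX
    have e3 : mp X = ((|C| + 1 : ℝ) : ℂ) • mp fun g => (|C| + 1)⁻¹ * X g := by
      rw [← h.fn.smul _ h1, ← scale_eq]
    have h2 := hw _ h1 (R w ζ) hη
    rw [e3, smul_apply, smul_apply, map_smul, ← smul_sub, norm_smul, Complex.norm_real,
      Real.norm_of_nonneg (by positivity), norm_sub_rev]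
    exact mul_le_mul_of_nonneg_left h2 (by positivity)
  have k1 := key _ (abs_re_le' hF)
  have k2 := key _ (abs_im_le' hF)
  have e4 : mc mp F (R e (R w ζ)) - R e (mc mp F (R w ζ)) =
      (mp (fun g => (F g).re) (R e (R w ζ)) - R e (mp (fun g => (F g).re) (R w ζ))) +
      Complex.I • (mp (fun g => (F g).im) (R e (R w ζ)) -
        R e (mp (fun g => (F g).im) (R w ζ))) := by
    rw [mc_ap, mc_ap, map_add, map_smul, smul_sub]
    abel
  rw [e4]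
  refine (norm_add_le _ _).trans_lt ?_
  rw [norm_smul, Complex.norm_I, one_mul]
  have h9 : (|C| + 1) * δ = ε / 4 := by
    rw [hδ]; field_simp
  linarith

end asy

section lim

variable {mp : (Γ → ℝ) → (K →L[ℂ] K)} {lam : Γ → (K →L[ℂ] K)} {W : Set (K →L[ℂ] K)} {C : ℝ}
  [TopologicalSpace Y] [CompactSpace Y] {β : C(Y, ℂ) →⋆ₐ[ℂ] (K →L[ℂ] K)}

/-- Covariance of the limit. -/
theorem lim_cov [l.NeBot] [MulAction Γ Y] (hβ : IsLim mp R G1 G2 bp l β)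
    (h : SysF mp R Bd ms A Br G1 G2)
    (hG : GeoF Br G1 G2 bp) (hL : Leg mp R lam W) (he : Esc (st mp) R Bd A l) (s : Γ)
    {f f' : C(Y, ℂ)} (hff : ∀ y, f' (s • y) = f y) : lam s * β f * lam s⁻¹ = β f' := by
  ext ξ
  have h1 := asy_cov h hG hL he s hff ξ
  have h2 := ((lam s).continuous.tendsto _).comp (hβ f (lam s⁻¹ ξ))
  have h3 := h2.sub (hβ f' ξ)
  have h4 := tendsto_nhds_unique (h3.congr fun w => ?_) h1
  · exact sub_eq_zero.mp h4
  · rfl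

/-- The limit commutes with the coefficients. -/
theorem lim_comm_W [l.NeBot] (hβ : IsLim mp R G1 G2 bp l β) (h : SysF mp R Bd ms A Br G1 G2)
    (hL : Leg mp R lam W) {a : K →L[ℂ] K} (ha : a ∈ W) (f : C(Y, ℂ)) : a * β f = β f * a := by
  ext ξ
  have h1 := ((a.continuous.tendsto _).comp (hβ f ξ))
  have h2 := hβ f (a ξ)
  refine tendsto_nhds_unique h1 (h2.congr fun w => ?_)
  have h3 := congrArg (fun T : K →L[ℂ] K => T ξ) (PC_W hL h.fn h.sys.rep ha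
    (F := cfc G1 G2 bp f) (CL.cfc_norm fun y => f.norm_coe_le_norm y) w)
  exact h3.symm

/-- The limit commutes with the contracted elements. -/
theorem lim_comm_slow [l.NeBot] [TopologicalSpace D] (hβ : IsLim mp R G1 G2 bp l β)
    (h : SysF mp R Bd ms A Br G1 G2) (hS : Slow mp R Bd) {n : D}
    (hn : Tendsto (fun w => w * n * w⁻¹) l (𝓝 1)) (f : C(Y, ℂ)) : R n * β f = β f * R n := by
  ext ξ
  have h1 := asy_slow h hS hn (F := cfc G1 G2 bp f) (CL.cfc_norm fun y => f.norm_coe_le_norm y) ξ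
  have h2 := (hβ f (R n ξ)).sub (((R n).continuous.tendsto _).comp (hβ f ξ))
  have h4 := tendsto_nhds_unique (h2.congr fun w => rfl) h1
  exact (sub_eq_zero.mp h4).symm

end lim

section eng

variable {mp : (Γ → ℝ) → (K →L[ℂ] K)} {lam : Γ → (K →L[ℂ] K)} {W : Set (K →L[ℂ] K)} {C : ℝ}

/-- The mass off the near-wall part is small. -/
theorem tail_small (h : SysF mp R Bd ms A Br G1 G2) (h1 : R 1 = 1) (he : Esc (st mp) R Bd A l)
    (hfu : Full (st mp) R G1 G2 l) (ξ : K) {ε : ℝ} (hε : 0 < ε) :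
    ∃ r, ∀ᶠ w in l, ‖st mp {g | r < G2 g} (R w ξ)‖ ≤ ε := by
  obtain ⟨r, hr⟩ := h.sys.nrv' ξ (half_pos hε)
  have h2 : Tendsto (fun w => ‖st mp {g | G2 g ≤ G1 g}ᶜ (R w ξ)‖) l (𝓝 0) := by
    have h3 := hfu ξ
    rw [h1] at h3
    have h4 := (tendsto_iff_norm_sub_tendsto_zero.mp h3)
    refine (h4.congr fun w => ?_)
    have e1 : P (st mp) R w {g | G2 g ≤ G1 g} ξ - (1 : K →L[ℂ] K) ξ =
        - R w⁻¹ (st mp {g | G2 g ≤ G1 g}ᶜ (R w ξ)) := by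
      rw [h.sys.prj.compl, P_ap, sub_apply, map_sub]
      have e2 : R w⁻¹ ((1 : K →L[ℂ] K) (R w ξ)) = (1 : K →L[ℂ] K) ξ := by
        change R w⁻¹ (R w ξ) = ξ
        rw [← mul_ap', ← h.sys.rep.mul, inv_mul_cancel, h1]; rfl
      rw [e2]; abel
    have e3 : ∀ x, ‖R w⁻¹ x‖ = ‖x‖ := fun x => by
      rw [h.sys.rep.norm_eq, h1]; rfl
    rw [e1, norm_neg, e3]
  refine ⟨r, ?_⟩
  filter_upwards [he.mem, (Metric.tendsto_nhds.mp h2) (ε / 2) (half_pos hε)] with w hw hw2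
  rw [dist_zero_right, norm_norm] at hw2
  have h3 := hr w hw
  have h4 : {g : Γ | r < G2 g} ⊆ BB G1 G2 r ∪ {g | G2 g ≤ G1 g}ᶜ := by
    intro g hg
    by_cases hg1 : G2 g ≤ G1 g
    · left; exact ⟨lt_of_lt_of_le hg hg1, hg⟩
    · right; exact hg1
  have h5 := h.sys.prj.mono h4 (R w ξ)
  have h6 := h.sys.prj.norm_union_le (BB G1 G2 r) {g | G2 g ≤ G1 g}ᶜ (R w ξ)
  linarith

/-- **The engine, full case.** -/
theorem engine [TopologicalSpace D] [TopologicalSpace Y] [CompactSpace Y] [MulAction Γ Y] {b : D}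
    (h : SysF mp R Bd ms (Subgroup.zpowers b) Br G1 G2) (hL : Leg mp R lam W)
    (hG : GeoF Br G1 G2 bp) (hS : Slow mp R Bd)
    (he : ∀ g, ∀ ξ ∈ Bd, Tendsto (fun n : ℕ => ‖st mp {g} (R (b ^ n) ξ)‖) atTop (𝓝 0))
    (hlu : LU1 mp R G1 G2 (pw b)) (hfu : Full (st mp) R G1 G2 (pw b)) :
    ∃ β : C(Y, ℂ) →⋆ₐ[ℂ] (K →L[ℂ] K), EngOut mp R lam W b G1 G2 bp β := by
  have hE : Esc (st mp) R Bd (Subgroup.zpowers b) (pw b) :=
    ⟨pw_mem b, fun g ξ hξ => tendsto_pw.mpr (he g ξ hξ)⟩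
  have hSF : ∀ f : C(Y, ℝ), SepF Br G1 G2 bp f := by
    intro f c d hcd
    have c1 : IsClosed {y | f y ≤ c} := isClosed_le f.continuous continuous_const
    have c2 : IsClosed {y | d ≤ f y} := isClosed_le continuous_const f.continuous
    have hd : Disjoint {y | f y ≤ c} {y | d ≤ f y} := by
      rw [Set.disjoint_left]
      intro y h1 h2
      simp only [Set.mem_setOf_eq] at h1 h2
      linarith
    exact ⟨hG.sep _ _ c1 c2 hd, hG.sep _ _ c2 c1 hd.symm⟩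
  obtain ⟨β, hβ⟩ := exists_beta h hG.fin hE hfu hL.one hSF
  have hβ' : IsLim mp R G1 G2 bp (pw b) β := hβ
  refine ⟨β, hβ', fun s f f' hff => lim_cov hβ' h hG hL hE s hff,
    fun a ha f => lim_comm_W hβ' h hL ha f, fun n hn f => lim_comm_slow hβ' h hS (tendsto_pw.mpr hn) f,
    fun v hv f => ?_, fun ξ ε hε => ?_⟩
  · refine hβ'.comm_weak fun ξ η => ?_
    have bd : ∀ g, ‖cfc G1 G2 bp f g‖ ≤ ‖f‖ := CL.cfc_norm fun y => f.norm_coe_le_norm y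
    have h1 := hlu (cfc G1 G2 bp f) ‖f‖ bd (fun u => neg_right hG u f) v ξ η
    refine tendsto_pw.mpr ((tendsto_pw.mp h1).congr fun n => ?_)
    obtain ⟨w, hw⟩ : ∃ w, w = b ^ n := ⟨_, rfl⟩
    rw [← hw]
    have hc : w * v = v * w := by rw [hw]; exact (Commute.pow_left (show Commute b v from hv) n)
    have hc' : v * w⁻¹ = w⁻¹ * v := by
      rw [mul_inv_eq_iff_eq_mul, mul_assoc, ← hc, inv_mul_cancel_left]
    have e1 : (R v * PC mp R w (cfc G1 G2 bp f) - PC mp R w (cfc G1 G2 bp f) * R v) ξ =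
        R w⁻¹ ((R v * mc mp (cfc G1 G2 bp f) - mc mp (cfc G1 G2 bp f) * R v) (R w ξ)) := by
      have a1 : R w (R v ξ) = R v (R w ξ) := by
        rw [← mul_ap', ← mul_ap', ← h.sys.rep.mul, ← h.sys.rep.mul, hc]
      have a2 : ∀ x, R v (R w⁻¹ x) = R w⁻¹ (R v x) := fun x => by
        rw [← mul_ap', ← mul_ap', ← h.sys.rep.mul, ← h.sys.rep.mul, hc']
      rw [sub_apply, mul_ap', mul_ap', PC_ap, PC_ap, a1, a2, sub_apply, mul_ap', mul_ap', map_sub]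
    rw [e1, h.sys.rep.inner_right, inv_inv]
  · obtain ⟨r, hr⟩ := tail_small h hL.one hE hfu ξ hε
    exact ⟨r, by rwa [pw, Filter.eventually_map] at hr⟩

end eng

end Vale.Agent.P092.H859.CN
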