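import Vale.Agent.P092.H337.NGf
import Vale.Agent.P092.H859.CNE
import Vale.Agent.P092.H632.NwsN
import Vale.Agent.P092.H411.NAgr
import Vale.Agent.P092.SN.Defs

/-!
P092 (helper859), Team N, block [N-EX], target side, in the letters of `SN/Defs`: `q : Γ → SL_n(k)`
a homomorphism modulo scalars, `ρ : Γ → ℝ` a size function of the other coordinates. Gap functions
of the two types and their relations, the geometry of the cones, the near-wall sets, uniform
discreteness, and the conversion of `CN.Fam` into `SN.EFam`.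
-/

set_option linter.all false

open scoped InnerProductSpace ENNReal LinearAlgebra.Projectivization
open Filter Topology ContinuousLinearMap MeasureTheory TopologicalSpace

namespace Vale.Agent.P092.H859.TgN

open Vale.Agent.P092.H337.NG (en m2 mi en_nonneg m2_nonneg entry_le mi_le en_le_of m2_le_of Eqv PHom
  Siz G1 G2 G1_ta G2_ta bp AttN geoF' cone_sub' en_pos' en_le_inv SLn)
open Vale.Agent.P092.H859.CL (BB FF cn BB_mono Full Sym Slow Esc Leg st Prj pw)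
open Vale.Agent.P092.RC (Cm TRN Moore GG PG YY y0 ct)
open Vale.Agent.P092.SN (CY nm NW Att act PH UD NWA NWS EFam Adm bw)

/-! ### A bound of the inverse by the minors -/

section minor

variable {k : Type*} [NormedField k]

theorem det_le : ∀ (m : ℕ) (D : Matrix (Fin (m + 2)) (Fin (m + 2)) k) {M e : ℝ}, 0 ≤ M → 0 ≤ e →
    (∀ i i' j j', ‖mi D i i' j j'‖ ≤ M) → (∀ i j, ‖D i j‖ ≤ e) →
    ‖D.det‖ ≤ (m + 2).factorial * (M * e ^ m) := by
  intro m
  induction m with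
  | zero =>
    intro D M e hM he h1 h2
    have h3 := h1 0 1 0 1
    have e1 : mi D 0 1 0 1 = D.det := by
      rw [Matrix.det_fin_two, mi]
      ring
    rw [e1] at h3
    have e2 : ((0 + 2).factorial : ℝ) = 2 := by norm_num
    rw [e2, pow_zero, mul_one]
    linarith
  | succ m ih =>
    intro D M e hM he h1 h2
    rw [Matrix.det_succ_row_zero]
    have h3 : ∀ j : Fin (m + 3), ‖(-1 : k) ^ (j : ℕ) * D 0 j *
        (D.submatrix Fin.succ j.succAbove).det‖ ≤ (m + 2).factorial * (M * e ^ (m + 1)) := by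
      intro j
      have h4 := ih (D.submatrix Fin.succ j.succAbove) hM he
        (fun i i' l l' => h1 _ _ _ _) fun i l => h2 _ _
      have h5 : ‖(-1 : k) ^ (j : ℕ)‖ = 1 := by rw [norm_pow, norm_neg, norm_one, one_pow]
      rw [norm_mul, norm_mul, h5, one_mul]
      calc ‖D 0 j‖ * ‖(D.submatrix Fin.succ j.succAbove).det‖
          ≤ e * ((m + 2).factorial * (M * e ^ m)) :=
            mul_le_mul (h2 0 j) h4 (norm_nonneg _) he
        _ = _ := by ring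
    refine (norm_sum_le_of_le _ fun j _ => h3 j).trans (le_of_eq ?_)
    rw [Finset.sum_const, Finset.card_univ, Fintype.card_fin, nsmul_eq_mul]
    have e1 : ((m + 1 + 2).factorial : ℝ) = (m + 3 : ℝ) * (m + 2).factorial := by
      have : (m + 1 + 2).factorial = (m + 3) * (m + 2).factorial := Nat.factorial_succ (m + 2)
      rw [this]
      push_cast
      ring
    rw [e1]
    push_cast
    ring

theorem en_inv_le {m : ℕ} (g : SLn k (m + 3)) :
    en (g⁻¹).1 ≤ (m + 2).factorial * (m2 g.1 * en g.1 ^ m) := by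
  refine en_le_of (by have := m2_nonneg g.1; have := en_nonneg g.1; positivity) fun i j => ?_
  have e1 : (g⁻¹).1 i j = (-1) ^ (j + i : ℕ) * (g.1.submatrix j.succAbove i.succAbove).det := by
    rw [← Matrix.adjugate_fin_succ_eq_det_submatrix]
    rfl
  rw [e1, norm_mul, norm_pow, norm_neg, norm_one, one_pow, one_mul]
  exact det_le m _ (m2_nonneg _) (en_nonneg _) (fun a a' b b' => mi_le g.1 _ _ _ _)
    fun a b => entry_le g.1 _ _

theorem G1_le_G2 {N : ℕ} (hN : 2 ≤ N) :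
    ∃ C : ℝ, 0 ≤ C ∧ ∀ g : SLn k (N + 1), G1 g ≤ G2 g⁻¹ + C := by
  obtain ⟨m, rfl⟩ : ∃ m, N = m + 2 := ⟨N - 2, by omega⟩
  refine ⟨Real.log (m + 2).factorial, Real.log_nonneg (by
    exact_mod_cast Nat.succ_le_of_lt (Nat.factorial_pos _)), fun g => ?_⟩
  have h1 := en_inv_le g
  have h2 : 0 < en g.1 := en_pos' g
  have h3 : 0 < m2 g.1 := H337.NG.m2_pos (by omega) g
  have h4 : 0 < en (g⁻¹).1 := en_pos' g⁻¹
  have h5 : (0 : ℝ) < (m + 2).factorial := by exact_mod_cast Nat.factorial_pos _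
  have h6 := Real.log_le_log h4 h1
  rw [Real.log_mul h5.ne' (by positivity), Real.log_mul h3.ne' (by positivity), Real.log_pow] at h6
  unfold G1 G2
  rw [inv_inv]
  push_cast
  nlinarith

end minor

/-! ### The target -/

section tg

variable {k : Type} [NontriviallyNormedField k] {N : ℕ} {Γ : Type} [Group Γ]

/-- The target data: `q` a homomorphism modulo scalars, `ρ` the size of the other coordinates. -/
structure Tg (q : Γ → GG k N) (ρ : Γ → ℝ) : Prop where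
  ph : PHom q
  siz : Siz ρ
  inv : ∃ C : ℝ, ∀ g, |ρ g⁻¹ - ρ g| ≤ C
  fin : ∀ R : ℝ, {γ | en (q γ).1 ≤ R ∧ ρ γ ≤ R}.Finite

theorem ct_eq (g : GG k N) : ct g = H337.NG.ta k (N + 1) g := rfl

theorem Tg.dual {q : Γ → GG k N} {ρ : Γ → ℝ} (h : Tg q ρ) : Tg (fun γ => ct (q γ)) ρ where
  ph := h.ph.ta
  siz := h.siz
  inv := h.inv
  fin := fun R => by
    refine (h.fin (max R ((N + 1).factorial * max R 0 ^ N))).subset fun γ hγ => ?_
    obtain ⟨h1, h2⟩ := hγ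
    have e : en (ct (q γ)).1 = en ((q γ)⁻¹).1 := H337.NG.en_ta (q γ)
    change en (ct (q γ)).1 ≤ R at h1
    rw [e] at h1
    refine ⟨?_, h2.trans (le_max_left _ _)⟩
    have h3 := en_le_inv (n := N + 1) (q γ)
    refine le_trans (h3.trans ?_) (le_max_right _ _)
    refine mul_le_mul_of_nonneg_left ?_ (Nat.cast_nonneg _)
    exact pow_le_pow_left₀ (en_nonneg _) (h1.trans (le_max_left _ _)) _

theorem Tg.sn_ph {q : Γ → GG k N} {ρ : Γ → ℝ} (h : Tg q ρ) : PH q := h.ph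

/-- the first gap -/
noncomputable def g1 (q : Γ → GG k N) (γ : Γ) : ℝ := G1 (q γ)

/-- the other gaps and the other coordinates -/
noncomputable def g2 (q : Γ → GG k N) (ρ : Γ → ℝ) (γ : Γ) : ℝ := max (G2 (q γ)) (ρ γ)

/-- the set of the elements of `Γ` whose other coordinates are bounded -/
def ZZ (ρ : Γ → ℝ) (R : ℝ) : Set Γ := {γ | ρ γ ≤ R}

theorem zz_mono (ρ : Γ → ℝ) : Monotone (ZZ ρ) := fun a b h γ hγ => le_trans (show ρ γ ≤ a from hγ) h

/-- The relations between the two types. -/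
theorem Tg.gaps {q : Γ → GG k N} {ρ : Γ → ℝ} (h : Tg q ρ) (hN : 2 ≤ N) :
    ∃ C : ℝ, CN.Gaps (g1 q) (g2 q ρ) (g1 fun γ => ct (q γ)) (g2 (fun γ => ct (q γ)) ρ) C := by
  obtain ⟨C1, h0, h1⟩ := G1_le_G2 (k := k) hN
  obtain ⟨C2, h2⟩ := h.inv
  have hC2 : 0 ≤ C2 := (abs_nonneg _).trans (h2 1)
  refine ⟨C1 + C2, by linarith, fun g => ?_, fun g => ?_, fun g => ?_, fun g => ?_⟩
  · have e : g1 q g⁻¹ = g1 (fun γ => ct (q γ)) g := by
      change G1 (q g⁻¹) = G1 (ct (q g))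
      rw [(h.ph.inv g).G1_eq, ct_eq, G1_ta]
    rw [e, sub_self, abs_zero]
    linarith
  · have e : G2 (q g⁻¹) = G2 (ct (q g)) := by
      rw [(h.ph.inv g).G2_eq, ct_eq, G2_ta]
    have e1 : |g2 q ρ g⁻¹ - g2 (fun γ => ct (q γ)) ρ g| ≤ |ρ g⁻¹ - ρ g| := by
      change |max (G2 (q g⁻¹)) (ρ g⁻¹) - max (G2 (ct (q g))) (ρ g)| ≤ _
      rw [e]
      refine (abs_max_sub_max_le_max _ _ _ _).trans ?_
      rw [sub_self, abs_zero]
      exact max_le (abs_nonneg _) le_rfl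
    linarith [h2 g]
  · have e : g1 (fun γ => ct (q γ)) g = G1 (q g)⁻¹ := by
      change G1 (ct (q g)) = _
      rw [ct_eq, G1_ta]
    have h3 := h1 (q g)⁻¹
    rw [inv_inv] at h3
    rw [e]
    have h4 : G2 (q g) ≤ g2 q ρ g := le_max_left _ _
    linarith
  · have h3 := h1 (q g)
    have e : G2 (q g)⁻¹ = G2 (ct (q g)) := by rw [ct_eq, G2_ta]
    rw [e] at h3
    have h4 : G2 (ct (q g)) ≤ g2 (fun γ => ct (q γ)) ρ g := le_max_left _ _
    change G1 (q g) ≤ _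
    linarith

/-- The geometry of the cones. -/
theorem Tg.geoF [ProperSpace k] {q : Γ → GG k N} {ρ : Γ → ℝ} (h : Tg q ρ) (hN : 2 ≤ N)
    [MulAction Γ (YY k N)] (hact : ∀ (γ : Γ) (p : YY k N), γ • p = q γ • p) {Br : ℝ → Set Γ}
    (hBr : ∀ r, ∃ r', BB (g1 q) (g2 q ρ) r' ⊆ Br r) :
    CN.GeoF Br (g1 q) (g2 q ρ) (fun γ => bp (q γ)) :=
  geoF' (n := N + 1) (by omega) h.ph h.siz h.fin hact hBr

theorem nm_eq (g : GG k N) : nm g = en g.1 := rfl

theorem ZZ_mem {ρ : Γ → ℝ} {R : ℝ} {γ : Γ} : γ ∈ ZZ ρ R ↔ ρ γ ≤ R := Iff.rfl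

/-- The cut-offs. -/
theorem Tg.cut {q : Γ → GG k N} {ρ : Γ → ℝ} (hN : 2 ≤ N) :
    CN.DomCut (NWA q (ZZ ρ)) (g1 q) (g2 q ρ) (fun γ => bp (q γ)) := by
  intro r
  refine ⟨max (Real.exp r) r, fun T hT => ?_⟩
  obtain ⟨T', hT'⟩ := cone_sub' (n := N + 1) (by omega) q ρ r T hT
  refine ⟨T', fun A => (hT' A).trans (Set.union_subset_union_left _ ?_)⟩
  rintro γ ⟨⟨h1, h2⟩, h3⟩
  refine ⟨h2.trans (le_max_right _ _), ?_, h3⟩
  change nm (q γ)⁻¹ ^ N ≤ max (Real.exp r) r * nm (q γ)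
  refine h1.trans (mul_le_mul_of_nonneg_right (le_max_left _ _) (en_nonneg _))

/-- The near-wall sets. -/
theorem Tg.nw {q : Γ → GG k N} {ρ : Γ → ℝ} (hN : 2 ≤ N) (r : ℝ) :
    ∃ R : ℝ, ∀ γ, g2 q ρ γ ≤ r → γ ∈ {γ | γ ∈ ZZ ρ R ∧ NW R (q γ)} := by
  refine ⟨max (Real.exp r) r, fun γ hγ => ⟨?_, ?_⟩⟩
  · exact ((le_max_right _ _).trans hγ).trans (le_max_right _ _)
  · have h1 : G2 (q γ) ≤ r := (le_max_left _ _).trans hγ
    have h2 := H337.NG.nw_pow (n := N + 1) (by omega) h1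
    exact h2.trans (mul_le_mul_of_nonneg_right (le_max_left _ _) (en_nonneg _))

theorem Tg.gap2 {q : Γ → GG k N} {ρ : Γ → ℝ} (h : Tg q ρ) (hN : 2 ≤ N) (s u : Γ) :
    ∃ C, ∀ x, |g1 q (s * x * u) - g1 q x| ≤ C ∧ |g2 q ρ (s * x * u) - g2 q ρ x| ≤ C := by
  obtain ⟨C, hC⟩ := H337.NG.gap_bd (n := N + 1) (by omega) (q s) (q u)
  obtain ⟨C', hC'⟩ := h.siz.gap s u
  refine ⟨max C C', fun x => ?_⟩
  have e := h.ph.mul3 s x u
  refine ⟨?_, ?_⟩
  · change |G1 (q (s * x * u)) - G1 (q x)| ≤ _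
    rw [e.G1_eq]
    exact (hC _).1.trans (le_max_left _ _)
  · change |max (G2 (q (s * x * u))) (ρ (s * x * u)) - max (G2 (q x)) (ρ x)| ≤ _
    rw [e.G2_eq]
    exact (abs_max_sub_max_le_max _ _ _ _).trans (max_le_max (hC _).2 (hC' _))

/-- Uniform discreteness. -/
theorem Tg.ud {q : Γ → GG k N} {ρ : Γ → ℝ} (h : Tg q ρ) (R : ℝ) : UD q (ZZ ρ R) := by
  classical
  intro C
  obtain ⟨R', hR'⟩ := h.siz.quo R
  have hfin := h.fin (max C R')
  refine ⟨hfin.toFinset.card, fun S hS hS' => ?_⟩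
  rcases S.eq_empty_or_nonempty with rfl | ⟨γ, hγ⟩
  · simp
  refine Finset.card_le_card_of_injOn (fun γ' => γ' * γ⁻¹) (fun γ' hγ' => ?_)
    fun a _ b _ hab => mul_right_cancel hab
  rw [Finset.mem_coe] at hγ' ⊢
  rw [Set.Finite.mem_toFinset]
  refine ⟨?_, (hR' γ γ' (hS γ hγ) (hS γ' hγ')).trans (le_max_right _ _)⟩
  have e1 : en (q (γ' * γ⁻¹)).1 = en (q γ' * (q γ)⁻¹).1 := (h.ph.mul_inv γ' γ).en_eq
  change en (q (γ' * γ⁻¹)).1 ≤ _
  rw [e1]
  exact (hS' γ hγ γ' hγ').trans (le_max_left _ _)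

end tg

/-! ### From `CN.Fam` to `SN.EFam` -/

section efam

variable {k : Type} [NontriviallyNormedField k] [ProperSpace k] {N : ℕ} {E Γ K : Type} [Group E]
  [Group Γ] [NormedAddCommGroup K] [InnerProductSpace ℂ K] [CompleteSpace K]
  {w : kˣ} {ι : GG k N →* E} {a : E →* PG k (N + 1)} {π : E →* (K →L[ℂ] K)}
  {lam : Γ →* (K →L[ℂ] K)} {W : Set (K →L[ℂ] K)} {Ω : K} {m : Set Γ → (K →L[ℂ] K)}
  {q : Γ → GG k N} {Z : ℝ → Set Γ} {F : YY k N → (CY k N →⋆ₐ[ℂ] (K →L[ℂ] K))}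

/-- **The family of calculi in the letters of Team N.** -/
theorem efam_of_fam [MulAction E (YY k N)] (hE : ∀ (e : E) (x : YY k N), e • x = a e • x)
    [MulAction Γ (YY k N)] (hact : ∀ (γ : Γ) (x : YY k N), γ • x = q γ • x)
    (hcomp : ∀ g (x : YY k N), a (ι g) • x = g • x)
    (h : CN.Fam (ι (bw w)) π lam W m (NWA q Z) (y0 : YY k N) F)
    (hagr : ∀ x y, x ≠ y → ∀ ξ, (∀ f, F x f ξ = F y f ξ) → ξ = 0) :
    EFam w ι a π lam W m q Z F where
  cm := h.cm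
  cov := fun γ x f => h.cov γ x f (act (q γ) f) fun y => by
    change f ((q γ)⁻¹ • (γ • y)) = f y
    rw [hact, inv_smul_smul]
  pcov := fun e x f => by rw [h.pcov, hE]
  dom := fun g u A _ hu ζ ε hε => by
    obtain ⟨R, hR⟩ := h.dom (ι g) u A hu ζ ε hε
    refine ⟨R, fun T hT => ?_⟩
    have e1 : ι g • (y0 : YY k N) = g • y0 := by rw [hE, hcomp]
    filter_upwards [hR T hT] with t ht
    rw [e1] at ht
    have e2 : ι (g * bw w ^ t * g⁻¹) = ι g * ι (bw w) ^ t * (ι g)⁻¹ := by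
      rw [map_mul, map_mul, map_pow, map_inv]
    rw [e2]
    exact ht
  agr := hagr

/-- the wall element is diagonal -/
theorem ct_bw (w : kˣ) : (ct (bw w) : GG k N) = (bw w)⁻¹ := by
  have h : ((bw w : GG k N)⁻¹).1 = ((bw w : GG k N)⁻¹).1.transpose := by
    have h1 : ((bw w : GG k N)⁻¹).1 = Matrix.adjugate (bw w : GG k N).1 := rfl
    rw [h1]
    change Matrix.adjugate (Matrix.diagonal _) = (Matrix.adjugate (Matrix.diagonal _)).transpose
    rw [Matrix.adjugate_diagonal, Matrix.diagonal_transpose]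
  exact Subtype.ext h.symm

theorem ct_ct (g : GG k N) : ct (ct g) = g := by
  apply Subtype.ext
  change (((ct g)⁻¹ : GG k N).1).transpose = g.1
  rw [← map_inv]
  change ((((g⁻¹)⁻¹ : GG k N).1).transpose).transpose = g.1
  rw [inv_inv, Matrix.transpose_transpose]

/-- **The hyperplane leg**, from a family along `b⁻¹` for the action `a'` on the hyperplanes. -/
theorem efam_of_fam' {a' : E →* PG k (N + 1)} [MulAction E (YY k N)]
    (hE : ∀ (e : E) (x : YY k N), e • x = a' e • x)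
    [MulAction Γ (YY k N)] (hact : ∀ (γ : Γ) (x : YY k N), γ • x = q γ • x)
    (hcomp : ∀ g (x : YY k N), a' (ι g) • x = ct g • x)
    (h : CN.Fam (ι (bw w))⁻¹ π lam W m (NWA q Z) (y0 : YY k N) F)
    (hagr : ∀ x y, x ≠ y → ∀ ξ, (∀ f, F x f ξ = F y f ξ) → ξ = 0) :
    EFam w (ι.comp ct) a' π lam W m q Z F := by
  refine efam_of_fam hE hact (ι := ι.comp ct) (fun g x => ?_) ?_ hagr
  · change a' (ι (ct g)) • x = g • x
    rw [hcomp, ct_ct]
  · have e : (ι.comp ct) (bw w) = (ι (bw w))⁻¹ := by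
      change ι (ct (bw w)) = _
      rw [ct_bw, map_inv]
    rw [e]
    exact h

/-- Agreement, from no invariant states on the target points and Howe-Moore on the source. -/
theorem agr_fam [TopologicalSpace E] [MulAction E (YY k N)] [MulAction Γ (YY k N)]
    [ContinuousConstSMul Γ (YY k N)] (hP : RC.Pic π lam W Ω)
    {b : E} {NA : ℝ → ℝ → Set (YY k N) → Set Γ} {z0 : YY k N}
    (h : CN.Fam b π lam W m NA z0 F) (hNI : H76.Pur.NIS fun (γ : Γ) (y : YY k N) => γ • y)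
    (hM : ∀ x y : YY k N, Moore {e : E | e • x = x ∧ e • y = y})
    (hgen : ∀ x y : YY k N, x ≠ y →
      Subgroup.closure ({e : E | e • x = x} ∪ {e : E | e • y = y}) = ⊤) :
    ∀ x y, x ≠ y → ∀ ξ, (∀ f, F x f ξ = F y f ξ) → ξ = 0 := by
  intro x y hxy
  have hinv' : ∀ g : E, π g⁻¹ * π g = 1 := fun g => by rw [← map_mul, inv_mul_cancel, map_one]
  refine H411.agr_gr (E := F) hP h.cm (act := fun (γ : Γ) (y : YY k N) => γ • y) hNI
    (fun γ f => ?_) (fun γ X f f' hf => h.cov γ X f f' hf) (fun g X f => ?_) (hM x y) (hgen x y hxy)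
  · refine ⟨⟨fun y => f (γ⁻¹ • y), f.continuous.comp (continuous_const_smul _)⟩, fun y => ?_⟩
    change f (γ⁻¹ • γ • y) = f y
    rw [inv_smul_smul]
  · rw [← h.pcov g X f, mul_assoc, hinv', mul_one]

/-- **(NWS)**, from the fullness of the leg. -/
theorem nws_of [TopologicalSpace E] {Br : ℝ → Set Γ} {Bd Bf : Set K} {ms : E → Set Γ → ℝ}
    {ρ : Γ → ℝ} {b : E} (hb : ι (bw w) = b) (hN : 2 ≤ N) (hT : Tg q ρ)
    (h : CN.Sys m (fun g => π g) Bd ms (Subgroup.zpowers b) Br (g1 q) (g2 q ρ))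
    (hf : Full m (fun g => π g) (g1 q) (g2 q ρ) (pw b⁻¹))
    (hfin : ∀ ξ, ∀ ε : ℝ, 0 < ε → ∃ F : Finset Γ, ‖m ((F : Set Γ))ᶜ ξ‖ ≤ ε)
    (hloc : ∀ v, H107.LocAt m (π v) Bf) (hmap : ∀ v, ∀ ζ ∈ Bf, π v ζ ∈ Bf) (hΩ : Ω ∈ Bf) :
    NWS w ι π Ω m q (ZZ ρ) := by
  intro g ε hε
  have hpw : (pw b⁻¹ : Filter E) = map (fun N : ℕ => (b ^ N)⁻¹) atTop := by
    rw [pw]
    congr 1
    funext N
    rw [inv_pow]
  rw [hpw] at hf
  obtain ⟨R, hR⟩ := H632.NwsN.nws_abs h (b := b)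
    (fun N => (Subgroup.zpowers b).inv_mem (Subgroup.pow_mem _ (Subgroup.mem_zpowers b) N)) hf hfin
    hloc hmap (fun u => by
      obtain ⟨C, hC⟩ := hT.gap2 hN 1 u
      exact ⟨C, fun g => by simpa using (hC g).2⟩) (P := fun R => {γ | γ ∈ ZZ ρ R ∧ NW R (q γ)})
    (fun r => by
      obtain ⟨R, hR⟩ := Tg.nw (q := q) (ρ := ρ) hN r
      exact ⟨R, fun γ hγ => hR γ hγ⟩) hΩ (ι g) hε
  refine ⟨R, fun t => ?_⟩
  have e2 : ι (g * bw w ^ t * g⁻¹) = ι g * b ^ t * (ι g)⁻¹ := by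
    rw [map_mul, map_mul, map_pow, map_inv, hb]
  rw [e2]
  exact hR t

end efam

end Vale.Agent.P092.H859.TgN
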