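import Vale.Agent.P092.H859.CLA

/-!
P092 (helper859), block C-LIM, part 2: cones, purity of wall limits.
-/

set_option linter.all false

open scoped InnerProductSpace Pointwise
open Filter Topology ContinuousLinearMap TopologicalSpace

namespace Vale.Agent.P092.H859.CL

section defs

variable {Γ Y : Type}

/-- The elements with both gaps large. -/
def BB (G1 G2 : Γ → ℝ) (r : ℝ) : Set Γ := {g | r < G1 g ∧ r < G2 g}

/-- The elements with both gaps bounded. -/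
def FF (G1 G2 : Γ → ℝ) (r : ℝ) : Set Γ := {g | G1 g ≤ r ∧ G2 g ≤ r}

/-- The cone over a set of base points. -/
def cn (G1 G2 : Γ → ℝ) (bp : Γ → Y) (A : Set Y) : Set Γ := {g | G2 g ≤ G1 g ∧ bp g ∈ A}

theorem BB_mono {G1 G2 : Γ → ℝ} {r r' : ℝ} (h : r ≤ r') : BB G1 G2 r' ⊆ BB G1 G2 r :=
  fun g hg => ⟨h.trans_lt hg.1, h.trans_lt hg.2⟩

theorem cn_union {G1 G2 : Γ → ℝ} {bp : Γ → Y} (A B : Set Y) :
    cn G1 G2 bp (A ∪ B) = cn G1 G2 bp A ∪ cn G1 G2 bp B := by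
  ext g; simp only [cn, Set.mem_setOf_eq, Set.mem_union]; tauto

theorem cn_disj {G1 G2 : Γ → ℝ} {bp : Γ → Y} {A B : Set Y} (h : Disjoint A B) :
    Disjoint (cn G1 G2 bp A) (cn G1 G2 bp B) := by
  rw [Set.disjoint_left]
  rintro g ⟨_, h1⟩ ⟨_, h2⟩
  exact Set.disjoint_left.mp h h1 h2

/-- Geometric separation of two sets of base points: the quotients of elements of the two cones
have both gaps large, and the quotient map is finite-to-one. -/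
def SepP [Group Γ] (G1 G2 : Γ → ℝ) (bp : Γ → Y) (A A' : Set Y) : Prop :=
  ∀ R, ∃ S : Finset Γ, ∀ r, ∃ T,
    (∀ x y, bp x ∈ A → bp y ∈ A' → T ≤ G1 x → T ≤ G1 y → G2 x ≤ R → G2 y ≤ R →
      r < G1 (x⁻¹ * y) ∧ r < G2 (x⁻¹ * y)) ∧
    ∀ x₁ y₁ x₂ y₂, bp x₁ ∈ A → bp y₁ ∈ A' → bp x₂ ∈ A → bp y₂ ∈ A' →
      T ≤ G1 x₁ → T ≤ G1 y₁ → T ≤ G1 x₂ → T ≤ G1 y₂ →
      G2 x₁ ≤ R → G2 y₁ ≤ R → G2 x₂ ≤ R → G2 y₂ ≤ R →
      x₁⁻¹ * y₁ = x₂⁻¹ * y₂ → x₂ * x₁⁻¹ ∈ S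

/-- The geometry of the cones (totally disconnected boundary). -/
structure Geo [Group Γ] [TopologicalSpace Y] [SMul Γ Y] (G1 G2 : Γ → ℝ) (bp : Γ → Y) :
    Prop where
  fin : ∀ r, (FF G1 G2 r).Finite
  gap : ∀ s u, ∃ C, ∀ x, |G1 (s * x * u) - G1 x| ≤ C ∧ |G2 (s * x * u) - G2 x| ≤ C
  left : ∀ (s : Γ) (A : Clopens Y) (r : ℝ), ∃ T, ∀ x, T ≤ G1 x → G2 x ≤ r →
    (s⁻¹ • bp (s * x) ∈ A ↔ bp x ∈ A)
  right : ∀ (u : Γ) (A : Clopens Y) (r : ℝ), ∃ T, ∀ x, T ≤ G1 x → G2 x ≤ r →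
    (bp (x * u) ∈ A ↔ bp x ∈ A)
  sep : ∀ A A' : Clopens Y, Disjoint A A' → SepP G1 G2 bp (A : Set Y) (A' : Set Y)

end defs

variable {Γ D K Y : Type} [Group Γ] [Group D] [NormedAddCommGroup K] [InnerProductSpace ℂ K]
  [CompleteSpace K]

/-- The analytic input: separation, and no regular mass along the subgroup `A`. -/
structure Sys (m : Set Γ → (K →L[ℂ] K)) (R : D → (K →L[ℂ] K)) (Bd : Set K)
    (ms : D → Set Γ → ℝ) (A : Subgroup D) (G1 G2 : Γ → ℝ) : Prop where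
  prj : Prj m
  rep : Rep R
  dense : Dense ((Submodule.span ℂ Bd : Submodule ℂ K) : Set K)
  norm : ∀ ξ ∈ Bd, ‖ξ‖ ≤ 1
  map : ∀ v, ∀ ξ ∈ Bd, R v ξ ∈ Bd
  sep : ∀ u, ∀ η ∈ Bd, ∀ ζ ∈ Bd, ∀ (F G P : Set Γ) (T : Finset Γ),
    (∀ x ∈ F, ∀ y ∈ G, x⁻¹ * y ∈ P) →
    (∀ x₁ ∈ F, ∀ y₁ ∈ G, ∀ x₂ ∈ F, ∀ y₂ ∈ G, x₁⁻¹ * y₁ = x₂⁻¹ * y₂ → x₂ * x₁⁻¹ ∈ T) →
    ‖⟪m G ζ, R u (m F η)⟫_ℂ‖ ≤ Real.sqrt T.card * Real.sqrt (ms u P)
  nrm : ∀ ε : ℝ, 0 < ε → ∃ r, ∀ u ∈ A, ms u (BB G1 G2 r) ≤ ε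
  nrv : ∀ ξ ∈ Bd, ∀ ε : ℝ, 0 < ε → ∃ r, ∀ w ∈ A, ‖m (BB G1 G2 r) (R w ξ)‖ ≤ ε

/-- Filters escaping to infinity inside `A`. -/
structure Esc (m : Set Γ → (K →L[ℂ] K)) (R : D → (K →L[ℂ] K)) (Bd : Set K) (A : Subgroup D)
    (l : Filter D) : Prop where
  mem : ∀ᶠ w in l, w ∈ A
  esc : ∀ g, ∀ ξ ∈ Bd, Tendsto (fun w => ‖m {g} (R w ξ)‖) l (𝓝 0)

variable {m : Set Γ → (K →L[ℂ] K)} {R : D → (K →L[ℂ] K)} {Bd : Set K}
  {ms : D → Set Γ → ℝ} {A : Subgroup D} {G1 G2 : Γ → ℝ} {bp : Γ → Y} {l l' : Filter D}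

theorem Esc.mono (h : Esc m R Bd A l) (hl : l' ≤ l) : Esc m R Bd A l' :=
  ⟨hl h.mem, fun g ξ hξ => (h.esc g ξ hξ).mono_left hl⟩

/-- No regular mass on all vectors. -/
theorem Sys.nrv' (h : Sys m R Bd ms A G1 G2) (ξ : K) {ε : ℝ} (hε : 0 < ε) :
    ∃ r, ∀ w ∈ A, ‖m (BB G1 G2 r) (R w ξ)‖ ≤ ε := by
  obtain ⟨N, hN⟩ : ∃ N : Submodule ℂ K, ∀ ξ, ξ ∈ N ↔ ∀ ε : ℝ, 0 < ε →
      ∃ r, ∀ w ∈ A, ‖m (BB G1 G2 r) (R w ξ)‖ ≤ ε := by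
    refine ⟨⟨⟨⟨{ξ | ∀ ε : ℝ, 0 < ε → ∃ r, ∀ w ∈ A, ‖m (BB G1 G2 r) (R w ξ)‖ ≤ ε}, ?_⟩, ?_⟩, ?_⟩,
      fun ξ => Iff.rfl⟩
    · intro ξ η hξ hη ε hε
      obtain ⟨r1, hr1⟩ := hξ (ε / 2) (by positivity)
      obtain ⟨r2, hr2⟩ := hη (ε / 2) (by positivity)
      refine ⟨max r1 r2, fun w hw => ?_⟩
      have h1 := (h.prj.mono (BB_mono (G1 := G1) (G2 := G2) (le_max_left r1 r2)) (R w ξ)).trans
        (hr1 w hw)
      have h2 := (h.prj.mono (BB_mono (G1 := G1) (G2 := G2) (le_max_right r1 r2)) (R w η)).trans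
        (hr2 w hw)
      rw [map_add, map_add]
      exact (norm_add_le _ _).trans (by linarith)
    · intro ε hε
      refine ⟨0, fun w _ => ?_⟩
      rw [map_zero, map_zero, norm_zero]
      exact hε.le
    · intro c ξ hξ ε hε
      obtain ⟨r1, hr1⟩ := hξ (ε / (‖c‖ + 1)) (by positivity)
      refine ⟨r1, fun w hw => ?_⟩
      have h1 := hr1 w hw
      rw [map_smul, map_smul, norm_smul]
      rw [le_div_iff₀ (by positivity)] at h1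
      have := norm_nonneg (m (BB G1 G2 r1) (R w ξ))
      nlinarith
  have hspan : Submodule.span ℂ Bd ≤ N :=
    Submodule.span_le.mpr fun ξ hξ => (hN ξ).2 (h.nrv ξ hξ)
  obtain ⟨η, hη, hd⟩ := Metric.mem_closure_iff.mp (h.dense ξ) (ε / 2) (by positivity)
  obtain ⟨r, hr⟩ := (hN η).1 (hspan hη) (ε / 2) (by positivity)
  refine ⟨r, fun w hw => ?_⟩
  have h1 := hr w hw
  have h2 : m (BB G1 G2 r) (R w ξ) = m (BB G1 G2 r) (R w (ξ - η)) + m (BB G1 G2 r) (R w η) := by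
    rw [← map_add, ← map_add, sub_add_cancel]
  rw [h2]
  rw [dist_eq_norm] at hd
  have h3 : ‖m (BB G1 G2 r) (R w (ξ - η))‖ ≤ ε / 2 :=
    ((h.prj.norm_le _ _).trans (h.rep.norm_le _ _)).trans hd.le
  exact (norm_add_le _ _).trans (by linarith)

/-- Escape on all vectors. -/
theorem Esc.esc' (h : Sys m R Bd ms A G1 G2) (he : Esc m R Bd A l) (g : Γ) (ξ : K) :
    Tendsto (fun w => ‖m {g} (R w ξ)‖) l (𝓝 0) := by
  have h1 := vec_of_total (f := fun w => m {g} * R w) (l := l) (C := 1) (fun w =>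
    (norm_mul_le _ _).trans (mul_le_one₀ (h.prj.opNorm_le _) (norm_nonneg _) (h.rep.opNorm_le _)))
    h.dense (fun ξ hξ => tendsto_zero_iff_norm_tendsto_zero.mpr (he.esc g ξ hξ)) ξ
  exact tendsto_zero_iff_norm_tendsto_zero.mp h1

/-- Sets of the form finite plus regular are negligible. -/
theorem negl (h : Sys m R Bd ms A G1 G2) (he : Esc m R Bd A l) (hf : ∀ r, (FF G1 G2 r).Finite)
    {N : Set Γ} (hN : ∀ r, ∃ T, N ⊆ FF G1 G2 T ∪ BB G1 G2 r) (ξ : K) :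
    Tendsto (fun w => ‖m N (R w ξ)‖) l (𝓝 0) := by
  rw [Metric.tendsto_nhds]
  intro ε hε
  obtain ⟨r, hr⟩ := h.nrv' ξ (ε := ε / 3) (by positivity)
  obtain ⟨T, hT⟩ := hN r
  have h1 := h.prj.tendsto_finite (f := fun w => R w ξ) (l := l)
    (fun g => he.esc' h g ξ) (hf T)
  filter_upwards [he.mem, (Metric.tendsto_nhds.mp h1) (ε / 3) (by positivity)] with w hw h2
  rw [dist_zero_right, norm_norm] at h2 ⊢
  have h3 := hr w hw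
  have h4 := h.prj.mono hT (R w ξ)
  have h5 := h.prj.norm_union_le (FF G1 G2 T) (BB G1 G2 r) (R w ξ)
  linarith

/-- **Purity**, uniform form: vectors dominated by `R(w) ξ` and `R(w') η`. -/
theorem pure_unif (h : Sys m R Bd ms A G1 G2) (hf : ∀ r, (FF G1 G2 r).Finite)
    (he : Esc m R Bd A l) (he' : Esc m R Bd A l') {A1 A2 : Set Y} (hd : SepP G1 G2 bp A2 A1)
    {ξ η : K} (hξ : ξ ∈ Bd) (hη : η ∈ Bd) {ε : ℝ} (hε : 0 < ε) :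
    ∀ᶠ p : D × D in l ×ˢ l', ∀ a ∈ Bd, ∀ b ∈ Bd, (∀ S, ‖m S a‖ ≤ ‖m S (R p.1 ξ)‖) →
      (∀ S, ‖m S b‖ ≤ ‖m S (R p.2 η)‖) →
      ‖⟪m (cn G1 G2 bp A1) a, R (p.1 * p.2⁻¹) (m (cn G1 G2 bp A2) b)⟫_ℂ‖ < ε := by
  obtain ⟨δ, hδ⟩ : ∃ δ, δ = ε / 6 := ⟨_, rfl⟩
  have hδ0 : 0 < δ := by rw [hδ]; positivity
  obtain ⟨r1, hr1⟩ := h.nrv ξ hξ δ hδ0
  obtain ⟨r2, hr2⟩ := h.nrv η hη δ hδ0
  obtain ⟨R0, hR0⟩ : ∃ R0, R0 = max r1 r2 := ⟨_, rfl⟩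
  obtain ⟨S, hS⟩ := hd R0
  obtain ⟨r, hr⟩ := h.nrm (δ ^ 2 / ((S.card : ℝ) + 1)) (by positivity)
  obtain ⟨T, hT1, hT2⟩ := hS r
  obtain ⟨T1, hT1d⟩ : ∃ T1, T1 = max T R0 := ⟨_, rfl⟩
  -- the good parts of the cones
  obtain ⟨Gd, hGd⟩ : ∃ Gd : Set Y → Set Γ, Gd = fun A0 : Set Y =>
      cn G1 G2 bp A0 ∩ {g | T ≤ G1 g ∧ G2 g ≤ R0} := ⟨_, rfl⟩
  have hsub : ∀ A0 : Set Y, Gd A0 ⊆ cn G1 G2 bp A0 := fun A0 => by
    rw [hGd]; exact Set.inter_subset_left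
  have hrest : ∀ A0 : Set Y, cn G1 G2 bp A0 \ Gd A0 ⊆
      FF G1 G2 T1 ∪ BB G1 G2 R0 := by
    intro A0 g hg
    obtain ⟨⟨h1, h2⟩, h3⟩ := hg
    rw [hGd] at h3
    simp only [Set.mem_inter_iff, Set.mem_setOf_eq, not_and, not_le] at h3
    by_cases h4 : G2 g ≤ R0
    · left
      have h5 : G1 g < T := by
        by_contra h5
        push Not at h5
        exact absurd (h3 ⟨h1, h2⟩ h5) (not_lt.mpr h4)
      refine ⟨?_, ?_⟩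
      · rw [hT1d]; exact h5.le.trans (le_max_left _ _)
      · rw [hT1d]; exact h4.trans (le_max_right _ _)
    · right
      push Not at h4
      exact ⟨h4.trans_le h1, h4⟩
  have hreg : ∀ w ∈ A, ‖m (BB G1 G2 R0) (R w ξ)‖ ≤ δ ∧ ‖m (BB G1 G2 R0) (R w η)‖ ≤ δ := by
    intro w hw
    refine ⟨(h.prj.mono (BB_mono ?_) _).trans (hr1 w hw),
      (h.prj.mono (BB_mono ?_) _).trans (hr2 w hw)⟩
    · rw [hR0]; exact le_max_left _ _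
    · rw [hR0]; exact le_max_right _ _
  have e1 := h.prj.tendsto_finite (f := fun w => R w ξ) (l := l)
    (fun g => he.esc g ξ hξ) (hf T1)
  have e2 := h.prj.tendsto_finite (f := fun w => R w η) (l := l')
    (fun g => he'.esc g η hη) (hf T1)
  have f1 : ∀ᶠ w in l, w ∈ A ∧ ‖m (FF G1 G2 T1) (R w ξ)‖ < δ := by
    filter_upwards [he.mem, (Metric.tendsto_nhds.mp e1) δ hδ0] with w a b
    rw [dist_zero_right, norm_norm] at b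
    exact ⟨a, b⟩
  have f2 : ∀ᶠ w in l', w ∈ A ∧ ‖m (FF G1 G2 T1) (R w η)‖ < δ := by
    filter_upwards [he'.mem, (Metric.tendsto_nhds.mp e2) δ hδ0] with w a b
    rw [dist_zero_right, norm_norm] at b
    exact ⟨a, b⟩
  filter_upwards [f1.prod_mk f2] with p hp a haB b hbB hda hdb
  obtain ⟨w, w'⟩ := p
  obtain ⟨⟨hw, hw1⟩, hw', hw2⟩ := hp
  simp only at hw hw1 hw' hw2 hda hdb ⊢
  have ha1 : ‖a‖ ≤ 1 := h.norm a haB
  have hb1 : ‖b‖ ≤ 1 := h.norm b hbB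
  have ga : ‖m (cn G1 G2 bp A1 \ Gd A1) a‖ ≤ 2 * δ := by
    have h3 := hda (cn G1 G2 bp A1 \ Gd A1)
    have h4 := h.prj.mono (hrest A1) (R w ξ)
    have h5 := h.prj.norm_union_le (FF G1 G2 T1) (BB G1 G2 R0) (R w ξ)
    have h6 := (hreg w hw).1
    linarith
  have gb : ‖m (cn G1 G2 bp A2 \ Gd A2) b‖ ≤ 2 * δ := by
    have h3 := hdb (cn G1 G2 bp A2 \ Gd A2)
    have h4 := h.prj.mono (hrest A2) (R w' η)
    have h5 := h.prj.norm_union_le (FF G1 G2 T1) (BB G1 G2 R0) (R w' η)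
    have h6 := (hreg w' hw').2
    linarith
  obtain ⟨u, hu⟩ : ∃ u, u = w * w'⁻¹ := ⟨_, rfl⟩
  have huA : u ∈ A := by rw [hu]; exact A.mul_mem hw (A.inv_mem hw')
  rw [← hu]
  have split : ∀ (A0 : Set Y) (c : K), m (cn G1 G2 bp A0) c = m (Gd A0) c +
      m (cn G1 G2 bp A0 \ Gd A0) c := by
    intro A0 c
    have h4 := h.prj.split (cn G1 G2 bp A0) (Gd A0)
    rw [Set.inter_eq_right.mpr (hsub A0)] at h4
    rw [h4, add_apply]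
  have main : ‖⟪m (Gd A1) a, R u (m (Gd A2) b)⟫_ℂ‖ ≤ δ := by
    have h4 := h.sep u b hbB a haB
      (Gd A2) (Gd A1) (BB G1 G2 r) S ?_ ?_
    · refine h4.trans ?_
      have h5 := hr u huA
      calc Real.sqrt S.card * Real.sqrt (ms u (BB G1 G2 r))
          ≤ Real.sqrt S.card * Real.sqrt (δ ^ 2 / ((S.card : ℝ) + 1)) := by gcongr
        _ = Real.sqrt (S.card * (δ ^ 2 / ((S.card : ℝ) + 1))) := by
            rw [Real.sqrt_mul (Nat.cast_nonneg _)]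
        _ ≤ Real.sqrt (δ ^ 2) := by
            refine Real.sqrt_le_sqrt ?_
            rw [mul_div_assoc', div_le_iff₀ (by positivity)]
            have := sq_nonneg δ
            nlinarith
        _ = δ := Real.sqrt_sq hδ0.le
    · intro x hx y hy
      rw [hGd] at hx hy
      obtain ⟨⟨_, x1⟩, x2, x3⟩ := hx
      obtain ⟨⟨_, y1⟩, y2, y3⟩ := hy
      exact hT1 x y x1 y1 x2 y2 x3 y3
    · intro x₁ hx₁ y₁ hy₁ x₂ hx₂ y₂ hy₂ hxy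
      rw [hGd] at hx₁ hy₁ hx₂ hy₂
      obtain ⟨⟨_, x1⟩, x2, x3⟩ := hx₁
      obtain ⟨⟨_, y1⟩, y2, y3⟩ := hy₁
      obtain ⟨⟨_, x1'⟩, x2', x3'⟩ := hx₂
      obtain ⟨⟨_, y1'⟩, y2', y3'⟩ := hy₂
      exact hT2 x₁ y₁ x₂ y₂ x1 y1 x1' y1' x2 y2 x2' y2' x3 y3 x3' y3' hxy
  have n1 : ‖m (Gd A1) a‖ ≤ 1 := (h.prj.norm_le _ _).trans ha1
  have n2 : ∀ c : K, ‖R u c‖ ≤ ‖c‖ := fun c => h.rep.norm_le _ _
  have n3 : ‖m (cn G1 G2 bp A2) b‖ ≤ 1 := (h.prj.norm_le _ _).trans hb1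
  have expand : ⟪m (cn G1 G2 bp A1) a, R u (m (cn G1 G2 bp A2) b)⟫_ℂ =
      ⟪m (Gd A1) a, R u (m (Gd A2) b)⟫_ℂ +
      ⟪m (Gd A1) a, R u (m (cn G1 G2 bp A2 \ Gd A2) b)⟫_ℂ +
      ⟪m (cn G1 G2 bp A1 \ Gd A1) a, R u (m (cn G1 G2 bp A2) b)⟫_ℂ := by
    conv_lhs => rw [split A1 a]
    rw [inner_add_left]
    congr 1
    rw [split A2 b, map_add, inner_add_right]
  rw [expand]
  have t2 : ‖⟪m (Gd A1) a, R u (m (cn G1 G2 bp A2 \ Gd A2) b)⟫_ℂ‖ ≤ 2 * δ := by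
    refine (norm_inner_le_norm _ _).trans ?_
    calc _ ≤ 1 * (2 * δ) := mul_le_mul n1 ((n2 _).trans gb) (norm_nonneg _) zero_le_one
      _ = _ := one_mul _
  have t3 : ‖⟪m (cn G1 G2 bp A1 \ Gd A1) a,
      R u (m (cn G1 G2 bp A2) b)⟫_ℂ‖ ≤ 2 * δ := by
    refine (norm_inner_le_norm _ _).trans ?_
    calc _ ≤ (2 * δ) * 1 := mul_le_mul ga ((n2 _).trans n3) (norm_nonneg _) (by positivity)
      _ = _ := mul_one _
  calc _ ≤ ‖⟪m (Gd A1) a, R u (m (Gd A2) b)⟫_ℂ‖ +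
      ‖⟪m (Gd A1) a, R u (m (cn G1 G2 bp A2 \ Gd A2) b)⟫_ℂ‖ +
      ‖⟪m (cn G1 G2 bp A1 \ Gd A1) a, R u (m (cn G1 G2 bp A2) b)⟫_ℂ‖ :=
        norm_add₃_le
    _ ≤ 5 * δ := by linarith
    _ < ε := by rw [hδ]; linarith

/-- **Purity**: wall limits over disjoint sets of base points are orthogonal. -/
theorem pure (h : Sys m R Bd ms A G1 G2) (hf : ∀ r, (FF G1 G2 r).Finite)
    (he : Esc m R Bd A l) (he' : Esc m R Bd A l') {A1 A2 : Set Y} (hd : SepP G1 G2 bp A2 A1)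
    (ξ η : K) : Tendsto (fun p : D × D => ⟪P m R p.1 (cn G1 G2 bp A1) ξ,
      P m R p.2 (cn G1 G2 bp A2) η⟫_ℂ) (l ×ˢ l') (𝓝 0) := by
  refine form_of_total (fun p => P_opNorm h.prj h.rep _ _) (fun p => P_opNorm h.prj h.rep _ _)
    h.dense (fun ξ hξ η hη => ?_) ξ η
  rw [Metric.tendsto_nhds]
  intro ε hε
  filter_upwards [pure_unif (A1 := A1) (A2 := A2) h hf he he' hd hξ hη hε] with p hp
  rw [dist_zero_right, P_inner_two h.rep _ _ _ _ _ _ h.prj]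
  exact hp _ (h.map _ _ hξ) _ (h.map _ _ hη) (fun S => le_rfl) (fun S => le_rfl)

end Vale.Agent.P092.H859.CL
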