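import Vale.Agent.P092.H859.CLK

/-!
P092 (helper859), blocks C-LIM / D0-ENG, part 10: the output of the engine for one wall element, from
the inputs, in the full case.
-/

set_option linter.all false

open scoped InnerProductSpace Pointwise
open Filter Topology ContinuousLinearMap TopologicalSpace

namespace Vale.Agent.P092.H859.CL

open Vale.Agent.P092.H553 (ind ind_nonneg ind_le_one abs_ind_le ind_pos ind_neg)

variable {Γ D K Y : Type} [Group Γ] [Group D] [NormedAddCommGroup K] [InnerProductSpace ℂ K]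
  [CompleteSpace K] {mp : (Γ → ℝ) → (K →L[ℂ] K)} {R : D → (K →L[ℂ] K)} {Bd : Set K}
  {ms : D → Set Γ → ℝ} {A : Subgroup D} {G1 G2 : Γ → ℝ} {bp : Γ → Y} {l l' : Filter D}
  {lam : Γ → (K →L[ℂ] K)} {W : Set (K →L[ℂ] K)} {C : ℝ}

/-- The filter of the positive powers. -/
def pw (b : D) : Filter D := Filter.map (fun n : ℕ => b ^ n) atTop

instance (b : D) : (pw b).NeBot := by unfold pw; infer_instance

theorem tendsto_pw {α : Type} {b : D} {f : D → α} {m : Filter α} :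
    Tendsto f (pw b) m ↔ Tendsto (fun n : ℕ => f (b ^ n)) atTop m := by
  rw [pw, Filter.tendsto_map'_iff]; rfl

theorem pw_mem (b : D) : ∀ᶠ w in pw b, w ∈ Subgroup.zpowers b := by
  rw [pw, Filter.eventually_map]
  exact Eventually.of_forall fun n => Subgroup.npow_mem_zpowers b n

/-- Commutation with the elements of the group, weak asymptotic form (helper43's LU1). -/
def LU1 (mp : (Γ → ℝ) → (K →L[ℂ] K)) (R : D → (K →L[ℂ] K)) (G1 G2 : Γ → ℝ) (l : Filter D) :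
    Prop :=
  ∀ (F : Γ → ℂ) (C : ℝ), (∀ g, ‖F g‖ ≤ C) → (∀ u, Neg G1 G2 fun g => F (g * u) - F g) →
    ∀ (v : D) (ξ η : K),
      Tendsto (fun w => ⟪R w η, (R v * mc mp F - mc mp F * R v) (R w ξ)⟫_ℂ) l (𝓝 0)

/-- The output of the engine. -/
structure EngOut [TopologicalSpace D] [TopologicalSpace Y] [CompactSpace Y] [SMul Γ Y]
    (mp : (Γ → ℝ) → (K →L[ℂ] K)) (R : D → (K →L[ℂ] K)) (lam : Γ → (K →L[ℂ] K))
    (W : Set (K →L[ℂ] K)) (b : D) (G1 G2 : Γ → ℝ) (bp : Γ → Y)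
    (β : C(Y, ℂ) →⋆ₐ[ℂ] (K →L[ℂ] K)) : Prop where
  lim : IsLim mp R G1 G2 bp (pw b) β
  cov : ∀ (s : Γ) (f f' : C(Y, ℂ)), (∀ y, f' (s • y) = f y) → lam s * β f * lam s⁻¹ = β f'
  cm : ∀ a ∈ W, ∀ f, a * β f = β f * a
  contr : ∀ n : D, Tendsto (fun N : ℕ => b ^ N * n * (b ^ N)⁻¹) atTop (𝓝 1) →
    ∀ f, R n * β f = β f * R n
  cent : ∀ v : D, b * v = v * b → ∀ f, R v * β f = β f * R v
  tail : ∀ ξ, ∀ ε : ℝ, 0 < ε → ∃ r, ∀ᶠ N : ℕ in atTop, ‖st mp {g | r < G2 g} (R (b ^ N) ξ)‖ ≤ ε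

/-- The mass off the near-wall part is small. -/
theorem tail_small (h : SysF mp R Bd ms A G1 G2) (h1 : R 1 = 1) (he : Esc (st mp) R Bd A l)
    (hfu : Full (st mp) R G1 G2 l) (ξ : K) {ε : ℝ} (hε : 0 < ε) :
    ∃ r, ∀ᶠ w in l, ‖st mp {g | r < G2 g} (R w ξ)‖ ≤ ε := by
  obtain ⟨r, hr⟩ := h.sys.nrv' ξ (half_pos hε)
  have h2 : Tendsto (fun w => ‖st mp {g | G2 g ≤ G1 g}ᶜ (R w ξ)‖) l (𝓝 0) := by
    have h3 := hfu ξ
    rw [h1] at h3
    have h4 := (tendsto_iff_norm_sub_tendsto_zero.mp h3)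
    refine (h4.congr fun w => ?_)
    have e1 : P (st mp) R w {g | G2 g ≤ G1 g} ξ - (1 : K →L[ℂ] K) ξ =
        - R w⁻¹ (st mp {g | G2 g ≤ G1 g}ᶜ (R w ξ)) := by
      rw [h.sys.prj.compl, P_ap, sub_apply, map_sub]
      have e2 : R w⁻¹ ((1 : K →L[ℂ] K) (R w ξ)) = (1 : K →L[ℂ] K) ξ := by
        change R w⁻¹ (R w ξ) = ξ
        rw [← mul_ap', ← h.sys.rep.mul, inv_mul_cancel, h1]; rfl
      rw [e2]; abel
    have e3 : ∀ x, ‖R w⁻¹ x‖ = ‖x‖ := fun x => by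
      rw [h.sys.rep.norm_eq, h1]; rfl
    rw [e1, norm_neg, e3]
  refine ⟨r, ?_⟩
  filter_upwards [he.mem, (Metric.tendsto_nhds.mp h2) (ε / 2) (half_pos hε)] with w hw hw2
  rw [dist_zero_right, norm_norm] at hw2
  have h3 := hr w hw
  have h4 : {g : Γ | r < G2 g} ⊆ BB G1 G2 r ∪ {g | G2 g ≤ G1 g}ᶜ := by
    intro g hg
    by_cases hg1 : G2 g ≤ G1 g
    · left; exact ⟨lt_of_lt_of_le hg hg1, hg⟩
    · right; exact hg1
  have h5 := h.sys.prj.mono h4 (R w ξ)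
  have h6 := h.sys.prj.norm_union_le (BB G1 G2 r) {g | G2 g ≤ G1 g}ᶜ (R w ξ)
  linarith

/-- **The engine, full case.** -/
theorem engine [TopologicalSpace D] [TopologicalSpace Y] [CompactSpace Y] [MulAction Γ Y] {b : D}
    (h : SysF mp R Bd ms (Subgroup.zpowers b) G1 G2) (hL : Leg mp R lam W)
    (hG : GeoF G1 G2 bp) (hS : Slow mp R Bd)
    (he : ∀ g, ∀ ξ ∈ Bd, Tendsto (fun n : ℕ => ‖st mp {g} (R (b ^ n) ξ)‖) atTop (𝓝 0))
    (hlu : LU1 mp R G1 G2 (pw b)) (hfu : Full (st mp) R G1 G2 (pw b)) :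
    ∃ β : C(Y, ℂ) →⋆ₐ[ℂ] (K →L[ℂ] K), EngOut mp R lam W b G1 G2 bp β := by
  have hE : Esc (st mp) R Bd (Subgroup.zpowers b) (pw b) :=
    ⟨pw_mem b, fun g ξ hξ => tendsto_pw.mpr (he g ξ hξ)⟩
  have hSF : ∀ f : C(Y, ℝ), SepF G1 G2 bp f := by
    intro f c d hcd
    have c1 : IsClosed {y | f y ≤ c} := isClosed_le f.continuous continuous_const
    have c2 : IsClosed {y | d ≤ f y} := isClosed_le continuous_const f.continuous
    have hd : Disjoint {y | f y ≤ c} {y | d ≤ f y} := by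
      rw [Set.disjoint_left]
      intro y h1 h2
      simp only [Set.mem_setOf_eq] at h1 h2
      linarith
    exact ⟨hG.sep _ _ c1 c2 hd, hG.sep _ _ c2 c1 hd.symm⟩
  obtain ⟨β, hβ⟩ := exists_beta h hG.fin hE hfu hL.one hSF
  have hβ' : IsLim mp R G1 G2 bp (pw b) β := hβ
  refine ⟨β, hβ', fun s f f' hff => hβ'.cov h hG hL hE s hff,
    fun a ha f => hβ'.comm_W h hL ha f, fun n hn f => hβ'.comm_slow h hS (tendsto_pw.mpr hn) f,
    fun v hv f => ?_, fun ξ ε hε => ?_⟩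
  · refine hβ'.comm_weak fun ξ η => ?_
    have bd : ∀ g, ‖cfc G1 G2 bp f g‖ ≤ ‖f‖ := cfc_norm fun y => f.norm_coe_le_norm y
    have h1 := hlu (cfc G1 G2 bp f) ‖f‖ bd (fun u => neg_right hG u f) v ξ η
    refine tendsto_pw.mpr ((tendsto_pw.mp h1).congr fun n => ?_)
    obtain ⟨w, hw⟩ : ∃ w, w = b ^ n := ⟨_, rfl⟩
    rw [← hw]
    have hc : w * v = v * w := by rw [hw]; exact (Commute.pow_left (show Commute b v from hv) n)
    have hc' : v * w⁻¹ = w⁻¹ * v := by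
      rw [mul_inv_eq_iff_eq_mul, mul_assoc, ← hc, inv_mul_cancel_left]
    have e1 : (R v * PC mp R w (cfc G1 G2 bp f) - PC mp R w (cfc G1 G2 bp f) * R v) ξ =
        R w⁻¹ ((R v * mc mp (cfc G1 G2 bp f) - mc mp (cfc G1 G2 bp f) * R v) (R w ξ)) := by
      have a1 : R w (R v ξ) = R v (R w ξ) := by
        rw [← mul_ap', ← mul_ap', ← h.sys.rep.mul, ← h.sys.rep.mul, hc]
      have a2 : ∀ x, R v (R w⁻¹ x) = R w⁻¹ (R v x) := fun x => by
        rw [← mul_ap', ← mul_ap', ← h.sys.rep.mul, ← h.sys.rep.mul, hc']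
      rw [sub_apply, mul_ap', mul_ap', PC_ap, PC_ap, a1, a2, sub_apply, mul_ap', mul_ap', map_sub]
    rw [e1, h.sys.rep.inner_right, inv_inv]
  · obtain ⟨r, hr⟩ := tail_small h hL.one hE hfu ξ hε
    exact ⟨r, by rwa [pw, Filter.eventually_map] at hr⟩

/-- Uniqueness: the output is determined by its limit property. -/
theorem IsLim.uniq [TopologicalSpace Y] [CompactSpace Y] [l.NeBot]
    {β β' : C(Y, ℂ) →⋆ₐ[ℂ] (K →L[ℂ] K)} (h : IsLim mp R G1 G2 bp l β)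
    (h' : IsLim mp R G1 G2 bp l β') : β = β' := by
  refine StarAlgHom.ext fun f => ?_
  ext ξ
  exact tendsto_nhds_unique (h f ξ) (h' f ξ)

end Vale.Agent.P092.H859.CL
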