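import Vale.Agent.P092.H515.LatSl
import Vale.Agent.P092.PA.Defs

/-!
P092 (helper859), block [A-LATQ]: the probability of `PA.Lat` from a lattice, and the sequences of
MATCH.
-/

set_option linter.all false

open MeasureTheory MeasureTheory.Measure Set Filter Topology
open scoped ENNReal NNReal Pointwise

namespace Vale.Agent.P092.H859

open Vale.Agent.P092.H515

section lat

variable {E : Type} [Group E] [TopologicalSpace E] [IsTopologicalGroup E] [LocallyCompactSpace E]
  [SecondCountableTopology E] [T2Space E] [MeasurableSpace E] [BorelSpace E]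

/-- The normalised restriction of Haar measure to the left fundamental domain. -/
noncomputable def latM (L : Subgroup E) [DiscreteTopology L] [MeasurableSpace (E ⧸ L)]
    [BorelSpace (E ⧸ L)] (μ : Measure E) : Measure E :=
  (μ (fdom L)⁻¹)⁻¹ • μ.restrict (fdom L)⁻¹

variable {Lam : Type} [Group Lam]

theorem lat_of (q : Lam →* E) (hq : Function.Injective q) (hL : H515.IsLattice q.range)
    [d : DiscreteTopology q.range] [MeasurableSpace (E ⧸ q.range)] [BorelSpace (E ⧸ q.range)]
    (μ : Measure E) [IsHaarMeasure μ] : PA.Lat q (latM q.range μ) := by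
  classical
  obtain ⟨ν, hP, hν⟩ := hL.exists_prob
  have hr : IsMulRightInvariant μ := right_invariant q.range ν hν μ
  have hi : IsInvInvariant μ := inv_invariant q.range ν hν μ
  have hct : Countable q.range := countable_lat q.range
  set D : Set E := (fdom q.range)⁻¹ with hD
  have hDm : MeasurableSet D := (fdom_meas q.range).inv
  have hfd : IsFundamentalDomain q.range D μ := isFundamentalDomain_left q.range μ
  have hD1 : μ D < ∞ := fdom_inv_lt_top q.range ν hν μ
  have hD0 : μ D ≠ 0 := by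
    rw [hD, measure_inv]
    exact (fdom_pos q.range ν hν μ).ne'
  have hinvR : ∀ (F : E → ℂ), (∀ v h, F (q v * h) = F h) → ∀ (g : q.range) (h : E),
      F (g • h) = F h := by
    rintro F hF ⟨_, v, rfl⟩ h
    exact hF v h
  have key : latM q.range μ = (μ D)⁻¹ • μ.restrict D := rfl
  have hsm : ∀ F : E → ℂ, ∫ h, F h ∂(latM q.range μ) = (μ D)⁻¹.toReal • ∫ h in D, F h ∂μ := by
    intro F
    rw [key, integral_smul_measure]
  refine ⟨?_, ?_, ?_, ?_⟩
  · rw [key]
    constructor
    rw [Measure.smul_apply, Measure.restrict_apply_univ, smul_eq_mul]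
    exact ENNReal.inv_mul_cancel hD0 hD1.ne
  · intro F hF _ hinv k
    rw [hsm, hsm]
    congr 1
    -- translate
    have hDk : IsFundamentalDomain q.range ((· * k⁻¹) ⁻¹' D) μ := by
      refine IsFundamentalDomain.mk' (measurable_mul_const k⁻¹ hDm).nullMeasurableSet fun x => ?_
      obtain ⟨v, hv, hu⟩ := existsUnique_left q.range (x * k⁻¹)
      refine ⟨v, ?_, fun w hw => hu w ?_⟩
      · show (v • x) * k⁻¹ ∈ D
        have : (v • x) * k⁻¹ = (v : E) * (x * k⁻¹) := mul_assoc _ _ _
        rw [this]; exact hv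
      · have hw' : (w • x) * k⁻¹ ∈ D := hw
        have : (w • x) * k⁻¹ = (w : E) * (x * k⁻¹) := mul_assoc _ _ _
        rw [this] at hw'; exact hw'
    have h1 : ∫ h in D, F (h * k) ∂μ = ∫ h in (· * k⁻¹) ⁻¹' D, F h ∂μ := by
      have e1 : ∫ h, ((· * k⁻¹) ⁻¹' D).indicator F h ∂μ =
          ∫ h, ((· * k⁻¹) ⁻¹' D).indicator F (h * k) ∂μ :=
        (integral_mul_right_eq_self (μ := μ) (fun h => ((· * k⁻¹) ⁻¹' D).indicator F h) k).symm
      rw [← integral_indicator hDm, ← integral_indicator (measurable_mul_const k⁻¹ hDm), e1]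
      congr 1
      funext h
      by_cases hh : h ∈ D
      · have : h * k ∈ (· * k⁻¹) ⁻¹' D := by
          show h * k * k⁻¹ ∈ D
          rwa [mul_inv_cancel_right]
        rw [indicator_of_mem hh, indicator_of_mem this]
      · have : h * k ∉ (· * k⁻¹) ⁻¹' D := by
          show ¬ h * k * k⁻¹ ∈ D
          rwa [mul_inv_cancel_right]
        rw [indicator_of_notMem hh, indicator_of_notMem this]
    rw [h1]
    exact hDk.setIntegral_eq hfd (hinvR F hinv)
  · intro F hF hC h0 hinv hint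
    obtain ⟨C, hC⟩ := hC
    have hb : ∀ h, ‖F h‖ ≤ C := fun h => by
      rw [Real.norm_of_nonneg (h0 h)]; exact hC h
    have hfin : IsFiniteMeasure (μ.restrict D) := ⟨by rw [Measure.restrict_apply_univ]; exact hD1⟩
    have hI : Integrable F (μ.restrict D) :=
      Integrable.of_bound hF.aestronglyMeasurable C (Eventually.of_forall hb)
    rw [key, integral_smul_measure] at hint
    have hne : (μ D)⁻¹.toReal ≠ 0 :=
      (ENNReal.toReal_pos (ENNReal.inv_ne_zero.2 hD1.ne) (ENNReal.inv_ne_top.2 hD0)).ne'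
    have hint2 : ∫ h in D, F h ∂μ = 0 := by
      rcases smul_eq_zero.1 hint with h | h
      · exact absurd h hne
      · exact h
    have hae : F =ᵐ[μ.restrict D] 0 := (integral_eq_zero_iff_of_nonneg h0 hI).1 hint2
    -- zero almost everywhere
    have hz : μ {h | F h ≠ 0} = 0 := by
      have h1 : μ ({h | F h ≠ 0} ∩ D) = 0 := by
        have h2 : μ.restrict D {h | F h ≠ 0} = 0 := hae
        rwa [Measure.restrict_apply] at h2
        exact (measurableSet_eq_fun hF.measurable measurable_const).compl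
      refine hfd.measure_zero_of_invariant {h | F h ≠ 0} ?_ h1
      rintro ⟨_, v, rfl⟩
      ext x
      rw [mem_smul_set_iff_inv_smul_mem]
      show F ((q v)⁻¹ * x) ≠ 0 ↔ F x ≠ 0
      rw [← map_inv, hinv]
    have hop : IsOpen {h | F h ≠ 0} := isOpen_ne_fun hF continuous_const
    have hem : {h | F h ≠ 0} = ∅ := hop.measure_eq_zero_iff μ |>.1 hz
    intro h
    by_contra hh
    have : h ∈ {h | F h ≠ 0} := hh
    rw [hem] at this
    exact this
  · intro C hC
    have hf := finite_of_compact q.range hC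
    refine Set.Finite.of_finite_image (f := fun v => (⟨q v, v, rfl⟩ : q.range)) ?_ ?_
    · refine hf.subset ?_
      rintro _ ⟨v, hv, rfl⟩
      exact hv
    · intro v _ w _ h
      exact hq (congrArg (fun x : q.range => (x : E)) h)

/-- **[A-LATQ]** -/
theorem exists_lat (q : Lam →* E) (hq : Function.Injective q) (hL : H515.IsLattice q.range) :
    ∃ m : Measure E, PA.Lat q m := by
  have hd := hL.disc
  let _ : MeasurableSpace (E ⧸ q.range) := borel _
  have _ : BorelSpace (E ⧸ q.range) := ⟨rfl⟩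
  exact ⟨_, lat_of q hq hL Measure.haar⟩

end lat

section seq

variable {H₁ H₂ Lam : Type*} [Group H₁] [TopologicalSpace H₁] [Group H₂] [TopologicalSpace H₂]
  [Group Lam]

theorem infinite_of_dense [T1Space H₁] {q : Lam →* H₁} (hd : DenseRange q)
    (hn : ¬ IsOpen ({1} : Set H₁)) {U : Set H₁} (hU : U ∈ 𝓝 (1 : H₁)) : {v | q v ∈ U}.Infinite := by
  obtain ⟨O, hOU, hO, h1⟩ := mem_nhds_iff.1 hU
  intro hf
  have hf2 : (q '' {v | q v ∈ U}).Finite := hf.image q
  have hsub : O ⊆ q '' {v | q v ∈ U} := by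
    by_contra hns
    obtain ⟨x, hxO, hx⟩ := Set.not_subset.1 hns
    have hop : IsOpen (O \ (q '' {v | q v ∈ U})) := hO.sdiff hf2.isClosed
    obtain ⟨v, hv⟩ := hd.exists_mem_open hop ⟨x, hxO, hx⟩
    exact hv.2 ⟨v, hOU hv.1, rfl⟩
  have hOf : O.Finite := hf2.subset hsub
  apply hn
  have : ({1} : Set H₁) = O \ (O \ {1}) := by
    ext x
    simp only [mem_singleton_iff, Set.mem_sdiff, not_and, not_not]
    constructor
    · rintro rfl; exact ⟨h1, fun _ => rfl⟩
    · rintro ⟨h2, h3⟩; exact h3 h2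
  rw [this]
  exact hO.sdiff (hOf.subset sdiff_subset).isClosed

theorem seq_of_dense [IsTopologicalGroup H₁] [T1Space H₁] [FirstCountableTopology H₁]
    [WeaklyLocallyCompactSpace H₁] {q₁ : Lam →* H₁} {q₂ : Lam →* H₂} (hd : DenseRange q₁)
    (hn : ¬ IsOpen ({1} : Set H₁))
    (hfin : ∀ C : Set (H₁ × H₂), IsCompact C → {v | (q₁ v, q₂ v) ∈ C}.Finite) :
    ∃ w : ℕ → Lam, Function.Injective w ∧ Tendsto (fun n => q₁ (w n)) atTop (𝓝 1) ∧
      Tendsto (fun n => q₂ (w n)) atTop (cocompact H₂) := by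
  obtain ⟨U, hU⟩ := (𝓝 (1 : H₁)).exists_antitone_basis
  obtain ⟨f, hf1, hf2⟩ := exists_seq_of_forall_finset_exists
    (fun p : ℕ × Lam => q₁ p.2 ∈ U p.1) (fun p p' => p.1 < p'.1 ∧ p.2 ≠ p'.2) (by
      intro s _
      have hs : (q₁ ⁻¹' U (s.sup Prod.fst + 1)).Infinite :=
        infinite_of_dense hd hn (hU.1.mem_of_mem trivial)
      classical
      obtain ⟨v, hv, hvs⟩ := hs.exists_notMem_finset (s.image Prod.snd)
      refine ⟨(s.sup Prod.fst + 1, v), hv, fun x hx => ⟨?_, ?_⟩⟩
      · exact Nat.lt_succ_of_le (Finset.le_sup (f := Prod.fst) hx)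
      · intro h
        exact hvs (Finset.mem_image.2 ⟨x, hx, h⟩))
  have hmono : StrictMono fun n => (f n).1 := fun m n h => (hf2 m n h).1
  have hinj : Function.Injective fun n => (f n).2 := by
    intro m n h
    rcases lt_trichotomy m n with h1 | h1 | h1
    · exact absurd h (hf2 m n h1).2
    · exact h1
    · exact absurd h.symm (hf2 n m h1).2
  have hT1 : Tendsto (fun n => q₁ (f n).2) atTop (𝓝 1) := by
    rw [hU.1.tendsto_right_iff]
    intro i _
    filter_upwards [hmono.tendsto_atTop.eventually_ge_atTop i] with n hn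
    exact hU.2 hn (hf1 n)
  refine ⟨fun n => (f n).2, hinj, hT1, ?_⟩
  obtain ⟨C₁, hC₁, hC1⟩ := exists_compact_mem_nhds (1 : H₁)
  rw [tendsto_def]
  intro s hs
  obtain ⟨K, hK, hKs⟩ := mem_cocompact.1 hs
  have h1 := hfin (C₁ ×ˢ K) (hC₁.prod hK)
  have h2 : {n | (q₁ (f n).2, q₂ (f n).2) ∈ C₁ ×ˢ K}.Finite :=
    Set.Finite.preimage (f := fun n => (f n).2) hinj.injOn h1
  have h3 : ∀ᶠ n in atTop, n ∉ {n | (q₁ (f n).2, q₂ (f n).2) ∈ C₁ ×ˢ K} := by
    rw [← Nat.cofinite_eq_atTop]
    exact h2.compl_mem_cofinite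
  filter_upwards [h3, hT1 hC1] with n hn hn2
  apply hKs
  intro hn3
  exact hn ⟨hn2, hn3⟩

/-- Three and more factors: the projection to two factors is dense. -/
theorem seq_of_dense_prod [FirstCountableTopology H₁] [WeaklyLocallyCompactSpace H₂]
    [SigmaCompactSpace H₂] [NoncompactSpace H₂] {q₁ : Lam →* H₁} {q₂ : Lam →* H₂}
    (hd : DenseRange fun v => (q₁ v, q₂ v)) [T2Space H₂] :
    ∃ w : ℕ → Lam, Tendsto (fun n => q₁ (w n)) atTop (𝓝 1) ∧
      Tendsto (fun n => q₂ (w n)) atTop (cocompact H₂) := by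
  obtain ⟨U, hU⟩ := (𝓝 (1 : H₁)).exists_antitone_basis
  let K : CompactExhaustion H₂ := default
  have h : ∀ n, ∃ v, q₁ v ∈ U n ∧ q₂ v ∉ K n := by
    intro n
    have ho : IsOpen (interior (U n) ×ˢ (K n)ᶜ) :=
      isOpen_interior.prod (K.isCompact n).isClosed.isOpen_compl
    have hne : (K n)ᶜ.Nonempty := by
      by_contra h0
      rw [not_nonempty_iff_eq_empty, compl_empty_iff] at h0
      exact noncompact_univ H₂ (h0 ▸ K.isCompact n)
    obtain ⟨y, hy⟩ := hne
    have h1 : (1 : H₁) ∈ interior (U n) := mem_interior_iff_mem_nhds.2 (hU.1.mem_of_mem trivial)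
    obtain ⟨v, hv⟩ := hd.exists_mem_open ho ⟨(1, y), h1, hy⟩
    exact ⟨v, interior_subset hv.1, hv.2⟩
  choose w hw1 hw2 using h
  refine ⟨w, ?_, ?_⟩
  · rw [hU.1.tendsto_right_iff]
    intro i _
    filter_upwards [eventually_ge_atTop i] with n hn
    exact hU.2 hn (hw1 n)
  · rw [tendsto_def]
    intro s hs
    obtain ⟨C, hC, hCs⟩ := mem_cocompact.1 hs
    obtain ⟨n₀, hn₀⟩ := K.exists_superset_of_isCompact hC
    filter_upwards [eventually_ge_atTop n₀] with n hn
    exact hCs fun hx => hw2 n (K.subset hn (hn₀ hx))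

end seq

section prod

variable {H₁ H₂ Lam : Type} [Group H₁] [TopologicalSpace H₁] [IsTopologicalGroup H₁]
  [LocallyCompactSpace H₁] [SecondCountableTopology H₁] [T2Space H₁] [MeasurableSpace H₁]
  [BorelSpace H₁] [Group H₂] [TopologicalSpace H₂] [IsTopologicalGroup H₂]
  [LocallyCompactSpace H₂] [SecondCountableTopology H₂] [T2Space H₂] [MeasurableSpace H₂]
  [BorelSpace H₂] [Group Lam]

/-- The two places of a lattice in a product. -/
theorem exists_lat_prod (q₁ : Lam →* H₁) (q₂ : Lam →* H₂) (hq : Function.Injective (q₁.prod q₂))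
    (hL : H515.IsLattice (q₁.prod q₂).range) :
    (∃ m : Measure (H₁ × H₂), PA.Lat (q₁.prod q₂) m) ∧
      ∀ C : Set (H₁ × H₂), IsCompact C → {v | (q₁ v, q₂ v) ∈ C}.Finite := by
  obtain ⟨m, hm⟩ := exists_lat (q₁.prod q₂) hq hL
  exact ⟨⟨m, hm⟩, hm.fin⟩

/-- The form for a subgroup of the product. -/
theorem exists_lat_sub (L : Subgroup (H₁ × H₂)) (hL : H515.IsLattice L) :
    (∃ m : Measure (H₁ × H₂), PA.Lat (((MonoidHom.fst H₁ H₂).comp L.subtype).prod
      ((MonoidHom.snd H₁ H₂).comp L.subtype)) m) ∧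
      ∀ C : Set (H₁ × H₂), IsCompact C → {v : L | (v : H₁ × H₂) ∈ C}.Finite := by
  have e : ((MonoidHom.fst H₁ H₂).comp L.subtype).prod ((MonoidHom.snd H₁ H₂).comp L.subtype) =
      L.subtype := by
    ext v <;> rfl
  rw [e]
  obtain ⟨m, hm⟩ := exists_lat L.subtype Subtype.val_injective (by rwa [Subgroup.range_subtype])
  exact ⟨⟨m, hm⟩, hm.fin⟩

end prod

end Vale.Agent.P092.H859
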