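import Vale.Agent.P092.H859.ExN
import Vale.Agent.P092.H859.TwN
import Vale.Agent.P092.H776.NG6
import Vale.Agent.P092.H368.SN.GeoC
import Vale.Agent.P092.H387.Pl1
import Vale.Agent.P092.H100.GrN
import Vale.Agent.P092.SN.Blocks2
import Vale.Agent.P092.SD.Flip

/-!
P092 (helper859), Team N, block [N-EX], assembly for a source group with one factor: both legs of
the concrete picture, from the positions `PosO`.
-/

set_option linter.all false

open scoped InnerProductSpace ENNReal LinearAlgebra.Projectivization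
open Filter Topology ContinuousLinearMap MeasureTheory TopologicalSpace

namespace Vale.Agent.P092.H859.ExB

open Vale.Agent.P092.H160 Vale.Agent.P092.SR
open Vale.Agent.P092.H859.TgN
open Vale.Agent.P092.H859.ExN
open Vale.Agent.P092.RC (Cm TRN Moore GG PG YY y0 ct KK pic lam₁ lam₂ XX Om)
open Vale.Agent.P092.SN (CY CG nm NW Att act PH UD NWA NWS EFam Adm bw un LegN ExStmt)
open Vale.Agent.P092.H100.Gr (Gr)
open Vale.Agent.P092.H76.Pur (NIS)
open Vale.Agent.P092.H368.SN (Cz pow_cocompact)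
open Vale.Agent.P092.H35 (sp)

/-! ### Change of the family of sets -/

section mono

variable {k : Type} [NontriviallyNormedField k] [ProperSpace k] {N : ℕ} {E Γ K : Type} [Group E]
  [TopologicalSpace E] [Group Γ] [NormedAddCommGroup K] [InnerProductSpace ℂ K] [CompleteSpace K]
  {w : kˣ} {ι : GG k N →* E} {a a' : E →* PG k (N + 1)} {π : E →* (K →L[ℂ] K)}
  {lam : Γ →* (K →L[ℂ] K)} {W : Set (K →L[ℂ] K)} {Ω : K} {m : Set Γ → (K →L[ℂ] K)}
  {q : Γ → GG k N} {Z Z' : ℝ → Set Γ}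

theorem nws_mono (hm : SD.Ms lam W Ω m) (hZ : ∀ R, Z R ⊆ Z' R) (h : NWS w ι π Ω m q Z) :
    NWS w ι π Ω m q Z' := by
  intro g ε hε
  obtain ⟨R, hR⟩ := h g ε hε
  refine ⟨R, fun t => (H790.CT.ms_mono hm ?_ _).trans (hR t)⟩
  intro γ hγ hc
  exact hγ ⟨hZ R hc.1, hc.2⟩

theorem efam_mono {Ec : YY k N → (CY k N →⋆ₐ[ℂ] (K →L[ℂ] K))} (hm : SD.Ms lam W Ω m)
    (hZ : ∀ R, Z R ⊆ Z' R) (h : EFam w ι a π lam W m q Z Ec) : EFam w ι a π lam W m q Z' Ec where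
  cm := h.cm
  cov := h.cov
  pcov := h.pcov
  dom := fun g u A hA hu ζ ε hε => by
    obtain ⟨R, hR⟩ := h.dom g u A hA hu ζ ε hε
    refine ⟨R, fun T hT => ?_⟩
    filter_upwards [hR T hT] with t ht
    refine ht.trans (add_le_add_left (mul_le_mul_of_nonneg_left ?_ (norm_nonneg _)) _)
    refine H790.CT.ms_mono hm ?_ _
    exact fun γ hγ => ⟨hZ R hγ.1, hγ.2⟩
  agr := h.agr

/-- **A leg for a larger family of sets.** -/
theorem legN_mono [MeasurableSpace k] {μ : Measure k}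
    {Ec F : YY k N → (CY k N →⋆ₐ[ℂ] (K →L[ℂ] K))} (hZ : ∀ R, Z R ⊆ Z' R) (hmo : Monotone Z')
    (hu : ∀ R, UD q (Z' R)) (h : LegN μ w ι a a' π lam W Ω m q Z Ec F) :
    LegN μ w ι a a' π lam W Ω m q Z' Ec F :=
  { h with
    zm := hmo
    ud := hu
    nws := nws_mono h.ms hZ h.nws
    nws' := nws_mono h.ms hZ h.nws'
    e := efam_mono h.ms hZ h.e
    f := efam_mono h.ms hZ h.f }

end mono

/-! ### The target with one factor -/

section tgt

variable {k : Type} [NontriviallyNormedField k] {N : ℕ} {Γ : Type} [Group Γ]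

/-- the target data without other coordinates -/
theorem tg_zero {q : Γ → GG k N} (hq : PH q) (hf : ∀ C : ℝ, {γ : Γ | nm (q γ) ≤ C}.Finite) :
    Tg q fun _ => 0 where
  ph := hq
  siz := H337.NG.siz_zero
  inv := ⟨0, fun _ => by simp⟩
  fin := fun R => (hf R).subset fun γ hγ => hγ.1

theorem fin_ct {q : Γ → GG k N} (hq : PH q) (hf : ∀ C : ℝ, {γ : Γ | nm (q γ) ≤ C}.Finite) (C : ℝ) :
    {γ : Γ | nm (ct (q γ)) ≤ C}.Finite := by
  refine ((tg_zero hq hf).dual.fin (max C 0)).subset fun γ hγ => ⟨?_, le_max_right _ _⟩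
  exact le_trans (show H337.NG.en (ct (q γ)).1 ≤ C from hγ) (le_max_left _ _)

theorem inj_ct [ProperSpace k] {q : Γ → GG k N} (hi : ∀ γ, sp k (N + 1) (q γ) = 1 → γ = 1) (γ : Γ)
    (h : sp k (N + 1) (ct (q γ)) = 1) : γ = 1 := by
  refine hi γ ?_
  have h1 := DFunLike.congr_fun (H387.Ad.tauP_comp_sp (k := k) (N := N)) (ct (q γ))
  change H644.PGr.tauP k (N + 1) (sp k (N + 1) (ct (q γ))) = sp k (N + 1) (ct (ct (q γ))) at h1
  rw [h, map_one, H859.TgN.ct_ct] at h1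
  exact h1.symm

end tgt

/-! ### Both legs -/

section ex

variable {k : Type} [NontriviallyNormedField k] [ProperSpace k] {N : ℕ}
  {E : Type} [Group E] [TopologicalSpace E] [IsTopologicalGroup E] [LocallyCompactSpace E]
  [SecondCountableTopology E] [T2Space E] [MeasurableSpace E] [BorelSpace E]
  {Γ : Subgroup E} [DiscreteTopology Γ] [Countable Γ] [MeasurableSpace (E ⧸ Γ)]
  [BorelSpace (E ⧸ Γ)] {ν : Measure (E ⧸ Γ)} [IsProbabilityMeasure ν]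
  (hν : ∀ g : E, ν.map (fun x => g • x) = ν)
  {Λ : Type} [Group Λ] [Countable Λ] {α : Γ →* (Ell2 Λ →L[ℂ] Ell2 Λ)} (hα : Frame α)
  {ι : GG k N →* E} {a a' : E →* PG k (N + 1)} {w : kˣ} {q : Γ → GG k N}

theorem noncpt (h : Adm ι a a') (hw : ‖(w : k)‖ < 1) : NoncompactSpace E := by
  have h1 := pow_cocompact h hw
  refine ⟨fun hc => ?_⟩
  have h2 : (cocompact E) = ⊥ := by
    rw [← empty_mem_iff_bot]
    exact mem_cocompact.2 ⟨Set.univ, hc, by simp⟩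
  rw [h2] at h1
  exact ((map_neBot_iff fun n : ℕ => ι (bw w) ^ n).2 atTop_neBot).ne (le_bot_iff.1 h1)

/-- **Both legs, from the positions**, for a source group with one factor. -/
theorem ex_of [MeasurableSpace k] [BorelSpace k] {μ : Measure k} [μ.IsAddHaarMeasure]
    (hk : H933.LocK k) (hΛ : ∀ g : Λ, g ≠ 1 → Set.Infinite {y : Λ | ∃ h, y = h * g * h⁻¹})
    (had : Adm ι a a') (hw : ‖(w : k)‖ < 1) (hz : Cz w ι a a')
    (hgap : H933.LeviGap (ι (bw w))) (hq : PH q) (hf : ∀ C : ℝ, {γ : Γ | nm (q γ) ≤ C}.Finite)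
    (hi : ∀ γ, sp k (N + 1) (q γ) = 1 → γ = 1)
    (nis : ∀ j, 1 ≤ j → j ≤ N → NIS fun (γ : Γ) (x : Gr k (Fin (N + 1)) j) => q γ • x)
    (nis' : ∀ j, 1 ≤ j → j ≤ N → NIS fun (γ : Γ) (x : Gr k (Fin (N + 1)) j) => ct (q γ) • x)
    (pos : PosO hν hα (g2 q fun _ => 0) (g2 (fun γ => ct (q γ)) fun _ => 0) (ι (bw w)))
    (pos' : PosO hν hα (g2 q fun _ => 0) (g2 (fun γ => ct (q γ)) fun _ => 0) (ι (bw w))⁻¹) :
    ∃ (w : kˣ) (m₁ m₂ : Set Γ → (KK ν Λ →L[ℂ] KK ν Λ)) (q₁ q₂ : Γ → GG k N)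
      (E₁ F₁ E₂ F₂ : YY k N → (CY k N →⋆ₐ[ℂ] (KK ν Λ →L[ℂ] KK ν Λ))),
      LegN μ w ι a a' (pic hν hα) (lam₁ ν α) (XX ν Λ ∪ Set.range (lam₂ ν α)) (Om ν Λ) m₁ q₁
        (fun _ => Set.univ) E₁ F₁ ∧
      LegN μ w ι a a' (pic hν hα) (lam₂ ν α) (XX ν Λ ∪ Set.range (lam₁ ν α)) (Om ν Λ) m₂ q₂
        (fun _ => Set.univ) E₂ F₂ ∧
      (∀ γ, sp k (N + 1) (q₁ γ) = 1 → γ = 1) ∧ (∀ γ, sp k (N + 1) (q₂ γ) = 1 → γ = 1) ∧
      (∀ C : ℝ, {γ : Γ | nm (q₁ γ) ≤ C}.Finite) ∧ (∀ C : ℝ, {γ : Γ | nm (q₂ γ) ≤ C}.Finite) := by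
  haveI := noncpt had hw
  have hN0 : 0 < N := by have := had.hN; omega
  obtain ⟨Br, -, -, hB₁, hB₂, nrm⟩ := H776.NG.exists_regular_one hν hα hk hN0 ι a had.cι had.ca
    had.comp hw q hq hf
  obtain ⟨q', hq', Ec, F, hL⟩ := leg_first (μ := μ) hν hα hΛ had hw hz (tg_zero hq hf) hB₁ hB₂ nrm
    hgap nis nis' pos pos'
  have hf' : ∀ C : ℝ, {γ : Γ | nm (q' γ) ≤ C}.Finite := by
    rcases hq' with rfl | rfl
    · exact hf
    · exact fin_ct hq hf
  have hi' : ∀ γ, sp k (N + 1) (q' γ) = 1 → γ = 1 := by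
    rcases hq' with rfl | rfl
    · exact hi
    · exact inj_ct hi
  have hL' := legN_mono (Z' := fun _ => Set.univ) (fun R => Set.subset_univ _)
    (fun _ _ _ => le_rfl) (fun R => H387.Ad.ud_of_fin hL.ph hf' _) hL
  exact ⟨w, _, _, q', q', Ec, F, _, _, hL', TwN.tw_legN (SD.tw_flK hν hα) hL', hi', hi', hf', hf'⟩

end ex

end Vale.Agent.P092.H859.ExB
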