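import Vale.Agent.P092.H644.RkG
import Vale.Agent.P092.H289.Gen
import Vale.Agent.P092.SN.Defs

/-!
P092 (helper859), Team N, block [N-EX], source side: for an admissible source group, the common
stabiliser of two points (of two hyperplanes) has the Moore property, and the stabilisers of two
different points (hyperplanes) generate the group.
-/

set_option linter.all false

open TopologicalSpace Topology Module Projectivization
open scoped Matrix LinearAlgebra.Projectivization Pointwise

namespace Vale.Agent.P092.H859.SrcG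

open Vale.Agent.P092.H100.Gr Vale.Agent.P092.H644.Gr3 Vale.Agent.P092.H644.PGr
open Vale.Agent.P092.H644.RkG
open Vale.Agent.P092.RC (Moore GG PG YY y0 ct)
open Vale.Agent.P092.SN (Adm Prv inc)

variable {k : Type} [NontriviallyNormedField k] {N : ℕ} {E : Type} [Group E]
  [TopologicalSpace E] {ι : GG k N →* E} {a a' : E →* PG k (N + 1)}

theorem fix_pt (e : E) (x : YY k N) : a e • x = x ↔ Prv a (p1 x).1 e := by
  have h1 := stab_iff (a e) (p1 x)
  rw [← p1_smul_pg] at h1
  rw [← p1_inj.eq_iff]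
  exact h1

theorem fix_hyp (h : Adm ι a a') (e : E) (l : YY k N) : a' e • l = l ↔ Prv a (hyp l).1 e := by
  have h1 := stab_iff (a e) (hyp l)
  rw [← hyp_of_ort (h.ort e)] at h1
  rw [← hyp_inj.eq_iff]
  exact h1

/-- Howe-Moore for two points. -/
theorem moore_pts (h : Adm ι a a') (x y : YY k N) : Moore {e : E | a e • x = x ∧ a e • y = y} := by
  have h1 : {e : E | a e • x = x ∧ a e • y = y} = {e | Prv a (p1 x).1 e ∧ Prv a (p1 y).1 e} := by
    ext e
    rw [Set.mem_setOf_eq, Set.mem_setOf_eq, fix_pt, fix_pt]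
  rw [h1]
  exact h.stb _ _

/-- Howe-Moore for two hyperplanes. -/
theorem moore_hyps (h : Adm ι a a') (x y : YY k N) :
    Moore {e : E | a' e • x = x ∧ a' e • y = y} := by
  have h1 : {e : E | a' e • x = x ∧ a' e • y = y} =
      {e | Prv a (hyp x).1 e ∧ Prv a (hyp y).1 e} := by
    ext e
    rw [Set.mem_setOf_eq, Set.mem_setOf_eq, fix_hyp h, fix_hyp h]
  rw [h1]
  exact h.stb _ _

theorem exists_sl_pt (hN : 2 ≤ N) (x y : YY k N) : ∃ g : GG k N, g • x = y := by
  obtain ⟨g, hg⟩ := exists_smul (k := k) (ι := Fin (N + 1)) (j := 1)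
    (by rw [Fintype.card_fin]; omega) (p1 x) (p1 y)
  refine ⟨g, p1_inj ?_⟩
  rw [← hg]
  have h1 := p1_smul_pg (QuotientGroup.mk (Matrix.SpecialLinearGroup.toGL g)) x
  rw [can_smul_pt, can_smul] at h1
  exact h1

/-- The stabilisers of two different points generate, general form. -/
theorem gen_of {a : E →* PG k (N + 1)} (hN : 2 ≤ N) (s : GG k N →* GG k N)
    (hs : Function.Surjective s) (hι : ∀ g (x : YY k N), a (ι g) • x = s g • x) (x y : YY k N)
    (hxy : x ≠ y) :
    Subgroup.closure ({e : E | a e • x = x} ∪ {e : E | a e • y = y}) = ⊤ := by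
  obtain ⟨H, hH⟩ : ∃ H, H = Subgroup.closure ({e : E | a e • x = x} ∪ {e : E | a e • y = y}) :=
    ⟨_, rfl⟩
  rw [← hH]
  have hx : ∀ e, a e • x = x → e ∈ H := fun e he => by
    rw [hH]; exact Subgroup.subset_closure (Or.inl he)
  have hy : ∀ e, a e • y = y → e ∈ H := fun e he => by
    rw [hH]; exact Subgroup.subset_closure (Or.inr he)
  have hpt : ∀ (g : GG k N) (z : YY k N), g • (p1 z).1 = (p1 z).1 → g • z = z := by
    intro g z hz
    apply p1_inj
    have h1 := p1_smul_pg (QuotientGroup.mk (Matrix.SpecialLinearGroup.toGL g)) z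
    rw [can_smul_pt, can_smul] at h1
    rw [h1]
    exact Subtype.ext hz
  -- the image of `SL`
  have h1 : (H.comap ι).map s = ⊤ := by
    rw [eq_top_iff, ← H289.closure_stab_ne (k := k) (X := (p1 x).1) (X' := (p1 y).1)
      (fun h => hxy (p1_inj (Subtype.ext h))), Subgroup.closure_le]
    rintro g (hg | hg)
    · obtain ⟨g', rfl⟩ := hs g
      exact ⟨g', hx _ (by rw [hι]; exact hpt _ _ hg), rfl⟩
    · obtain ⟨g', rfl⟩ := hs g
      exact ⟨g', hy _ (by rw [hι]; exact hpt _ _ hg), rfl⟩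
  rw [eq_top_iff]
  intro e _
  obtain ⟨g, hg⟩ := exists_sl_pt hN x (a e • x)
  have h2 : g ∈ (H.comap ι).map s := by rw [h1]; exact Subgroup.mem_top g
  obtain ⟨g', hg', rfl⟩ := h2
  have h3 : (ι g')⁻¹ * e ∈ H := by
    refine hx _ ?_
    rw [map_mul, mul_smul, ← hg, ← hι, map_inv, inv_smul_smul]
  have h4 : e = ι g' * ((ι g')⁻¹ * e) := by rw [mul_inv_cancel_left]
  rw [h4]
  exact H.mul_mem hg' h3

theorem gen_pts (h : Adm ι a a') (x y : YY k N) (hxy : x ≠ y) :
    Subgroup.closure ({e : E | a e • x = x} ∪ {e : E | a e • y = y}) = ⊤ :=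
  gen_of h.hN (MonoidHom.id _) (fun g => ⟨g, rfl⟩) h.comp x y hxy

theorem ct_surj : Function.Surjective (ct : GG k N →* GG k N) := fun g => ⟨ct g, by
  apply Subtype.ext
  change (((ct g)⁻¹ : GG k N).1).transpose = g.1
  rw [← map_inv]
  change ((((g⁻¹)⁻¹ : GG k N).1).transpose).transpose = g.1
  rw [inv_inv, Matrix.transpose_transpose]⟩

theorem gen_hyps (h : Adm ι a a') (x y : YY k N) (hxy : x ≠ y) :
    Subgroup.closure ({e : E | a' e • x = x} ∪ {e : E | a' e • y = y}) = ⊤ :=
  gen_of h.hN ct ct_surj h.comp' x y hxy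

end Vale.Agent.P092.H859.SrcG
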