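import Vale.Agent.P092.H859.TgN
import Vale.Agent.P092.H859.SrcG
import Vale.Agent.P092.H368.SN.SrcE
import Vale.Agent.P092.H368.SN.GeoB
import Vale.Agent.P092.H805.RowN
import Vale.Agent.P092.H725.SN.SizeN
import Vale.Agent.P092.H644.RkI

/-!
P092 (helper859), Team N, block [N-EX]: the first leg of the concrete picture over an admissible
source group `E`, in the letters of `SN/Defs`: from the mass of the regular elements, the positions
(`Pos`), the gap of the wall element and the absence of invariant states, to `SN.LegN`.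
-/

set_option linter.all false

open scoped InnerProductSpace ENNReal LinearAlgebra.Projectivization
open Filter Topology ContinuousLinearMap MeasureTheory TopologicalSpace

namespace Vale.Agent.P092.H859.ExN

open Vale.Agent.P092.H160 Vale.Agent.P092.SR
open Vale.Agent.P092.H337.NG (Siz bp)
open Vale.Agent.P092.H859.CL (FF Full Sym Slow Esc Leg st Prj pw tendsto_pw pw_mem)
open Vale.Agent.P092.H859.TgN
open Vale.Agent.P092.H859.SrcG
open Vale.Agent.P092.RC (Cm TRN Moore GG PG YY y0 ct KK pic lam₁ lam₂ XX Om)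
open Vale.Agent.P092.SN (CY CG nm NW Att act PH UD NWA NWS EFam Adm bw un LegN)
open Vale.Agent.P092.H790.CTA (ORBG SIZEG)
open Vale.Agent.P092.H100.Gr (Gr)
open Vale.Agent.P092.H644.Gr3 (p1 hyp p1H hypH p1_inj hyp_inj)
open Vale.Agent.P092.H76.Pur (NIS)
open Vale.Agent.P092.H368.SN (ZA z0 Cz GeoE SrcE geoE_of_adm pow_cocompact ad0_of Ad0 tv wl md bw_eq)
open Vale.Agent.P092.H805.Row (mpE JE)
open Vale.Agent.P092.H805.RowN
open Vale.Agent.P092.H35 (sp)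

/-! ### The action of the target on the points -/

section tgt

variable {k : Type} [NontriviallyNormedField k] {N : ℕ} {Γ : Type} [Group Γ]

/-- the action of `Γ` on the points through `q` -/
@[reducible] noncomputable def actQ (q : Γ → GG k N) (h : PH q) : MulAction Γ (YY k N) :=
  MulAction.compHom (YY k N) (H644.RkI.qP q h)

theorem actQ_smul (q : Γ → GG k N) (h : PH q) (γ : Γ) (x : YY k N) :
    (actQ q h).smul γ x = q γ • x := H644.PGr.can_smul_pt (q γ) x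

variable [ProperSpace k]

theorem ccsQ (q : Γ → GG k N) (h : PH q) :
    @ContinuousConstSMul Γ (YY k N) _ (actQ q h).toSMul :=
  letI := actQ q h
  ⟨fun γ => by
    have e : (fun x : YY k N => γ • x) = fun x => q γ • x := funext fun x => actQ_smul q h γ x
    rw [e]
    exact continuous_const_smul (q γ)⟩

/-- no invariant states on the points -/
theorem nis_pt {q : Γ → GG k N}
    (h : NIS fun (γ : Γ) (x : Gr k (Fin (N + 1)) 1) => q γ • x) :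
    NIS fun (γ : Γ) (x : YY k N) => q γ • x := by
  refine H644.RkI.nis_homeo (p1H (k := k) (ι := Fin (N + 1))).symm (fun γ x => ?_) h
  apply (p1H (k := k) (ι := Fin (N + 1))).injective
  rw [Homeomorph.apply_symm_apply]
  obtain ⟨y, rfl⟩ := (p1H (k := k) (ι := Fin (N + 1))).surjective x
  rw [Homeomorph.symm_apply_apply]
  have h1 := H644.PGr.p1_smul_pg (QuotientGroup.mk (Matrix.SpecialLinearGroup.toGL (q γ))) y
  rw [H644.PGr.can_smul_pt, H644.PGr.can_smul] at h1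
  exact h1

/-- no invariant states on the hyperplanes -/
theorem nis_hyp {q : Γ → GG k N}
    (h : NIS fun (γ : Γ) (x : Gr k (Fin (N + 1)) N) => q γ • x) :
    NIS fun (γ : Γ) (x : YY k N) => ct (q γ) • x := by
  refine H644.RkI.nis_homeo (hypH (k := k) (m := N)).symm (fun γ x => ?_) h
  apply (hypH (k := k) (m := N)).injective
  rw [Homeomorph.apply_symm_apply]
  obtain ⟨y, rfl⟩ := (hypH (k := k) (m := N)).surjective x
  rw [Homeomorph.symm_apply_apply]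
  exact H644.PGr.hyp_smul_sl rfl y

end tgt

/-! ### Root groups -/

section orb

variable {k : Type} [NontriviallyNormedField k] [ProperSpace k] {N : ℕ} {E : Type} [Group E]
  [TopologicalSpace E] {ι : GG k N →* E} {a a' : E →* PG k (N + 1)}

/-- the homomorphism `ι` is proper -/
theorem prop_ι (h : Adm ι a a') (C : Set E) (hC : IsCompact C) :
    ∃ C' : Set (GG k N), IsCompact C' ∧ ι ⁻¹' C ⊆ C' := by
  have h1 : IsCompact (a '' C) := hC.image h.ca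
  refine ⟨sp k (N + 1) ⁻¹' (a '' C), H35.sp_proper (Nat.succ_ne_zero N) h1 h1.isClosed, ?_⟩
  intro g hg
  refine ⟨ι g, hg, ?_⟩
  exact (ad0_of h).a_ι g

theorem prop_ι' (h : Adm ι a a') (C : Set E) (hC : IsCompact C) :
    ∃ C' : Set (GG k N), IsCompact C' ∧ (ι.comp ct) ⁻¹' C ⊆ C' := by
  obtain ⟨C', h1, h2⟩ := prop_ι h C hC
  refine ⟨ct '' C', h1.image H368.SN.ct_cont, fun g hg => ?_⟩
  refine ⟨ct g, h2 hg, H859.TgN.ct_ct g⟩

variable [MeasurableSpace k] [BorelSpace k] {μ : Measure k} [μ.IsAddHaarMeasure]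

theorem spr_pt (h : Adm ι a a') (w : kˣ) {j : Fin (N + 1)} (hj : (0 : Fin (N + 1)) ≠ j) :
    H368.SN.Spr μ (ι (bw w)) (fun s => ι (un hj s)) (md w ^ (N + 1)) := by
  have h1 := H368.SN.spr_wl_map (μ := μ) (p := ι) (prop_ι h) hj w
  rw [Fintype.card_fin, ← bw_eq] at h1
  exact h1

theorem spr_hyp (h : Adm ι a a') (w : kˣ) {j : Fin (N + 1)} (hj : (0 : Fin (N + 1)) ≠ j) :
    H368.SN.Spr μ (ι (ct (bw w))) (fun s => ι (ct (un hj s))) (md w ^ (N + 1)) := by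
  have h1 := H368.SN.spr_wl_map (μ := μ) (p := ι.comp ct) (prop_ι' h) hj w
  rw [Fintype.card_fin, ← bw_eq] at h1
  exact h1

end orb

/-! ### The first leg -/

section leg

variable {k : Type} [NontriviallyNormedField k] [ProperSpace k] {N : ℕ}
  {E : Type} [Group E] [TopologicalSpace E] [IsTopologicalGroup E] [LocallyCompactSpace E]
  [SecondCountableTopology E] [T2Space E] [MeasurableSpace E] [BorelSpace E]
  {Γ : Subgroup E} [DiscreteTopology Γ] [Countable Γ] [MeasurableSpace (E ⧸ Γ)]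
  [BorelSpace (E ⧸ Γ)] {ν : Measure (E ⧸ Γ)} [IsProbabilityMeasure ν]
  (hν : ∀ g : E, ν.map (fun x => g • x) = ν)
  {Λ : Type} [Group Λ] [Countable Λ] {α : Γ →* (Ell2 Λ →L[ℂ] Ell2 Λ)} (hα : Frame α)
  {ι : GG k N →* E} {a a' : E →* PG k (N + 1)} {w : kˣ} {q : Γ → GG k N} {ρ : Γ → ℝ}
  {Br : ℝ → Set Γ}

/-- the positions of `Ω` along `b` -/
def PosO (hν : ∀ g : E, ν.map (fun x => g • x) = ν) (hα : Frame α) (G2 H2 : Γ → ℝ) (b : E) :
    Prop :=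
  ∀ ε : ℝ, 0 < ε → ∃ r : ℝ, ∀ᶠ i : ℕ in atTop,
    ‖H103.mS₁ ν hα {γ | r < G2 γ ∧ r < H2 γ} (pic hν hα (b ^ i) (Om ν Λ))‖ ≤ ε

/-- `Pos` on all vectors from `Pos` at `Ω`. -/
theorem pos_of_om [NoncompactSpace E]
    (hΛ : ∀ g : Λ, g ≠ 1 → Set.Infinite {y : Λ | ∃ h, y = h * g * h⁻¹}) {G2 H2 : Γ → ℝ}
    (hG : ∀ s : Γ, ∃ C, ∀ x, |G2 (s * x) - G2 x| ≤ C ∧ |H2 (s * x) - H2 x| ≤ C) {b : E}
    (h : PosO hν hα G2 H2 b) :
    CN.Pos (st (mpE ν hα)) (fun g => pic hν hα g) G2 H2 (pw b) := by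
  intro ξ ε hε
  have h1 := H790.CT.tails (I := ℝ) (l := atTop)
    (H790.CT.PicL.of_pic (picE hν hα hΛ)) (H103.ms₁ hα) (fun i : ℕ => b ^ i)
    (fun r _ => {γ | r < G2 γ ∧ r < H2 γ}) ⟨0⟩ (fun r r' => ⟨max r r', Eventually.of_forall
      fun _ => ⟨fun γ hγ => ⟨(le_max_left _ _).trans_lt hγ.1, (le_max_left _ _).trans_lt hγ.2⟩,
        fun γ hγ => ⟨(le_max_right _ _).trans_lt hγ.1, (le_max_right _ _).trans_lt hγ.2⟩⟩⟩)
    (fun γ r => by
      obtain ⟨C, hC⟩ := hG γ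
      refine ⟨r + C, Eventually.of_forall fun _ y hy => ?_⟩
      obtain ⟨h2, h3⟩ := hy
      have h4 := (abs_le.1 (hC y).1).2
      have h5 := (abs_le.1 (hC y).2).2
      exact ⟨by linarith, by linarith⟩) h ξ ε hε
  obtain ⟨r, hr⟩ := h1
  refine ⟨r, ?_⟩
  rw [pw, eventually_map, st_eq]
  exact hr

/-- **One leg from the fullness.** -/
theorem leg_case [NoncompactSpace E] [MeasurableSpace k] [BorelSpace k] {μ : Measure k}
    [μ.IsAddHaarMeasure]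
    (hΛ : ∀ g : Λ, g ≠ 1 → Set.Infinite {y : Λ | ∃ h, y = h * g * h⁻¹})
    (had : Adm ι a a') (hw : ‖(w : k)‖ < 1) (hz : Cz w ι a a') (hT : Tg q ρ)
    (hB₁ : ∀ r, ∃ r', CL.BB (g1 q) (g2 q ρ) r' ⊆ Br r)
    (hB₂ : ∀ r, ∃ r', CL.BB (g1 fun γ => ct (q γ)) (g2 (fun γ => ct (q γ)) ρ) r' ⊆ Br r)
    (nrm : ∀ ε : ℝ, 0 < ε → ∃ r, ∀ u ∈ Subgroup.zpowers (ι (bw w)), msE hν hα u (Br r) ≤ ε)
    (hgap : H933.LeviGap (ι (bw w)))
    (nis : ∀ j, 1 ≤ j → j ≤ N → NIS fun (γ : Γ) (x : Gr k (Fin (N + 1)) j) => q γ • x)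
    (hf₁ : Full (st (mpE ν hα)) (fun g => pic hν hα g) (g1 q) (g2 q ρ) (pw (ι (bw w))⁻¹))
    (hf₂ : Full (st (mpE ν hα)) (fun g => pic hν hα g) (g1 fun γ => ct (q γ))
      (g2 (fun γ => ct (q γ)) ρ) (pw (ι (bw w)))) :
    ∃ Ec F : YY k N → (CY k N →⋆ₐ[ℂ] (KK ν Λ →L[ℂ] KK ν Λ)),
      LegN μ w ι a a' (pic hν hα) (lam₁ ν α) (XX ν Λ ∪ Set.range (lam₂ ν α)) (Om ν Λ)
        (H103.mS₁ ν hα) q (ZZ ρ) Ec F := by
  have hN := had.hN
  have hb := pow_cocompact had hw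
  have hpic := picE (ν := ν) hν hα hΛ
  have S : SrcE (ι (bw w)) (pic hν hα) (lam₁ ν α) (XX ν Λ ∪ Set.range (lam₂ ν α)) (Om ν Λ)
      (mpE ν hα) (Bd ν hα) (Bf ν hα) :=
    { pic := hpic
      mcov := mcovE hν hα
      mW := mWE hν hα
      slow := slowE hν hα
      loc := locE hν hα
      esc := fun g ξ hξ => tendsto_pw.1 ((escE hν hα hb).esc g ξ hξ)
      esc' := fun g ξ hξ => tendsto_pw.1 ((escE' hν hα hb).esc g ξ hξ)
      sym := symE hν hα }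
  have h₁ := sysNE hν hα (A := Subgroup.zpowers (ι (bw w))) (hT.gap2 hN) hB₁ nrm
  have h₂ := sysNE hν hα (A := Subgroup.zpowers (ι (bw w))) (hT.dual.gap2 hN) hB₂ nrm
  have hloc : ∀ v, H107.LocAt (st (mpE ν hα)) (pic hν hα v) (Bf ν hα) := fun v =>
    H43.loc_at (locE hν hα) v
  have hfin : ∀ ξ, ∀ ε : ℝ, 0 < ε → ∃ F : Finset Γ, ‖st (mpE ν hα) ((F : Set Γ))ᶜ ξ‖ ≤ ε :=
    fun ξ ε hε => finE hα ξ hε
  -- near-wall
  have n1 : NWS w ι (pic hν hα) (Om ν Λ) (st (mpE ν hα)) q (ZZ ρ) :=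
    nws_of (b := ι (bw w)) rfl hN hT h₁.sys hf₁ hfin hloc (locE hν hα).map (om_Bf hα)
  have n2 : NWS w (ι.comp ct) (pic hν hα) (Om ν Λ) (st (mpE ν hα)) (fun γ => ct (q γ)) (ZZ ρ) := by
    refine nws_of (b := (ι (bw w))⁻¹) ?_ hN hT.dual
      (h₂.sys.mono (by rw [Subgroup.zpowers_inv])) ?_ hfin hloc
      (locE hν hα).map (om_Bf hα)
    · change ι (ct (bw w)) = _
      rw [H859.TgN.ct_bw, map_inv]
    · rw [inv_inv]; exact hf₂
  -- the families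
  letI i1 : MulAction Γ (YY k N) := actQ q hT.sn_ph
  have hact : ∀ (γ : Γ) (x : YY k N), γ • x = q γ • x := fun γ x => actQ_smul q hT.sn_ph γ x
  letI i2 : MulAction Γ (YY k N) := actQ (fun γ => ct (q γ)) hT.dual.sn_ph
  have g₁ := @Tg.geoF k _ N Γ _ _ q ρ hT hN i1 (fun γ x => actQ_smul q hT.sn_ph γ x) Br hB₁
  have g₂ := @Tg.geoF k _ N Γ _ _ _ ρ hT.dual hN i2
    (fun γ x => actQ_smul _ hT.dual.sn_ph γ x) Br hB₂
  obtain ⟨F₁, F₂, hF₁, hF₂⟩ := @H368.SN.two_famE E Γ (YY k N) (YY k N) (ZA a) (ZA a')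
    (KK ν Λ) _ _ _ _ _ _ _ i1 _ _ i2 _ _ _ (ι (bw w)) (pic hν hα) (lam₁ ν α)
    (XX ν Λ ∪ Set.range (lam₂ ν α)) (Om ν Λ) (mpE ν hα) (Bd ν hα) (Bf ν hα) (msE hν hα)
    (z0 a) (z0 a') Br (NWA q (ZZ ρ)) (NWA (fun γ => ct (q γ)) (ZZ ρ)) (g1 q) (g2 q ρ)
    (g1 fun γ => ct (q γ)) (g2 (fun γ => ct (q γ)) ρ) (fun γ => bp (q γ))
    (fun γ => bp (ct (q γ))) S (geoE_of_adm had hw hz) h₁ h₂ g₁ g₂
    (Tg.cut (q := q) (ρ := ρ) hN) (Tg.cut (q := fun γ => ct (q γ)) (ρ := ρ) hN) hf₁ hf₂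
  have nis₁ : NIS fun (γ : Γ) (x : YY k N) => q γ • x := nis_pt (nis 1 le_rfl (by omega))
  have nis₂ : NIS fun (γ : Γ) (x : YY k N) => ct (q γ) • x := nis_hyp (nis N (by omega) le_rfl)
  have ag₁ := @agr_fam k _ _ N E Γ (KK ν Λ) _ _ _ _ _ (pic hν hα) (lam₁ ν α)
    (XX ν Λ ∪ Set.range (lam₂ ν α)) (Om ν Λ) (st (mpE ν hα)) F₁ _
    (MulAction.compHom (YY k N) a) i1 (ccsQ q hT.sn_ph) hpic _ _ _ hF₁ (by
      have e : (fun (γ : Γ) (x : YY k N) => i1.smul γ x) =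
        fun (γ : Γ) (x : YY k N) => q γ • x := by
        funext γ x; exact actQ_smul q hT.sn_ph γ x
      change NIS (fun (γ : Γ) (x : YY k N) => i1.smul γ x)
      rw [e]
      exact nis₁) (moore_pts had) (gen_pts had)
  have ag₂ := @agr_fam k _ _ N E Γ (KK ν Λ) _ _ _ _ _ (pic hν hα) (lam₁ ν α)
    (XX ν Λ ∪ Set.range (lam₂ ν α)) (Om ν Λ) (st (mpE ν hα)) F₂ _
    (MulAction.compHom (YY k N) a') i2 (ccsQ (fun γ => ct (q γ)) hT.dual.sn_ph) hpic _ _ _ hF₂ (by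
      have e : (fun (γ : Γ) (x : YY k N) => i2.smul γ x) =
        fun (γ : Γ) (x : YY k N) => ct (q γ) • x := by
        funext γ x; exact actQ_smul _ hT.dual.sn_ph γ x
      change NIS (fun (γ : Γ) (x : YY k N) => i2.smul γ x)
      rw [e]
      exact nis₂) (moore_hyps had) (gen_hyps had)
  have e₁ : EFam w ι a (pic hν hα) (lam₁ ν α) (XX ν Λ ∪ Set.range (lam₂ ν α)) (st (mpE ν hα)) q
      (ZZ ρ) F₁ :=
    @efam_of_fam k _ _ N E Γ (KK ν Λ) _ _ _ _ _ w ι a (pic hν hα) (lam₁ ν α)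
      (XX ν Λ ∪ Set.range (lam₂ ν α)) (st (mpE ν hα)) q (ZZ ρ) F₁
      (MulAction.compHom (YY k N) a) (fun e x => rfl) i1 (fun γ x => actQ_smul q hT.sn_ph γ x)
      had.comp hF₁ ag₁
  have e₂ : EFam w (ι.comp ct) a' (pic hν hα) (lam₁ ν α) (XX ν Λ ∪ Set.range (lam₂ ν α))
      (st (mpE ν hα)) (fun γ => ct (q γ)) (ZZ ρ) F₂ :=
    @efam_of_fam' k _ _ N E Γ (KK ν Λ) _ _ _ _ _ w ι (pic hν hα) (lam₁ ν α)
      (XX ν Λ ∪ Set.range (lam₂ ν α)) (st (mpE ν hα)) (fun γ => ct (q γ)) (ZZ ρ) F₂ a'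
      (MulAction.compHom (YY k N) a') (fun e x => rfl) i2
      (fun γ x => actQ_smul _ hT.dual.sn_ph γ x) had.comp' hF₂ ag₂
  rw [st_eq] at n1 n2 e₁ e₂
  have hsz := H725.SN.size_N₁ hν hα hΛ (H103.bF₁ hα) (H103.bF₁_ap hα) (H103.ms₁ hα) hT.sn_ph ι hgap
  refine ⟨F₁, F₂, ?_⟩
  exact
    { adm := had
      hw := hw
      pic := hpic
      ms := H103.ms₁ hα
      uc := H103.uc₁ hν hα
      ph := hT.sn_ph
      zm := zz_mono ρ
      ud := fun R => hT.ud R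
      orb := fun {j} hj => ⟨md w ^ (N + 1), H368.SN.rate_pos w _,
        H368.SN.rate_lt_one hw (Nat.succ_ne_zero N),
        H368.SN.orbE₁ hν hα (had.cι.comp (H368.SN.continuous_tv hj)) (spr_pt had w hj)⟩
      orb' := fun {j} hj => ⟨md w ^ (N + 1), H368.SN.rate_pos w _,
        H368.SN.rate_lt_one hw (Nat.succ_ne_zero N),
        H368.SN.orbE₁ hν hα (had.cι.comp (H368.SN.ct_cont.comp (H368.SN.continuous_tv hj)))
          (spr_hyp had w hj)⟩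
      size := hsz.1
      size' := hsz.2
      nws := n1
      nws' := n2
      e := e₁
      f := e₂
      nis := nis }

/-- **The first leg**, of one of the two types. -/
theorem leg_first [NoncompactSpace E] [MeasurableSpace k] [BorelSpace k] {μ : Measure k}
    [μ.IsAddHaarMeasure]
    (hΛ : ∀ g : Λ, g ≠ 1 → Set.Infinite {y : Λ | ∃ h, y = h * g * h⁻¹})
    (had : Adm ι a a') (hw : ‖(w : k)‖ < 1) (hz : Cz w ι a a') (hT : Tg q ρ)
    (hB₁ : ∀ r, ∃ r', CL.BB (g1 q) (g2 q ρ) r' ⊆ Br r)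
    (hB₂ : ∀ r, ∃ r', CL.BB (g1 fun γ => ct (q γ)) (g2 (fun γ => ct (q γ)) ρ) r' ⊆ Br r)
    (nrm : ∀ ε : ℝ, 0 < ε → ∃ r, ∀ u ∈ Subgroup.zpowers (ι (bw w)), msE hν hα u (Br r) ≤ ε)
    (hgap : H933.LeviGap (ι (bw w)))
    (nis : ∀ j, 1 ≤ j → j ≤ N → NIS fun (γ : Γ) (x : Gr k (Fin (N + 1)) j) => q γ • x)
    (nis' : ∀ j, 1 ≤ j → j ≤ N → NIS fun (γ : Γ) (x : Gr k (Fin (N + 1)) j) => ct (q γ) • x)
    (pos : PosO hν hα (g2 q ρ) (g2 (fun γ => ct (q γ)) ρ) (ι (bw w)))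
    (pos' : PosO hν hα (g2 q ρ) (g2 (fun γ => ct (q γ)) ρ) (ι (bw w))⁻¹) :
    ∃ q' : Γ → GG k N, (q' = q ∨ q' = fun γ => ct (q γ)) ∧
      ∃ Ec F : YY k N → (CY k N →⋆ₐ[ℂ] (KK ν Λ →L[ℂ] KK ν Λ)),
      LegN μ w ι a a' (pic hν hα) (lam₁ ν α) (XX ν Λ ∪ Set.range (lam₂ ν α)) (Om ν Λ)
        (H103.mS₁ ν hα) q' (ZZ ρ) Ec F := by
  have hN := had.hN
  have hb := pow_cocompact had hw
  have hpic := picE (ν := ν) hν hα hΛ
  have h₁ := sysNE hν hα (A := Subgroup.zpowers (ι (bw w))) (hT.gap2 hN) hB₁ nrm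
  have hgs : ∀ s : Γ, ∃ C, ∀ x, |g2 q ρ (s * x) - g2 q ρ x| ≤ C ∧
      |g2 (fun γ => ct (q γ)) ρ (s * x) - g2 (fun γ => ct (q γ)) ρ x| ≤ C := fun s => by
    obtain ⟨C, hC⟩ := hT.gap2 hN s 1
    obtain ⟨C', hC'⟩ := hT.dual.gap2 hN s 1
    refine ⟨max C C', fun x => ⟨?_, ?_⟩⟩
    · have := (hC x).2
      rw [mul_one] at this
      exact this.trans (le_max_left _ _)
    · have := (hC' x).2
      rw [mul_one] at this
      exact this.trans (le_max_right _ _)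
  obtain ⟨C, hC⟩ := hT.gaps hN
  letI i1 : MulAction Γ (YY k N) := actQ q hT.sn_ph
  have g₁ := @Tg.geoF k _ N Γ _ _ q ρ hT hN i1 (fun γ x => actQ_smul q hT.sn_ph γ x) Br hB₁
  have nis₁ : NIS fun (γ : Γ) (x : YY k N) => γ • x := by
    have e : (fun (γ : Γ) (x : YY k N) => i1.smul γ x) =
      fun (γ : Γ) (x : YY k N) => q γ • x := by
      funext γ x; exact actQ_smul q hT.sn_ph γ x
    change NIS (fun (γ : Γ) (x : YY k N) => i1.smul γ x)
    rw [e]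
    exact nis_pt (nis 1 le_rfl (by omega))
  have hG := geoE_of_adm had hw hz
  rcases H368.SN.dicho_picE hpic (b := ι (bw w)) h₁ g₁ (mcovE hν hα) (mWE hν hα)
    (slowE hν hα) (escE hν hα hb) (escE' hν hα hb)
    (H43.N.lu1_cn h₁ (locE hν hα) g₁.fin (escE hν hα hb))
    (H43.N.lu1_cn h₁ (locE hν hα) g₁.fin (escE' hν hα hb))
    (pos_of_om hν hα hΛ hgs pos) (pos_of_om hν hα hΛ hgs pos') (symE hν hα) hC nis₁
    hG.moore hG.moore' hG.cl with ⟨k1, k2⟩ | ⟨k1, k2⟩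
  · have ec : (fun γ => ct (ct (q γ))) = q := funext fun γ => H859.TgN.ct_ct (q γ)
    refine ⟨fun γ => ct (q γ), Or.inr rfl, ?_⟩
    refine leg_case (Br := Br) hν hα hΛ had hw hz hT.dual hB₂ (by rw [ec]; exact hB₁) nrm hgap
      nis' k2 ?_
    rw [ec]
    exact k1
  · exact ⟨q, Or.inl rfl, leg_case (Br := Br) hν hα hΛ had hw hz hT hB₁ hB₂ nrm hgap nis k2 k1⟩

end leg

end Vale.Agent.P092.H859.ExN
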