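import Vale.Agent.P092.H859.SXN

/-!
P092 (helper859), Team N with two fields (`SX`), block [SX-EX], `t = 1`: the first leg with the
fields `ms, uc, orb, orb', size, size'` (`H725.SN.LegB2`) as an input, for source groups without
`LeviGap` (for example `PGL_n(k)`, `char k ∣ n`).
-/

set_option linter.all false

open scoped InnerProductSpace ENNReal LinearAlgebra.Projectivization
open Filter Topology ContinuousLinearMap MeasureTheory TopologicalSpace

namespace Vale.Agent.P092.H859.SXN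

open Vale.Agent.P092.H160 Vale.Agent.P092.SR
open Vale.Agent.P092.H859.CL (Full pw st)
open Vale.Agent.P092.H859.TgN
open Vale.Agent.P092.H859.ExN (PosO pos_of_om)
open Vale.Agent.P092.H859.SXT
open Vale.Agent.P092.RC (Cm TRN Moore GG PG YY y0 ct KK pic lam₁ lam₂ XX Om)
open Vale.Agent.P092.SN (CY CG nm NW Att act PH UD NWA Adm bw un)
open Vale.Agent.P092.H100.Gr (Gr)
open Vale.Agent.P092.H76.Pur (NIS)
open Vale.Agent.P092.H368.SN (Cz)
open Vale.Agent.P092.H805.Row (mpE JE)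
open Vale.Agent.P092.H805.RowN
open Vale.Agent.P092.H725.SN (LegB2)

section leg

variable {kS k : Type} [NontriviallyNormedField kS] [ProperSpace kS] [NontriviallyNormedField k]
  [ProperSpace k] {N : ℕ}
  {E : Type} [Group E] [TopologicalSpace E] [IsTopologicalGroup E] [LocallyCompactSpace E]
  [SecondCountableTopology E] [T2Space E] [MeasurableSpace E] [BorelSpace E]
  {Γ : Subgroup E} [DiscreteTopology Γ] [Countable Γ] [MeasurableSpace (E ⧸ Γ)]
  [BorelSpace (E ⧸ Γ)] {ν : Measure (E ⧸ Γ)} [IsProbabilityMeasure ν]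
  (hν : ∀ g : E, ν.map (fun x => g • x) = ν)
  {Λ : Type} [Group Λ] [Countable Λ] {α : Γ →* (Ell2 Λ →L[ℂ] Ell2 Λ)} (hα : Frame α)
  {ι : GG kS N →* E} {a a' : E →* PG kS (N + 1)} {w : kSˣ} {q : Γ → GG k N} {ρ : Γ → ℝ}
  {Br : ℝ → Set Γ}

/-- **The first leg with two fields**, of one of the two types; `LegB2` as an input. -/
theorem sx_leg_firstB [NoncompactSpace E] [MeasurableSpace kS] {μ : Measure kS}
    (hΛ : ∀ g : Λ, g ≠ 1 → Set.Infinite {y : Λ | ∃ h, y = h * g * h⁻¹})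
    (had : Adm ι a a') (hw : ‖(w : kS)‖ < 1) (hz : Cz w ι a a') (hT : Tg q ρ)
    (hB₁ : ∀ r, ∃ r', CL.BB (g1 q) (g2 q ρ) r' ⊆ Br r)
    (hB₂ : ∀ r, ∃ r', CL.BB (g1 fun γ => ct (q γ)) (g2 (fun γ => ct (q γ)) ρ) r' ⊆ Br r)
    (nrm : ∀ ε : ℝ, 0 < ε → ∃ r, ∀ u ∈ Subgroup.zpowers (ι (bw w)), msE hν hα u (Br r) ≤ ε)
    (hL : ∀ q' : Γ → GG k N, PH q' → LegB2 μ w ι (pic hν hα) (lam₁ ν α)
      (XX ν Λ ∪ Set.range (lam₂ ν α)) (Om ν Λ) (H103.mS₁ ν hα) q')
    (nis : ∀ j, 1 ≤ j → j ≤ N → NIS fun (γ : Γ) (x : Gr k (Fin (N + 1)) j) => q γ • x)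
    (nis' : ∀ j, 1 ≤ j → j ≤ N → NIS fun (γ : Γ) (x : Gr k (Fin (N + 1)) j) => ct (q γ) • x)
    (pos : PosO hν hα (g2 q ρ) (g2 (fun γ => ct (q γ)) ρ) (ι (bw w)))
    (pos' : PosO hν hα (g2 q ρ) (g2 (fun γ => ct (q γ)) ρ) (ι (bw w))⁻¹) :
    ∃ q' : Γ → GG k N, (q' = q ∨ q' = fun γ => ct (q γ)) ∧
      ∃ Ec F : YY kS N → (CY k N →⋆ₐ[ℂ] (KK ν Λ →L[ℂ] KK ν Λ)),
      SX.LegN μ w ι a a' (pic hν hα) (lam₁ ν α) (XX ν Λ ∪ Set.range (lam₂ ν α)) (Om ν Λ)
        (H103.mS₁ ν hα) q' (ZZ ρ) Ec F := by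
  have hN := had.hN
  have hI := inp_frame hν hα hΛ had hw hz hT hB₁ hB₂ nrm nis nis'
  have hgs : ∀ s : Γ, ∃ C, ∀ x, |g2 q ρ (s * x) - g2 q ρ x| ≤ C ∧
      |g2 (fun γ => ct (q γ)) ρ (s * x) - g2 (fun γ => ct (q γ)) ρ x| ≤ C := fun s => by
    obtain ⟨C, hC⟩ := hT.gap2 hN s 1
    obtain ⟨C', hC'⟩ := hT.dual.gap2 hN s 1
    refine ⟨max C C', fun x => ⟨?_, ?_⟩⟩
    · have := (hC x).2
      rw [mul_one] at this
      exact this.trans (le_max_left _ _)
    · have := (hC' x).2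
      rw [mul_one] at this
      exact this.trans (le_max_right _ _)
  obtain ⟨q', hq', Ec, F, ho⟩ := hI.first (pos_of_om hν hα hΛ hgs pos)
    (pos_of_om hν hα hΛ hgs pos')
  refine ⟨q', hq', Ec, F, ?_⟩
  have hT' : Tg q' ρ := by
    rcases hq' with rfl | rfl
    · exact hT
    · exact hT.dual
  have hL := hL q' hT'.sn_ph
  have nis'' : ∀ j, 1 ≤ j → j ≤ N → NIS fun (γ : Γ) (x : Gr k (Fin (N + 1)) j) => q' γ • x := by
    rcases hq' with rfl | rfl
    · exact nis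
    · exact nis'
  rw [st_eq] at ho
  exact
    { adm := had
      hw := hw
      pic := picX_of (picE hν hα hΛ)
      ms := hL.ms
      uc := hL.uc
      ph := hT'.sn_ph
      zm := zz_mono ρ
      ud := fun R => hT'.ud R
      orb := hL.orb
      orb' := hL.orb'
      size := hL.size
      size' := hL.size'
      nws := ho.nws ()
      nws' := ho.nws' ()
      e := ho.e
      f := ho.f
      nis := nis'' }

end leg

end Vale.Agent.P092.H859.SXN
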