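import Vale.Agent.P092.H859.ExB

/-!
P092 (helper859), Team N: the positions (`PosO`) for `N = 2`: the two gaps are both large, so there
is no mass. Any local field.
-/

set_option linter.all false

open scoped InnerProductSpace ENNReal LinearAlgebra.Projectivization
open Filter Topology ContinuousLinearMap MeasureTheory TopologicalSpace

namespace Vale.Agent.P092.H859.ExB

open Vale.Agent.P092.H160 Vale.Agent.P092.SR
open Vale.Agent.P092.H859.TgN
open Vale.Agent.P092.H859.ExN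
open Vale.Agent.P092.H337.NG (en m2 mi en_nonneg m2_nonneg entry_le mi_le en_le_of m2_le_of SLn)
open Vale.Agent.P092.RC (Cm TRN Moore GG PG YY y0 ct KK pic lam₁ lam₂ XX Om)
open Vale.Agent.P092.SN (CY CG nm NW Att act PH UD NWA NWS EFam Adm bw un LegN ExStmt)
open Vale.Agent.P092.H35 (sp)
open Vale.Agent.P092.H805.Row (mpE JE)
open Vale.Agent.P092.H805.RowN

section minor

variable {k : Type*} [NormedField k]

theorem pair_third : ∀ i i' : Fin 3, i ≠ i' → ∃ p : Fin 3,
    (i = p.succAbove 0 ∧ i' = p.succAbove 1) ∨ (i = p.succAbove 1 ∧ i' = p.succAbove 0) := by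
  decide

theorem mi_swap_row {n : ℕ} (A : Matrix (Fin n) (Fin n) k) (i i' j j' : Fin n) :
    mi A i' i j j' = - mi A i i' j j' := by
  unfold mi; ring

theorem mi_swap_col {n : ℕ} (A : Matrix (Fin n) (Fin n) k) (i i' j j' : Fin n) :
    mi A i i' j' j = - mi A i i' j j' := by
  unfold mi; ring

theorem mi_adj (g : SLn k 3) (p q : Fin 3) :
    ‖mi g.1 (p.succAbove 0) (p.succAbove 1) (q.succAbove 0) (q.succAbove 1)‖ ≤ en (g⁻¹).1 := by
  have e1 : (g⁻¹).1 q p = (-1) ^ (p + q : ℕ) * (g.1.submatrix p.succAbove q.succAbove).det := by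
    rw [← Matrix.adjugate_fin_succ_eq_det_submatrix]
    rfl
  have e2 : (g.1.submatrix p.succAbove q.succAbove).det =
      mi g.1 (p.succAbove 0) (p.succAbove 1) (q.succAbove 0) (q.succAbove 1) := by
    rw [Matrix.det_fin_two, mi]
    simp only [Matrix.submatrix_apply]
    ring
  have h1 := entry_le (g⁻¹).1 q p
  rw [e1, e2, norm_mul, norm_pow, norm_neg, norm_one, one_pow, one_mul] at h1
  exact h1

/-- the minors of a `3 × 3` matrix are the entries of its inverse -/
theorem m2_le_inv (g : SLn k 3) : m2 g.1 ≤ en (g⁻¹).1 := by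
  refine m2_le_of (en_nonneg _) fun i i' j j' => ?_
  by_cases hi : i = i'
  · subst hi
    have : mi g.1 i i j j' = 0 := by unfold mi; ring
    rw [this, norm_zero]
    exact en_nonneg _
  by_cases hj : j = j'
  · subst hj
    have : mi g.1 i i' j j = 0 := by unfold mi; ring
    rw [this, norm_zero]
    exact en_nonneg _
  obtain ⟨p, hp⟩ := pair_third i i' hi
  obtain ⟨q, hq⟩ := pair_third j j' hj
  have h1 := mi_adj g p q
  rcases hp with ⟨rfl, rfl⟩ | ⟨rfl, rfl⟩ <;> rcases hq with ⟨rfl, rfl⟩ | ⟨rfl, rfl⟩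
  · exact h1
  · rw [mi_swap_col, norm_neg]; exact h1
  · rw [mi_swap_row, norm_neg]; exact h1
  · rw [mi_swap_row, mi_swap_col, neg_neg]; exact h1

theorem G2_inv_le (g : SLn k 3) : H337.NG.G2 g⁻¹ ≤ H337.NG.G1 g := by
  have h1 := m2_le_inv g
  have h3 : 0 < m2 g.1 := H337.NG.m2_pos (by omega) g
  have h6 := Real.log_le_log h3 h1
  unfold H337.NG.G1 H337.NG.G2
  rw [inv_inv]
  push_cast
  linarith

end minor

section ex

variable {k : Type} [NontriviallyNormedField k] [ProperSpace k] {N : ℕ}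
  {E : Type} [Group E] [TopologicalSpace E] [IsTopologicalGroup E] [LocallyCompactSpace E]
  [SecondCountableTopology E] [T2Space E] [MeasurableSpace E] [BorelSpace E]
  {Γ : Subgroup E} [DiscreteTopology Γ] [Countable Γ] [MeasurableSpace (E ⧸ Γ)]
  [BorelSpace (E ⧸ Γ)] {ν : Measure (E ⧸ Γ)} [IsProbabilityMeasure ν]
  (hν : ∀ g : E, ν.map (fun x => g • x) = ν)
  {Λ : Type} [Group Λ] [Countable Λ] {α : Γ →* (Ell2 Λ →L[ℂ] Ell2 Λ)} (hα : Frame α)
  {ι : GG k N →* E} {a a' : E →* PG k (N + 1)} {w : kˣ} {q : Γ → GG k N}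

/-- The positions for `N = 2`: two gaps, both large. -/
theorem pos_two (hk : H933.LocK k) (had : Adm ι a a') (hw : ‖(w : k)‖ < 1) (hN : N = 2)
    (hq : PH q) (hf : ∀ C : ℝ, {γ : Γ | nm (q γ) ≤ C}.Finite) {u : E}
    (hu : u ∈ Subgroup.zpowers (ι (bw w))) :
    PosO hν hα (g2 q fun _ => 0) (g2 (fun γ => ct (q γ)) fun _ => 0) u := by
  subst hN
  obtain ⟨Br, -, -, hB₁, -, nrm⟩ := H776.NG.exists_regular_one hν hα hk (by omega) ι a had.cι
    had.ca had.comp hw q hq hf
  have h₁ := sysNE hν hα (A := Subgroup.zpowers (ι (bw w))) ((tg_zero hq hf).gap2 le_rfl) hB₁ nrm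
  intro ε hε
  obtain ⟨r, hr⟩ := h₁.sys.nrv' (Om ν Λ) hε
  refine ⟨max r 0, Eventually.of_forall fun i => ?_⟩
  have h2 := hr (u ^ i) (Subgroup.pow_mem _ hu i)
  rw [st_eq] at h2
  refine (H790.CT.ms_mono (H103.ms₁ hα) ?_ _).trans h2
  intro γ hγ
  obtain ⟨h3, h4⟩ := hγ
  have h5 : max r 0 < H337.NG.G2 (ct (q γ)) := by
    rcases lt_max_iff.1 h4 with h | h
    · exact h
    · exact absurd h (not_lt.2 (le_max_right _ _))
  have h6 : H337.NG.G2 (ct (q γ)) = H337.NG.G2 (q γ)⁻¹ := H337.NG.G2_ta (q γ)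
  rw [h6] at h5
  refine ⟨?_, (le_max_left _ _).trans_lt h3⟩
  exact (le_max_left _ _).trans_lt (h5.trans_le (G2_inv_le (q γ)))

end ex

end Vale.Agent.P092.H859.ExB
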