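import Vale.Agent.P092.H859.Ops

/-!
P092 (helper859): from asymptotically covariant families of operators to invariant means.
-/

set_option linter.all false

open scoped InnerProductSpace
open Filter Topology ContinuousLinearMap

namespace Vale.Agent.P092.H859

open Vale.Agent.P092.H160 Vale.Agent.P092.H553

variable {Γ Λ : Type} [Group Γ] [Group Λ] {V : Λ →* (Ell2 Γ →L[ℂ] Ell2 Γ)}

/-- Families of operators with finitely many members, of row norm at most one. -/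
structure Fam (B : ℕ → Finset Γ) (P : ℕ → Γ → (Ell2 Γ →L[ℂ] Ell2 Γ)) : Prop where
  off : ∀ n, ∀ b, b ∉ B n → P n b = 0
  bdd : ∀ n (ξ : Ell2 Γ), ∑ b ∈ B n, ‖P n b ξ‖ ^ 2 ≤ ‖ξ‖ ^ 2

open Classical in
/-- The index set for the translation by `s`. -/
noncomputable def BB (B : Finset Γ) (s : Γ) : Finset Γ := B ∪ B.image (fun b => s⁻¹ * b)

theorem mem_BB_left {B : Finset Γ} {s b : Γ} (h : b ∈ B) : b ∈ BB B s := by
  classical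
  rw [BB, Finset.mem_union]; exact Or.inl h

theorem mem_BB_right {B : Finset Γ} {s b : Γ} (h : s * b ∈ B) : b ∈ BB B s := by
  classical
  rw [BB, Finset.mem_union, Finset.mem_image]
  exact Or.inr ⟨s * b, h, inv_mul_cancel_left _ _⟩

/-- Sums over `B` as sums over `BB B s`. -/
theorem sum_BB_left {M : Type} [AddCommMonoid M] {B : Finset Γ} (s : Γ) (f : Γ → M)
    (hf : ∀ b, b ∉ B → f b = 0) : ∑ b ∈ BB B s, f b = ∑ b ∈ B, f b :=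
  (Finset.sum_subset (fun b hb => mem_BB_left hb) (fun b _ hb => hf b hb)).symm

theorem sum_BB_right {M : Type} [AddCommMonoid M] {B : Finset Γ} (s : Γ) (f : Γ → M)
    (hf : ∀ b, b ∉ B → f b = 0) : ∑ b ∈ BB B s, f (s * b) = ∑ b ∈ B, f b := by
  classical
  have h1 : ∑ b ∈ BB B s, f (s * b) = ∑ b ∈ (BB B s).image (fun b => s * b), f b := by
    rw [Finset.sum_image (fun x _ y _ h => mul_left_cancel h)]
  rw [h1]
  refine (Finset.sum_subset (fun b hb => ?_) (fun b _ hb => hf b hb)).symm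
  rw [Finset.mem_image]
  exact ⟨s⁻¹ * b, mem_BB_right (by rwa [mul_inv_cancel_left]), mul_inv_cancel_left _ _⟩

/-- Asymptotic left covariance. -/
def Cov (U : Ultrafilter ℕ) (B : ℕ → Finset Γ) (P : ℕ → Γ → (Ell2 Γ →L[ℂ] Ell2 Γ)) : Prop :=
  ∀ (s : Γ) (ξ : Ell2 Γ), Tendsto (fun n => ∑ b ∈ BB (B n) s,
    ‖P n (s * b) ξ - lam s (P n b (lam s⁻¹ ξ))‖ ^ 2) U (𝓝 0)

theorem Fam.bdd_BB {B : ℕ → Finset Γ} {P : ℕ → Γ → (Ell2 Γ →L[ℂ] Ell2 Γ)} (hP : Fam B P) (s : Γ)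
    (n : ℕ) (ξ : Ell2 Γ) : ∑ b ∈ BB (B n) s, ‖P n b ξ‖ ^ 2 ≤ ‖ξ‖ ^ 2 := by
  rw [sum_BB_left s (fun b => ‖P n b ξ‖ ^ 2) (fun b hb => by rw [hP.off n b hb]; simp)]
  exact hP.bdd n ξ

theorem Fam.bdd_BB' {B : ℕ → Finset Γ} {P : ℕ → Γ → (Ell2 Γ →L[ℂ] Ell2 Γ)} (hP : Fam B P) (s : Γ)
    (n : ℕ) (ξ : Ell2 Γ) : ∑ b ∈ BB (B n) s, ‖P n (s * b) ξ‖ ^ 2 ≤ ‖ξ‖ ^ 2 := by
  rw [sum_BB_right s (fun b => ‖P n b ξ‖ ^ 2) (fun b hb => by rw [hP.off n b hb]; simp)]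
  exact hP.bdd n ξ

theorem mem_closure_dl (ξ : Ell2 Γ) {ε : ℝ} (hε : 0 < ε) : ∃ (s : Finset Γ) (c : Γ → ℂ),
    ‖ξ - ∑ g ∈ s, c g • (dl g : Ell2 Γ)‖ < ε := by
  obtain ⟨s, hs⟩ := ((hasSum_dl ξ).eventually (Metric.ball_mem_nhds _ hε)).exists
  refine ⟨s, fun g => ξ g, ?_⟩
  rw [← dist_eq_norm, dist_comm]
  exact hs

theorem sum_sq_comb (C : Finset Γ) (Q : Γ → (Ell2 Γ →L[ℂ] Ell2 Γ)) (s : Finset Γ) (c : Γ → ℂ) :
    ∑ b ∈ C, ‖Q b (∑ g ∈ s, c g • (dl g : Ell2 Γ))‖ ^ 2 ≤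
      s.card * ∑ g ∈ s, ‖c g‖ ^ 2 * ∑ b ∈ C, ‖Q b (dl g)‖ ^ 2 := by
  have h1 : ∀ b ∈ C, ‖Q b (∑ g ∈ s, c g • (dl g : Ell2 Γ))‖ ^ 2 ≤
      s.card * ∑ g ∈ s, ‖c g‖ ^ 2 * ‖Q b (dl g)‖ ^ 2 := by
    intro b _
    rw [map_sum]
    have h2 : ‖∑ g ∈ s, Q b (c g • (dl g : Ell2 Γ))‖ ≤ ∑ g ∈ s, ‖c g‖ * ‖Q b (dl g)‖ := by
      refine (norm_sum_le _ _).trans (Finset.sum_le_sum fun g _ => ?_)
      rw [map_smul, norm_smul]
    calc _ ≤ (∑ g ∈ s, ‖c g‖ * ‖Q b (dl g)‖) ^ 2 := by gcongr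
      _ ≤ s.card * ∑ g ∈ s, (‖c g‖ * ‖Q b (dl g)‖) ^ 2 := sq_sum_le_card_mul_sum_sq
      _ = _ := by simp only [mul_pow]
  refine (Finset.sum_le_sum h1).trans (le_of_eq ?_)
  rw [← Finset.mul_sum, Finset.sum_comm]
  congr 1
  refine Finset.sum_congr rfl fun g _ => ?_
  rw [← Finset.mul_sum]

/-- It is enough to check the asymptotic covariance on the basis vectors. -/
theorem cov_of_dl {U : Ultrafilter ℕ} {B : ℕ → Finset Γ} {P : ℕ → Γ → (Ell2 Γ →L[ℂ] Ell2 Γ)}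
    (hP : Fam B P) (h : ∀ s g : Γ, Tendsto (fun n => ∑ b ∈ BB (B n) s,
      ‖P n (s * b) (dl g) - lam s (P n b (lam s⁻¹ (dl g)))‖ ^ 2) U (𝓝 0)) : Cov U B P := by
  intro s ξ
  obtain ⟨Q, hQ⟩ : ∃ Q : ℕ → Γ → (Ell2 Γ →L[ℂ] Ell2 Γ), Q = fun n b =>
    P n (s * b) - (lam s).comp ((P n b).comp (lam s⁻¹)) := ⟨_, rfl⟩
  have hQa : ∀ n b ξ, Q n b ξ = P n (s * b) ξ - lam s (P n b (lam s⁻¹ ξ)) := by
    intro n b ξ; rw [hQ]; rfl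
  have hQb : ∀ n ξ, ∑ b ∈ BB (B n) s, ‖Q n b ξ‖ ^ 2 ≤ 4 * ‖ξ‖ ^ 2 := by
    intro n ξ
    have h1 : ∀ b ∈ BB (B n) s, ‖Q n b ξ‖ ^ 2 ≤
        2 * ‖P n (s * b) ξ‖ ^ 2 + 2 * ‖P n b (lam s⁻¹ ξ)‖ ^ 2 := by
      intro b _
      rw [hQa, sub_eq_add_neg]
      refine (sq_add_le _ _).trans ?_
      rw [norm_neg, norm_lam]
    refine (Finset.sum_le_sum h1).trans ?_
    rw [Finset.sum_add_distrib, ← Finset.mul_sum, ← Finset.mul_sum]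
    have h2 := hP.bdd_BB' s n ξ
    have h3 := hP.bdd_BB s n (lam s⁻¹ ξ)
    rw [norm_lam] at h3
    linarith
  have h' : ∀ g : Γ, Tendsto (fun n => ∑ b ∈ BB (B n) s, ‖Q n b (dl g)‖ ^ 2) U (𝓝 0) := by
    intro g
    refine (h s g).congr fun n => ?_
    exact Finset.sum_congr rfl fun b _ => by rw [hQa]
  suffices hs : Tendsto (fun n => ∑ b ∈ BB (B n) s, ‖Q n b ξ‖ ^ 2) U (𝓝 0) by
    refine hs.congr fun n => ?_
    exact Finset.sum_congr rfl fun b _ => by rw [hQa]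
  rw [Metric.tendsto_nhds]
  intro ε hε
  obtain ⟨δ, hδ0, hδ⟩ : ∃ δ : ℝ, 0 < δ ∧ 8 * δ ^ 2 < ε / 2 := by
    refine ⟨min 1 (ε / 32), by positivity, ?_⟩
    have h1 : min 1 (ε / 32) ≤ 1 := min_le_left _ _
    have h2 : min 1 (ε / 32) ≤ ε / 32 := min_le_right _ _
    have h3 : 0 < min 1 (ε / 32) := by positivity
    nlinarith
  obtain ⟨t, c, htc⟩ := mem_closure_dl ξ hδ0
  obtain ⟨η, hη⟩ : ∃ η : Ell2 Γ, η = ∑ g ∈ t, c g • (dl g : Ell2 Γ) := ⟨_, rfl⟩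
  rw [← hη] at htc
  have hlim : Tendsto (fun n => 2 * (t.card * ∑ g ∈ t, ‖c g‖ ^ 2 *
      ∑ b ∈ BB (B n) s, ‖Q n b (dl g)‖ ^ 2)) U (𝓝 0) := by
    have h1 : Tendsto (fun n => ∑ g ∈ t, ‖c g‖ ^ 2 * ∑ b ∈ BB (B n) s, ‖Q n b (dl g)‖ ^ 2) U
        (𝓝 (∑ g ∈ t, ‖c g‖ ^ 2 * 0)) :=
      tendsto_finsetSum t fun g _ => (h' g).const_mul _
    have h2 := (h1.const_mul (t.card : ℝ)).const_mul 2
    simpa using h2
  filter_upwards [(Metric.tendsto_nhds.mp hlim) (ε / 2) (by positivity)] with n hn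
  rw [dist_zero_right] at hn ⊢
  have hnn : 0 ≤ ∑ b ∈ BB (B n) s, ‖Q n b ξ‖ ^ 2 := Finset.sum_nonneg fun b _ => by positivity
  rw [Real.norm_of_nonneg hnn]
  have h1 : ∑ b ∈ BB (B n) s, ‖Q n b ξ‖ ^ 2 ≤
      2 * ∑ b ∈ BB (B n) s, ‖Q n b (ξ - η)‖ ^ 2 + 2 * ∑ b ∈ BB (B n) s, ‖Q n b η‖ ^ 2 := by
    rw [Finset.mul_sum, Finset.mul_sum, ← Finset.sum_add_distrib]
    refine Finset.sum_le_sum fun b _ => ?_
    have := sq_add_le (Q n b (ξ - η)) (Q n b η)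
    rwa [← map_add, sub_add_cancel] at this
  have h2 := hQb n (ξ - η)
  have h3 := sum_sq_comb (BB (B n) s) (Q n) t c
  rw [← hη] at h3
  have h4 : ‖ξ - η‖ ^ 2 ≤ δ ^ 2 := by
    have := norm_nonneg (ξ - η)
    gcongr
  have h5 := le_abs_self (2 * (t.card * ∑ g ∈ t, ‖c g‖ ^ 2 *
      ∑ b ∈ BB (B n) s, ‖Q n b (dl g)‖ ^ 2))
  rw [Real.norm_eq_abs] at hn
  linarith

section inv

variable (hV : Frame V)

include hV

theorem inv_limit {U : Ultrafilter ℕ} {B : ℕ → Finset Γ} {P : ℕ → Γ → (Ell2 Γ →L[ℂ] Ell2 Γ)}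
    (hP : Fam B P) (hc : Cov U B P) (A : Set Λ) (u : Λ) :
    ul U (fun n => ∑ b ∈ B n, ‖eA hV A (lam b⁻¹ (P n b (V u (dl 1))))‖ ^ 2) =
      ul U (fun n => ∑ b ∈ B n, ‖eA hV A (lam b⁻¹ (P n b (dl 1)))‖ ^ 2) := by
  obtain ⟨X, hX⟩ : ∃ X : ℕ → Γ → (Ell2 Γ →L[ℂ] Ell2 Λ), X = fun n b =>
    (opA hV A).comp ((lam b⁻¹).comp (P n b)) := ⟨_, rfl⟩
  have hXa : ∀ n b ξ, X n b ξ = eA hV A (lam b⁻¹ (P n b ξ)) := by
    intro n b ξ; rw [hX]; rfl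
  have hXle : ∀ n b ξ, ‖X n b ξ‖ ≤ ‖P n b ξ‖ := by
    intro n b ξ
    rw [hXa]
    refine (norm_eA_le hV A _).trans ?_
    rw [norm_lam]
  have hXb : ∀ n ξ, ∑ b ∈ B n, ‖X n b ξ‖ ^ 2 ≤ ‖ξ‖ ^ 2 := by
    intro n ξ
    refine le_trans (Finset.sum_le_sum fun b _ => ?_) (hP.bdd n ξ)
    have := hXle n b ξ
    have := norm_nonneg (X n b ξ)
    gcongr
  obtain ⟨T, hT⟩ : ∃ T : ℕ → (Ell2 Γ →L[ℂ] Ell2 Γ), T = fun n =>
    ∑ b ∈ B n, (adjoint (X n b)).comp (X n b) := ⟨_, rfl⟩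
  have hTi : ∀ n ζ ξ, ⟪ζ, T n ξ⟫_ℂ = ∑ b ∈ B n, ⟪X n b ζ, X n b ξ⟫_ℂ := by
    intro n ζ ξ
    rw [hT]
    simp only [ContinuousLinearMap.sum_apply, inner_sum]
    refine Finset.sum_congr rfl fun b _ => ?_
    rw [comp_apply, adjoint_inner_right]
  have hTb : ∀ n, ‖T n‖ ≤ 1 := by
    intro n
    refine ContinuousLinearMap.opNorm_le_bound _ zero_le_one fun ξ => ?_
    rw [one_mul]
    have h1 : ‖⟪T n ξ, T n ξ⟫_ℂ‖ ≤ ‖T n ξ‖ * ‖ξ‖ := by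
      rw [hTi]
      refine (sum_inner_le _ _ _).trans ?_
      have a1 : Real.sqrt (∑ b ∈ B n, ‖X n b (T n ξ)‖ ^ 2) ≤ ‖T n ξ‖ :=
        Real.sqrt_le_iff.mpr ⟨norm_nonneg _, hXb n _⟩
      have a2 : Real.sqrt (∑ b ∈ B n, ‖X n b ξ‖ ^ 2) ≤ ‖ξ‖ :=
        Real.sqrt_le_iff.mpr ⟨norm_nonneg _, hXb n _⟩
      gcongr
    rw [inner_self_eq_norm_sq_to_K] at h1
    have h2 : ‖((‖T n ξ‖ : ℂ)) ^ 2‖ = ‖T n ξ‖ ^ 2 := by
      rw [norm_pow, Complex.norm_real, norm_norm]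
    have h3 : ‖T n ξ‖ ^ 2 ≤ ‖T n ξ‖ * ‖ξ‖ := by
      rw [← h2]; exact h1
    by_cases h0 : ‖T n ξ‖ = 0
    · rw [h0]; exact norm_nonneg _
    · have hpos : 0 < ‖T n ξ‖ := lt_of_le_of_ne (norm_nonneg _) (Ne.symm h0)
      nlinarith
  obtain ⟨L, hL⟩ : ∃ L, L = wl U T := ⟨_, rfl⟩
  have hLs : ∀ ζ ξ, Tendsto (fun n => ⟪ζ, T n ξ⟫_ℂ) U (𝓝 ⟪ζ, L ξ⟫_ℂ) := by
    intro ζ ξ; rw [hL]; exact wl_spec U hTb ζ ξ
  -- the limit commutes with the left translations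
  have hcomm : Cmm lamH L := by
    intro s
    refine op_ext_inner fun ζ ξ => ?_
    change ⟪ζ, L (lam s ξ)⟫_ℂ = ⟪ζ, lam s (L ξ)⟫_ℂ
    have e1 : ⟪ζ, lam s (L ξ)⟫_ℂ = ⟪lam s⁻¹ ζ, L ξ⟫_ℂ := by
      rw [← adjoint_lam, adjoint_inner_left]
    rw [e1]
    refine sub_eq_zero.mp (tendsto_nhds_unique ((hLs ζ (lam s ξ)).sub (hLs (lam s⁻¹ ζ) ξ)) ?_)
    obtain ⟨d, hd⟩ : ∃ d : Ell2 Γ → ℕ → ℝ, d = fun η n => ∑ b ∈ BB (B n) s,
      ‖P n (s * b) η - lam s (P n b (lam s⁻¹ η))‖ ^ 2 := ⟨_, rfl⟩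
    have hdt : ∀ η, Tendsto (d η) U (𝓝 0) := by
      intro η; rw [hd]; exact hc s η
    have hd2 : ∀ η n, ∑ b ∈ BB (B n) s, ‖X n (s * b) η - X n b (lam s⁻¹ η)‖ ^ 2 ≤ d η n := by
      intro η n
      rw [hd]
      refine Finset.sum_le_sum fun b _ => ?_
      have h1 : ‖X n (s * b) η - X n b (lam s⁻¹ η)‖ ≤
          ‖P n (s * b) η - lam s (P n b (lam s⁻¹ η))‖ := by
        rw [hXa, hXa, ← eA_sub]
        refine (norm_eA_le hV A _).trans ?_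
        have e2 : lam (s * b)⁻¹ (P n (s * b) η) - lam b⁻¹ (P n b (lam s⁻¹ η)) =
            lam b⁻¹ (lam s⁻¹ (P n (s * b) η - lam s (P n b (lam s⁻¹ η)))) := by
          have e3 : ∀ ω : Ell2 Γ, lam s⁻¹ (lam s ω) = ω := fun ω => by
            rw [← lamH_apply, ← lamH_apply]; exact regRep_lam.inv_apply s ω
          rw [map_sub, e3, map_sub, mul_inv_rev]
          congr 1
          exact congrArg (fun T : Ell2 Γ →L[ℂ] Ell2 Γ => T (P n (s * b) η))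
            (map_mul (lamH (G := Γ)) b⁻¹ s⁻¹)
        rw [e2, norm_lam, norm_lam]
      have h2 := norm_nonneg (X n (s * b) η - X n b (lam s⁻¹ η))
      gcongr
    have hlim : Tendsto (fun n => Real.sqrt (d ζ n) * ‖ξ‖ + ‖ζ‖ * Real.sqrt (d (lam s ξ) n)) U
        (𝓝 0) := by
      have h1 := ((Real.continuous_sqrt.tendsto 0).comp (hdt ζ)).mul_const ‖ξ‖
      have h2 := ((Real.continuous_sqrt.tendsto 0).comp (hdt (lam s ξ))).const_mul ‖ζ‖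
      have h3 := h1.add h2
      rw [Real.sqrt_zero, zero_mul, mul_zero, add_zero] at h3
      exact h3
    refine squeeze_zero_norm (fun n => ?_) hlim
    have e4 : ⟪ζ, T n (lam s ξ)⟫_ℂ - ⟪lam s⁻¹ ζ, T n ξ⟫_ℂ =
        ∑ b ∈ BB (B n) s, ⟪X n (s * b) ζ - X n b (lam s⁻¹ ζ), X n (s * b) (lam s ξ)⟫_ℂ +
        ∑ b ∈ BB (B n) s, ⟪X n b (lam s⁻¹ ζ), X n (s * b) (lam s ξ) -
          X n b (lam s⁻¹ (lam s ξ))⟫_ℂ := by
      have e3 : lam s⁻¹ (lam s ξ) = ξ := by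
        rw [← lamH_apply, ← lamH_apply]; exact regRep_lam.inv_apply s ξ
      rw [hTi, hTi, ← sum_BB_right s (fun b => ⟪X n b ζ, X n b (lam s ξ)⟫_ℂ),
        ← sum_BB_left s (fun b => ⟪X n b (lam s⁻¹ ζ), X n b ξ⟫_ℂ), ← Finset.sum_sub_distrib,
        ← Finset.sum_add_distrib]
      · refine Finset.sum_congr rfl fun b _ => ?_
        rw [e3, inner_sub_left, inner_sub_right]
        ring
      · intro b hb
        have : X n b = 0 := by rw [hX]; simp only [hP.off n b hb, comp_zero]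
        rw [this]; simp
      · intro b hb
        have : X n b = 0 := by rw [hX]; simp only [hP.off n b hb, comp_zero]
        rw [this]; simp
    rw [e4]
    have b1 : Real.sqrt (∑ b ∈ BB (B n) s, ‖X n (s * b) (lam s ξ)‖ ^ 2) ≤ ‖ξ‖ := by
      refine Real.sqrt_le_iff.mpr ⟨norm_nonneg _, ?_⟩
      have h1 := hP.bdd_BB' s n (lam s ξ)
      rw [norm_lam] at h1
      refine le_trans (Finset.sum_le_sum fun b _ => ?_) h1
      have h2 := hXle n (s * b) (lam s ξ)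
      have h3 := norm_nonneg (X n (s * b) (lam s ξ))
      gcongr
    have b2 : Real.sqrt (∑ b ∈ BB (B n) s, ‖X n b (lam s⁻¹ ζ)‖ ^ 2) ≤ ‖ζ‖ := by
      refine Real.sqrt_le_iff.mpr ⟨norm_nonneg _, ?_⟩
      have h1 := hP.bdd_BB s n (lam s⁻¹ ζ)
      rw [norm_lam] at h1
      refine le_trans (Finset.sum_le_sum fun b _ => ?_) h1
      have h2 := hXle n b (lam s⁻¹ ζ)
      have h3 := norm_nonneg (X n b (lam s⁻¹ ζ))
      gcongr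
    refine (norm_add_le _ _).trans (add_le_add ?_ ?_)
    · refine (sum_inner_le _ _ _).trans ?_
      have h1 := Real.sqrt_le_sqrt (hd2 ζ n)
      gcongr
    · refine (sum_inner_le _ _ _).trans ?_
      have h1 := Real.sqrt_le_sqrt (hd2 (lam s ξ) n)
      gcongr
  -- hence with the frame
  have hVL : V u * L = L * V u := by
    have hc : ∀ g s : Γ, lamH g * rhoH s = rhoH s * lamH g := fun g s => (rho_lam s g).symm
    exact RegRep.commute regRep_lam regRep_rho hc (cmm_rho_V hV u) hcomm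
  have hVL' : ⟪V u (dl 1), L (V u (dl 1))⟫_ℂ = ⟪(dl 1 : Ell2 Γ), L (dl 1)⟫_ℂ := by
    have h1 : L (V u (dl 1)) = V u (L (dl 1)) :=
      (congrArg (fun T : Ell2 Γ →L[ℂ] Ell2 Γ => T (dl 1)) hVL).symm
    rw [h1, hV.reg.inner_map]
  have hre : ∀ ξ : Ell2 Γ, Tendsto (fun n => ∑ b ∈ B n, ‖eA hV A (lam b⁻¹ (P n b ξ))‖ ^ 2) U
      (𝓝 (⟪ξ, L ξ⟫_ℂ).re) := by
    intro ξ
    refine ((Complex.continuous_re.tendsto _).comp (hLs ξ ξ)).congr fun n => ?_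
    rw [Function.comp_apply, hTi, Complex.re_sum]
    refine Finset.sum_congr rfl fun b _ => ?_
    rw [inner_self_eq_norm_sq_to_K, hXa]
    norm_cast
  rw [ul_eq U (hre (V u (dl 1))), ul_eq U (hre (dl 1)), hVL']

end inv

end Vale.Agent.P092.H859
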