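import Vale.Agent.P092.H859.Final
import Vale.Agent.P092.H200.NCor

/-!
P092 (helper859): no isomorphism `L(Γ) → L(Λ)`, `Γ ≤ SL_3(ℤ)`, for `Λ` with two commuting
nonamenable subgroups.
-/

set_option linter.all false

namespace Vale.Agent.P092.H859

open Vale.Agent.P092.H160 Vale.Agent.P092.H200 Vale.Agent.P092.H553

/-- `Λ` has two commuting nonamenable subgroups, one of which has an infinite abelian subgroup. -/
def Pair (Λ : Type) [Group Λ] : Prop :=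
  ∃ K₀ K₁ A : Subgroup Λ, NoMean K₀ ∧ NoMean K₁ ∧ (∀ v ∈ K₀, ∀ w ∈ K₁, v * w = w * v) ∧
    Vertex A ∧ A ≤ K₁

theorem pair_of_split {Λ : Type} [Group Λ] (h : Split Λ) : Pair Λ := by
  obtain ⟨K₀, K₁, y, h0, h1, hc, hy, hy'⟩ := h
  exact ⟨K₀, K₁, Subgroup.zpowers y, h0, h1, hc, vertex_zpowers hy', by rwa [Subgroup.zpowers_le]⟩

theorem no_iso_of_pair (Γ : Subgroup G3)
    (hΓ : ∀ g : Γ, g ≠ 1 → Set.Infinite {y : Γ | ∃ h, y = h * g * h⁻¹})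
    (Λ : Type) [Group Λ] (h : Pair Λ) : IsEmpty (St.StarIso Γ Λ) := by
  refine ⟨fun θ => ?_⟩
  obtain ⟨V, hV⟩ := exists_frame hΓ (toAlg θ)
  obtain ⟨K₀, K₁, A, h0, h1, hc, hA, hAK⟩ := h
  exact h1 (mean_N Γ hV K₀ K₁ h0 hc A hA hAK)

end Vale.Agent.P092.H859
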