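import Vale.Agent.P092.H859.TConf
import Vale.Agent.P092.H714.TFar

/-!
P092 (helper859): confinement in the abstract row model, in the form of helper714.
-/

set_option linter.all false

open scoped InnerProductSpace
open Filter Topology ContinuousLinearMap

namespace Vale.Agent.P092.H859

open Vale.Agent.P092.H160 Vale.Agent.P092.H132
open Vale.Agent.P092.L.H553 (Emb)

variable {G3 : Type} [Group G3] [Emb G3] {ι H D : Type} [Group D] [Fintype ι]
  [NormedAddCommGroup H] [InnerProductSpace ℂ H] [CompleteSpace H] {Bs : Base G3 ι H} {t : ℝ}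
  {R : D → (H →L[ℂ] H)}

theorem confT (hR : TRep Bs t R) {E : Set D → (H →L[ℂ] H)} (hE : EFamT Bs R E)
    {K : Subgroup D} (hK : H200.NoMean K) :
    H714.ConfT Bs R (fun g : G3 => L.H553.G12 g) (fun g : G3 => L.H553.G23 g) K := by
  intro ε hε
  obtain ⟨r, hr⟩ := t_conf hR hE K hK hε
  refine ⟨r, fun w hw => le_trans (le_of_eq ?_) (hr w hw)⟩
  have e1 : (fun g : G3 => H553.ind (H714.RegA (fun g : G3 => L.H553.G12 g)
      (fun g : G3 => L.H553.G23 g) r) g) =
      fun g => H538.ind (fun g : G3 => L.H553.Reg r g) g *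
        H538.ind (fun g : G3 => L.H553.Reg r g) g := by
    funext g
    by_cases h : L.H553.Reg r g
    · rw [H538.ind_pos (P := fun g : G3 => L.H553.Reg r g) h, mul_one]
      exact H553.ind_pos (P := H714.RegA (fun g : G3 => L.H553.G12 g)
        (fun g : G3 => L.H553.G23 g) r) h
    · rw [H538.ind_neg (P := fun g : G3 => L.H553.Reg r g) h, mul_zero]
      exact H553.ind_neg (P := H714.RegA (fun g : G3 => L.H553.G12 g)
        (fun g : G3 => L.H553.G23 g) r) h
  have e2 : massX Bs R w (fun g : G3 => H553.ind (H714.RegA (fun g : G3 => L.H553.G12 g)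
      (fun g : G3 => L.H553.G23 g) r) g) =
      ∑ i : ι, ‖Bs.mp (H538.ind fun g : G3 => L.H553.Reg r g) (R w (Bs.ep i))‖ ^ 2 := by
    rw [e1, massX_sq Bs R w (H538.abs_ind_le _)]
  unfold H714.massT
  rw [← e2]

end Vale.Agent.P092.H859
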