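import Vale.Agent.P092.H242.TMean
import Vale.Agent.P092.H714.NGood

/-!
P092 (helper859): Theorem N in the abstract row model: assembly of the wall functions and the
operator families (port of `mean_of_goodA`).
-/

set_option linter.all false

open scoped InnerProductSpace
open Filter Topology ContinuousLinearMap

namespace Vale.Agent.P092.H859

open Vale.Agent.P092.H160 Vale.Agent.P092.H553 Vale.Agent.P092.H132 Vale.Agent.P092.H242
open Vale.Agent.P092.H714 (WallFun WallA Ufl)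

section good

variable {Γ ι H D : Type} [Group Γ] [Group D] [Fintype ι] [NormedAddCommGroup H]
  [InnerProductSpace ℂ H] [CompleteSpace H] {Bs : Base Γ ι H} {t : ℝ} {R : D → (H →L[ℂ] H)}
  {G12 G23 : Γ → ℝ} {FF : Set (Γ → ℝ)}

/-- A positive map with the properties of the limit. -/
structure GoodT (Bs : Base Γ ι H) (G12 G23 : Γ → ℝ) (FF : Set (Γ → ℝ)) (R : D → (H →L[ℂ] H))
    (K : Subgroup D) (PT : (Γ → ℝ) → (H →L[ℂ] H)) : Prop where
  one : PT (fun _ => 1) = R 1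
  sum : ∀ (s : Finset Γ) (F : Γ → Γ → ℝ) (C : ℝ), (∀ b g, |F b g| ≤ C) →
    PT (fun g => ∑ b ∈ s, F b g) = ∑ b ∈ s, PT (F b)
  lin : ∀ (c d : ℝ) (F G : Γ → ℝ) (C : ℝ), (∀ g, |F g| ≤ C) → (∀ g, |G g| ≤ C) →
    PT (fun g => c * F g + d * G g) = (c : ℂ) • PT F + (d : ℂ) • PT G
  mono : ∀ (F G : Γ → ℝ) (C D : ℝ), (∀ g, |F g| ≤ C) → (∀ g, |G g| ≤ D) → (∀ g, F g ≤ G g) →
    ∀ ξ : H, (⟪ξ, PT F ξ⟫_ℂ).re ≤ (⟪ξ, PT G ξ⟫_ℂ).re
  sym : ∀ (F : Γ → ℝ), (∀ g, |F g| ≤ 1) → ∀ ξ η : H, ⟪PT F ξ, η⟫_ℂ = ⟪ξ, PT F η⟫_ℂ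
  ks : ∀ (F : Γ → ℝ), (∀ g, |F g| ≤ 1) → ∀ ξ : H,
    ‖PT F ξ‖ ^ 2 ≤ (⟪ξ, PT (fun g => F g ^ 2) ξ⟫_ℂ).re
  cov : ∀ (F : Γ → ℝ), (∀ g, |F g| ≤ 1) → ∀ (s : Γ) (ξ : H),
    PT F (Bs.lx s ξ) = Bs.lx s (PT (fun g => F (s * g)) ξ)
  mul : ∀ (h f : Γ → ℝ), h ∈ FF → (∀ g, |f g| ≤ 1) → PT h * PT f = PT (fun g => f g * h g)
  comm : ∀ (h : Γ → ℝ), h ∈ FF → ∀ u ∈ K, PT h * R u = R u * PT h
  pone : ∀ (F : Γ → ℝ) (C : ℝ), (∀ g, |F g| ≤ C) → PT F * R 1 = PT F ∧ R 1 * PT F = PT F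
  sc : ∀ (F : Γ → ℝ) (C : ℝ), (∀ g, |F g| ≤ C) → ∀ a ∈ Bs.sc, PT F * a = a * PT F
  mass : ∀ (s : Γ), ∀ a ∈ Bs.sc, ∀ (i : ι) (ε : ℝ), 0 < ε →
    ∃ r0 : ℝ, ∀ r, r0 ≤ r → ∀ (M : ℝ), r ≤ M → ∀ u ∈ K,
    (⟪R u (Bs.lx s (a (Bs.ep i))), PT (ind fun h : Γ => ¬ WallA G12 G23 r M h)
      (R u (Bs.lx s (a (Bs.ep i))))⟫_ℂ).re ≤ ε

theorem ind_nonneg' {X : Type} (P : X → Prop) (x : X) : 0 ≤ H553.ind P x := by
  by_cases h : P x
  · rw [H553.ind_pos h]; exact zero_le_one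
  · rw [H553.ind_neg h]

/-- The mass outside of the wall is small at all vectors. -/
theorem GoodT.mass1 {K : Subgroup D} {PT : (Γ → ℝ) → (H →L[ℂ] H)} (hR : TRep Bs t R)
    (h : GoodT Bs G12 G23 FF R K PT) (ξ : H) {ε : ℝ} (hε : 0 < ε) :
    ∃ r0 : ℝ, ∀ r, r0 ≤ r → ∀ (M : ℝ), r ≤ M →
    (⟪ξ, PT (ind fun h : Γ => ¬ WallA G12 G23 r M h) ξ⟫_ℂ).re ≤ ε := by
  obtain ⟨Q, hQ⟩ : ∃ Q : ℝ → ℝ → (H →L[ℂ] H), Q = fun r M =>
    PT (ind fun h : Γ => ¬ WallA G12 G23 r M h) := ⟨_, rfl⟩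
  have hzero : ∀ ξ : H, (⟪ξ, PT (fun _ => (0 : ℝ)) ξ⟫_ℂ).re = 0 := by
    intro ξ
    have h1 := h.sum ∅ (fun _ _ => (0 : ℝ)) 1 (fun _ _ => by simp)
    simp only [Finset.sum_empty] at h1
    rw [h1, zero_apply, inner_zero_right, Complex.zero_re]
  have hQ0 : ∀ r M (ξ : H), 0 ≤ (⟪ξ, Q r M ξ⟫_ℂ).re := by
    intro r M ξ
    rw [hQ, ← hzero ξ]
    exact h.mono (fun _ => 0) _ 1 1 (fun _ => by simp) (abs_ind_le _)
      (fun g => ind_nonneg' _ g) ξ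
  have hQ1 : ∀ r M (ξ : H), (⟪ξ, Q r M ξ⟫_ℂ).re ≤ ‖ξ‖ ^ 2 := by
    intro r M ξ
    rw [hQ]
    refine (h.mono _ (fun _ => 1) 1 1 (abs_ind_le _) (fun _ => by simp)
      (fun g => (le_abs_self _).trans (abs_ind_le _ g)) ξ).trans ?_
    rw [h.one, hR.one_re]
    exact pow_le_pow_left₀ (norm_nonneg _) (hR.norm_one_le ξ) 2
  have hQadd : ∀ r M (ξ η : H), (⟪ξ + η, Q r M (ξ + η)⟫_ℂ).re ≤
      2 * (⟪ξ, Q r M ξ⟫_ℂ).re + 2 * (⟪η, Q r M η⟫_ℂ).re := by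
    intro r M ξ η
    have h1 := hQ0 r M (ξ - η)
    have h2 : (⟪ξ + η, Q r M (ξ + η)⟫_ℂ).re + (⟪ξ - η, Q r M (ξ - η)⟫_ℂ).re =
        2 * (⟪ξ, Q r M ξ⟫_ℂ).re + 2 * (⟪η, Q r M η⟫_ℂ).re := by
      rw [map_add, map_sub, inner_add_left, inner_add_right, inner_add_right, inner_sub_left,
        inner_sub_right, inner_sub_right]
      simp only [Complex.add_re, Complex.sub_re]
      ring
    linarith
  obtain ⟨N, hN⟩ : ∃ N : Submodule ℂ H, ∀ ξ, ξ ∈ N ↔ ∀ ε : ℝ, 0 < ε → ∃ r0 : ℝ, ∀ r, r0 ≤ r →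
      ∀ (M : ℝ), r ≤ M → (⟪ξ, Q r M ξ⟫_ℂ).re ≤ ε := by
    refine ⟨⟨⟨⟨{ξ | ∀ ε : ℝ, 0 < ε → ∃ r0 : ℝ, ∀ r, r0 ≤ r →
      ∀ (M : ℝ), r ≤ M → (⟪ξ, Q r M ξ⟫_ℂ).re ≤ ε}, ?_⟩, ?_⟩, ?_⟩, fun ξ => Iff.rfl⟩
    · intro ξ η hξ hη ε hε
      obtain ⟨r1, hr1⟩ := hξ (ε / 4) (by positivity)
      obtain ⟨r2, hr2⟩ := hη (ε / 4) (by positivity)
      refine ⟨max r1 r2, fun r hr M hM => (hQadd r M ξ η).trans ?_⟩
      have h1 := hr1 r ((le_max_left _ _).trans hr) M hM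
      have h2 := hr2 r ((le_max_right _ _).trans hr) M hM
      linarith
    · intro ε hε
      refine ⟨0, fun r _ M _ => ?_⟩
      rw [inner_zero_left, Complex.zero_re]
      exact hε.le
    · intro c ξ hξ ε hε
      obtain ⟨r1, hr1⟩ := hξ (ε / (‖c‖ ^ 2 + 1)) (by positivity)
      refine ⟨r1, fun r hr M hM => ?_⟩
      have h1 := hr1 r hr M hM
      have h2 : (⟪c • ξ, Q r M (c • ξ)⟫_ℂ).re = ‖c‖ ^ 2 * (⟪ξ, Q r M ξ⟫_ℂ).re := by
        rw [map_smul, inner_smul_left, inner_smul_right, ← mul_assoc,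
          ← Complex.normSq_eq_conj_mul_self, Complex.re_ofReal_mul, Complex.normSq_eq_norm_sq]
      rw [h2]
      rw [le_div_iff₀ (by positivity)] at h1
      have h3 := hQ0 r M ξ
      nlinarith
  have hspan : Submodule.span ℂ {ξ : H | ∃ s, ∃ a ∈ Bs.sc, ∃ i,
      ξ = Bs.lx s (a (Bs.ep i))} ≤ N := by
    rw [Submodule.span_le]
    rintro _ ⟨s, a, ha, i, rfl⟩
    refine (hN _).2 fun ε hε => ?_
    obtain ⟨r0, hr0⟩ := h.mass s a ha i ε hε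
    refine ⟨r0, fun r hr M hM => ?_⟩
    have h1 := hr0 r hr M hM 1 K.one_mem
    obtain ⟨p1, p2⟩ := h.pone (ind fun h : Γ => ¬ WallA G12 G23 r M h) 1 (abs_ind_le _)
    have q1 := congrArg (fun T : H →L[ℂ] H => T (Bs.lx s (a (Bs.ep i)))) p1
    have q2 := congrArg (fun T : H →L[ℂ] H => T (R 1 (Bs.lx s (a (Bs.ep i))))) p2
    simp only [mul_ap] at q1 q2
    rw [hR.inner_left, inv_one, q2, q1] at h1
    rw [hQ]
    exact h1
  obtain ⟨η, hη, hd⟩ := Metric.mem_closure_iff.mp (Bs.dense_span ξ) (min 1 (ε / 4))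
    (by positivity)
  obtain ⟨r0, hr0⟩ := (hN η).1 (hspan hη) (ε / 4) (by positivity)
  refine ⟨r0, fun r hr M hM => ?_⟩
  have h1 := hQadd r M (ξ - η) η
  rw [sub_add_cancel] at h1
  have h2 := hQ1 r M (ξ - η)
  have h3 := hr0 r hr M hM
  rw [dist_eq_norm] at hd
  have h4 : ‖ξ - η‖ ^ 2 ≤ ε / 4 := by
    have a1 : ‖ξ - η‖ ≤ 1 := hd.le.trans (min_le_left _ _)
    have a2 : ‖ξ - η‖ ≤ ε / 4 := hd.le.trans (min_le_right _ _)
    have a3 := norm_nonneg (ξ - η)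
    nlinarith
  rw [hQ] at h1 h2 h3
  simp only at h1 h2 h3 ⊢
  linarith

theorem mean_of_goodT [Countable Γ] (hR : TRep Bs t R) {E : Set D → (H →L[ℂ] H)}
    (hE : EFamT Bs R E) (K : Subgroup D) (PT : (Γ → ℝ) → (H →L[ℂ] H))
    (h : GoodT Bs G12 G23 FF R K PT) (hw : WallFun G12 G23 FF) :
    ∃ m : Set D → ℝ, H200.IsInvMean K m := by
  classical
  obtain ⟨e, he⟩ := exists_surjective_nat Γ
  obtain ⟨S, hS⟩ : ∃ S : ℕ → Finset Γ, S = fun n => (Finset.range n).image e := ⟨_, rfl⟩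
  have hmemS : ∀ s : Γ, ∃ n0, ∀ n ≥ n0, s ∈ S n := by
    intro s
    obtain ⟨k, hk⟩ := he s
    refine ⟨k + 1, fun n hn => ?_⟩
    rw [hS, Finset.mem_image]
    exact ⟨k, Finset.mem_range.mpr (by omega), hk⟩
  have ht := hR.pos
  obtain ⟨ε1, hε1, hε1t⟩ : ∃ ε1 : ℝ, 0 < ε1 ∧ (Fintype.card ι : ℝ) * ε1 ≤ t / 2 := by
    refine ⟨t / (2 * ((Fintype.card ι : ℝ) + 1)), by positivity, ?_⟩
    rw [mul_div_assoc', div_le_div_iff₀ (by positivity) (by norm_num)]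
    have : (0 : ℝ) ≤ Fintype.card ι := Nat.cast_nonneg _
    nlinarith
  choose rr hrr using fun i : ι => h.mass (1 : Γ) 1 Bs.sc_one i ε1 hε1
  obtain ⟨R1, hR1d⟩ : ∃ R1 : ℝ, R1 = ∑ i, |rr i| := ⟨_, rfl⟩
  have hR1 : ∀ i, rr i ≤ R1 := by
    intro i
    rw [hR1d]
    exact (le_abs_self _).trans (Finset.single_le_sum (f := fun i => |rr i|)
      (fun i _ => abs_nonneg _) (Finset.mem_univ i))
  obtain ⟨c, hc, hw'⟩ := hw R1
  choose B α β M hα0 hαB hα1 hαE hβ0 hβB hβ1 hβL hαβ using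
    fun n : ℕ => hw' (S n) (1 / ((n : ℝ) + 1)) (by positivity) (n : ℝ)
  obtain ⟨J, hJ⟩ : ∃ J : ℕ → Finset Unit, J = fun _ => Finset.univ := ⟨_, rfl⟩
  have hJs : ∀ (T : Finset Γ) (n : ℕ) {A : Type} [AddCommMonoid A] (f : Γ × Unit → A),
      ∑ p ∈ T ×ˢ J n, f p = ∑ b ∈ T, f (b, ()) := by
    intro T n A _ f
    rw [Finset.sum_product, hJ]
    refine Finset.sum_congr rfl fun b _ => ?_
    rw [Finset.univ_unique, Finset.sum_singleton]
  have le1 : ∀ (B : Finset Γ) (x : Γ → ℝ), (∀ b ∉ B, x b = 0) →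
      ∑ b ∈ B, x b ^ 2 ≤ 1 → ∀ b, |x b| ≤ 1 := by
    intro B x hB h1 b
    by_cases hb : b ∈ B
    · have h2 : x b ^ 2 ≤ 1 :=
        (Finset.single_le_sum (f := fun b => x b ^ 2) (fun i _ => sq_nonneg _) hb).trans h1
      exact abs_le_one_iff_mul_self_le_one.mpr (by rw [← sq]; exact h2)
    · rw [hB b hb, abs_zero]; exact zero_le_one
  have hαa : ∀ n b g, |α n b g| ≤ 1 := fun n b g =>
    le1 (B n) (fun b => α n b g) (fun b hb => hαB n b hb g) (hα1 n g) b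
  have hβa : ∀ n b g, |β n b g| ≤ 1 := fun n b g =>
    le1 (B n) (fun b => β n b g) (fun b hb => hβB n b hb g) (hβ1 n g) b
  have hsq : ∀ x : ℝ, |x| ≤ 1 → |x ^ 2| ≤ 1 := by
    intro x hx
    rw [abs_pow]
    exact pow_le_one₀ (abs_nonneg _) hx
  have hR1n : ∀ ξ : H, (⟪ξ, R 1 ξ⟫_ℂ).re = ‖R 1 ξ‖ ^ 2 := hR.one_re
  have hone : ∀ ξ : H, (⟪ξ, PT (fun _ => 1) ξ⟫_ℂ).re = ‖R 1 ξ‖ ^ 2 := by
    intro ξ
    rw [h.one, hR1n]
  have hone' : ∀ ξ : H, ‖R 1 ξ‖ ^ 2 ≤ ‖ξ‖ ^ 2 := fun ξ =>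
    pow_le_pow_left₀ (norm_nonneg _) (hR.norm_one_le ξ) 2
  have hsumb : ∀ (T : Finset Γ) (F : Γ → Γ → ℝ) (C : ℝ), (∀ b g, |F b g| ≤ C) → ∀ g,
      |∑ b ∈ T, F b g| ≤ T.card * C := by
    intro T F C hF g
    refine (Finset.abs_sum_le_sum_abs _ _).trans ?_
    rw [← nsmul_eq_mul]
    exact Finset.sum_le_card_nsmul _ _ _ fun j _ => hF j g
  have hbdd : ∀ γ : ℕ → Γ → Γ → ℝ,
      (∀ n b g, |γ n b g| ≤ 1) → (∀ n g, ∑ b ∈ B n, γ n b g ^ 2 ≤ 1) → ∀ n (ξ : H),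
      ∑ p ∈ B n ×ˢ J n, ‖PT (γ n p.1) ξ‖ ^ 2 ≤ ‖ξ‖ ^ 2 := by
    intro γ g2 g3 n ξ
    rw [hJs (B n) n (fun p => ‖PT (γ n p.1) ξ‖ ^ 2)]
    have h1 : ∀ b ∈ B n, ‖PT (γ n b) ξ‖ ^ 2 ≤ (⟪ξ, PT (fun g => γ n b g ^ 2) ξ⟫_ℂ).re :=
      fun b _ => h.ks (γ n b) (g2 n b) ξ
    refine (Finset.sum_le_sum h1).trans (le_trans ?_ (hone' ξ))
    rw [← Complex.re_sum, ← inner_sum, ← ContinuousLinearMap.sum_apply,
      ← h.sum (B n) (fun b g => γ n b g ^ 2) 1 (fun b g => hsq _ (g2 n b g)), ← hone ξ]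
    exact h.mono _ _ ((B n).card * 1) 1
      (hsumb (B n) (fun b g => γ n b g ^ 2) 1 (fun b g => hsq _ (g2 n b g)))
      (fun g => by simp) (fun g => g3 n g) ξ
  have hP0 : TFam Bs R B J (fun n (p : Γ × Unit) => PT (α n p.1)) := by
    refine ⟨fun n p hp => ?_, hbdd α hαa hα1, fun n p => (h.pone _ 1 (hαa n p.1)).2,
      fun n p => (h.pone _ 1 (hαa n p.1)).1, fun n p a ha => h.sc _ 1 (hαa n p.1) a ha⟩
    have e0 : α n p.1 = fun g => ∑ b ∈ (∅ : Finset Γ), (fun _ _ => (0 : ℝ)) b g := by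
      funext g
      rw [hαB n p.1 hp g, Finset.sum_empty]
    change PT (α n p.1) = 0
    rw [e0, h.sum ∅ (fun _ _ => (0 : ℝ)) 1 (fun _ _ => by simp), Finset.sum_empty]
  have hYb : ∀ n (ξ : H), ∑ p ∈ B n ×ˢ J n, ‖PT (β n p.1) ξ‖ ^ 2 ≤ 2 * ‖ξ‖ ^ 2 := by
    intro n ξ
    have h1 := hbdd β hβa hβ1 n ξ
    nlinarith [sq_nonneg ‖ξ‖]
  have hYW : ∀ u ∈ K, ∀ n (p : Γ × Unit), PT (β n p.1) * R u = R u * PT (β n p.1) :=
    fun u hu n p => h.comm (β n p.1) (hβL n p.1) u hu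
  -- expectations of functions which are small on the wall region
  have hexp : ∀ (F : Γ → ℝ) (r M a b C : ℝ), (∀ g, |F g| ≤ C) → 0 ≤ b →
      (∀ g, F g ≤ a + b * ind (fun h : Γ => ¬ WallA G12 G23 r M h) g) → ∀ ξ : H,
      (⟪ξ, PT F ξ⟫_ℂ).re ≤ a * ‖R 1 ξ‖ ^ 2 +
        b * (⟪ξ, PT (ind fun h : Γ => ¬ WallA G12 G23 r M h) ξ⟫_ℂ).re := by
    intro F r M a b C hF hb hle ξ
    have h1 : ∀ g, |a * 1 + b * ind (fun h : Γ => ¬ WallA G12 G23 r M h) g| ≤ |a| + b := by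
      intro g
      refine (abs_add_le _ _).trans (add_le_add (by rw [mul_one]) ?_)
      rw [abs_mul, abs_of_nonneg hb]
      exact mul_le_of_le_one_right hb (abs_ind_le _ _)
    refine (h.mono F (fun g => a * 1 + b * ind (fun h : Γ => ¬ WallA G12 G23 r M h) g) C
      (|a| + b) hF h1 (fun g => by rw [mul_one]; exact hle g) ξ).trans (le_of_eq ?_)
    rw [h.lin a b (fun _ => 1) (ind fun h : Γ => ¬ WallA G12 G23 r M h) 1 (fun _ => by simp)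
      (abs_ind_le _), add_apply, smul_apply, smul_apply, inner_add_right, inner_smul_right,
      inner_smul_right, Complex.add_re, Complex.re_ofReal_mul, Complex.re_ofReal_mul, hone]
  -- asymptotic covariance
  have hcov : TCov Bs Ufl B J (fun n (p : Γ × Unit) => PT (α n p.1)) := by
    intro s ω
    have hda : ∀ n b k, |α n (s * b) k - α n b (s⁻¹ * k)| ≤ 1 := by
      intro n b k
      have h1 := hα0 n (s * b) k
      have h2 := hα0 n b (s⁻¹ * k)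
      have h3 := (le_abs_self _).trans (hαa n (s * b) k)
      have h4 := (le_abs_self _).trans (hαa n b (s⁻¹ * k))
      rw [abs_le]
      constructor <;> linarith
    have hdiff : ∀ n b, PT (α n (s * b)) ω - Bs.lx s (PT (α n b) (Bs.lx s⁻¹ ω)) =
        PT (fun k => α n (s * b) k - α n b (s⁻¹ * k)) ω := by
      intro n b
      have e1 : Bs.lx s (PT (α n b) (Bs.lx s⁻¹ ω)) = PT (fun k => α n b (s⁻¹ * k)) ω := by
        have e2 := h.cov (fun k => α n b (s⁻¹ * k)) (fun k => hαa n b _) s (Bs.lx s⁻¹ ω)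
        rw [Bs.lx_apply_inv] at e2
        rw [e2]
        simp only [inv_mul_cancel_left]
      rw [e1]
      have e4 : PT (fun k => α n (s * b) k - α n b (s⁻¹ * k)) =
          PT (α n (s * b)) - PT (fun k => α n b (s⁻¹ * k)) := by
        have e5 := h.lin 1 (-1) (α n (s * b)) (fun k => α n b (s⁻¹ * k)) 1 (hαa n _)
          (fun k => hαa n b _)
        have e6 : (fun k => α n (s * b) k - α n b (s⁻¹ * k)) =
            fun k => 1 * α n (s * b) k + -1 * α n b (s⁻¹ * k) := by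
          funext k; ring
        rw [e6, e5]
        push_cast
        rw [one_smul, neg_one_smul, sub_eq_add_neg]
      rw [e4, ContinuousLinearMap.sub_apply]
    obtain ⟨Df, hD⟩ : ∃ Df : ℕ → Γ → ℝ, Df = fun n k => ∑ b ∈ BB (B n) s,
      (α n (s * b) k - α n b (s⁻¹ * k)) ^ 2 := ⟨_, rfl⟩
    have hb1 : ∀ n, ∑ p ∈ BB (B n) s ×ˢ J n,
        ‖PT (α n (s * p.1)) ω - Bs.lx s (PT (α n p.1) (Bs.lx s⁻¹ ω))‖ ^ 2 ≤
        (⟪ω, PT (Df n) ω⟫_ℂ).re := by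
      intro n
      rw [hJs (BB (B n) s) n
        (fun p => ‖PT (α n (s * p.1)) ω - Bs.lx s (PT (α n p.1) (Bs.lx s⁻¹ ω))‖ ^ 2)]
      have h1 : ∀ b ∈ BB (B n) s,
          ‖PT (α n (s * b)) ω - Bs.lx s (PT (α n b) (Bs.lx s⁻¹ ω))‖ ^ 2 ≤
          (⟪ω, PT (fun k => (α n (s * b) k - α n b (s⁻¹ * k)) ^ 2) ω⟫_ℂ).re := by
        intro b _
        rw [hdiff]
        exact h.ks _ (hda n b) _
      refine (Finset.sum_le_sum h1).trans (le_of_eq ?_)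
      rw [hD, ← Complex.re_sum, ← inner_sum, ← ContinuousLinearMap.sum_apply,
        ← h.sum (BB (B n) s) (fun b k => (α n (s * b) k - α n b (s⁻¹ * k)) ^ 2) 1
          (fun b k => hsq _ (hda n b k))]
    have hDb : ∀ n k, |Df n k| ≤ (BB (B n) s).card * 1 := by
      intro n k
      rw [hD]
      exact hsumb _ (fun b k => (α n (s * b) k - α n b (s⁻¹ * k)) ^ 2) 1
        (fun b k => hsq _ (hda n b k)) k
    have hD4 : ∀ n k, Df n k ≤ 4 := by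
      intro n k
      rw [hD]
      have h1 : ∀ b ∈ BB (B n) s, (α n (s * b) k - α n b (s⁻¹ * k)) ^ 2 ≤
          2 * α n (s * b) k ^ 2 + 2 * α n b (s⁻¹ * k) ^ 2 := by
        intro b _
        nlinarith [sq_nonneg (α n (s * b) k + α n b (s⁻¹ * k))]
      refine (Finset.sum_le_sum h1).trans ?_
      rw [Finset.sum_add_distrib, ← Finset.mul_sum, ← Finset.mul_sum,
        sum_BB_right s (fun b => α n b k ^ 2) (fun b hb => by rw [hαB n b hb k]; simp),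
        sum_BB_left s (fun b => α n b (s⁻¹ * k) ^ 2) (fun b hb => by rw [hαB n b hb]; simp)]
      have h2 := hα1 n k
      have h3 := hα1 n (s⁻¹ * k)
      linarith
    -- translation of the argument
    obtain ⟨ζ, hζ⟩ : ∃ ζ : H, ζ = Bs.lx s⁻¹ ω := ⟨_, rfl⟩
    have hζg : ω = Bs.lx s ζ := by rw [hζ, Bs.lx_apply_inv]
    have hb2 : ∀ n, (⟪ω, PT (Df n) ω⟫_ℂ).re = (⟪ζ, PT (fun k => Df n (s * k)) ζ⟫_ℂ).re := by
      intro n
      have e2 : PT (Df n) (Bs.lx s ζ) = Bs.lx s (PT (fun k => Df n (s * k)) ζ) := by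
        have e3 := h.cov (fun k => 4⁻¹ * Df n k + 0 * 0) (fun k => by
          have h4 := hD4 n k
          have h0 : 0 ≤ Df n k := by
            rw [hD]; exact Finset.sum_nonneg fun b _ => sq_nonneg _
          rw [abs_le]; constructor <;> linarith) s ζ
        have h6 : ∀ _ : Γ, |(0 : ℝ)| ≤ (BB (B n) s).card * 1 := fun _ => by
          rw [abs_zero, mul_one]; exact Nat.cast_nonneg _
        rw [h.lin 4⁻¹ 0 (Df n) (fun _ => 0) ((BB (B n) s).card * 1) (hDb n) h6,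
          h.lin 4⁻¹ 0 (fun k => Df n (s * k)) (fun _ => 0) ((BB (B n) s).card * 1)
            (fun k => hDb n _) h6] at e3
        simp only [Complex.ofReal_zero, zero_smul, add_zero, smul_apply, map_smul] at e3
        have h5 : ((4⁻¹ : ℝ) : ℂ) ≠ 0 := by norm_num
        exact smul_right_injective _ h5 e3
      rw [hζg, e2, Bs.inner_lx]
    -- the final bound
    have hb3 : ∀ n, s ∈ S n → (⟪ζ, PT (fun k => Df n (s * k)) ζ⟫_ℂ).re ≤
        1 / ((n : ℝ) + 1) * ‖R 1 ζ‖ ^ 2 +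
          4 * (⟪ζ, PT (ind fun h : Γ => ¬ WallA G12 G23 (n : ℝ) (max (M n) n) h) ζ⟫_ℂ).re := by
      intro n hn
      refine hexp (fun k => Df n (s * k)) (n : ℝ) (max (M n) n) (1 / ((n : ℝ) + 1)) 4
        ((BB (B n) s).card * 1) (fun k => hDb n _) (by norm_num) (fun k => ?_) ζ
      by_cases hk : WallA G12 G23 (n : ℝ) (max (M n) n) k
      · rw [ind_neg (P := fun h : Γ => ¬ WallA G12 G23 (n : ℝ) (max (M n) n) h)
          (fun h0 => h0 hk), mul_zero, add_zero, hD]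
        have h2 := hαE n s hn k hk.1 ((le_max_left _ _).trans hk.2)
        simpa only [inv_mul_cancel_left] using h2
      · rw [ind_pos (P := fun h : Γ => ¬ WallA G12 G23 (n : ℝ) (max (M n) n) h) hk, mul_one]
        have h2 := hD4 n (s * k)
        have h3 : (0 : ℝ) ≤ 1 / ((n : ℝ) + 1) := by positivity
        linarith
    rw [Metric.tendsto_nhds]
    intro ε hε
    obtain ⟨R0, hR0⟩ := h.mass1 hR ζ (ε := ε / 16) (by positivity)
    obtain ⟨n0, hn0⟩ := hmemS s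
    obtain ⟨n1, hn1⟩ := exists_nat_gt (max R0 (2 * ‖R 1 ζ‖ ^ 2 / ε))
    have hev : ∀ᶠ n : ℕ in Ufl, n0 + n1 ≤ n := hyperfilter_le_cofinite (by
      rw [Nat.cofinite_eq_atTop]; exact eventually_ge_atTop _)
    filter_upwards [hev] with n hn
    rw [dist_zero_right, Real.norm_of_nonneg (Finset.sum_nonneg fun b _ => by positivity)]
    have hn' : (n1 : ℝ) ≤ n := by exact_mod_cast (show n1 ≤ n by omega)
    have a1 : R0 ≤ (n : ℝ) := ((le_max_left _ _).trans hn1.le).trans hn'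
    have a2 : 2 * ‖R 1 ζ‖ ^ 2 / ε ≤ (n : ℝ) := ((le_max_right _ _).trans hn1.le).trans hn'
    have a3 := hR0 (n : ℝ) a1 (max (M n) n) (le_max_right _ _)
    have a4 := hb3 n (hn0 n (by omega))
    have a5 := hb1 n
    rw [hb2 n] at a5
    have a6 : 1 / ((n : ℝ) + 1) * ‖R 1 ζ‖ ^ 2 ≤ ε / 2 := by
      rw [div_le_iff₀ hε] at a2
      rw [one_div_mul_eq_div, div_le_iff₀ (by positivity)]
      nlinarith
    linarith
  -- the lower bound
  have hlow : ∀ u ∈ K, TLowAt Bs R Ufl B J (fun n (p : Γ × Unit) => PT (β n p.1))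
      (fun n p => PT (α n p.1)) (c * t / 2) u := by
    intro u hu
    refine Eventually.of_forall fun n => ?_
    have hαβa : ∀ b g, |α n b g * β n b g| ≤ 1 := fun b g => by
      rw [abs_mul]; exact mul_le_one₀ (hαa n b g) (abs_nonneg _) (hβa n b g)
    have hsb := hsumb (B n) (fun b g => α n b g * β n b g) 1 hαβa
    have hterm : ∀ i : ι, c * (‖R 1 (R u (Bs.ep i))‖ ^ 2 - ε1) ≤
        (∑ p ∈ B n ×ˢ J n, ⟪PT (β n p.1) (R u (Bs.ep i)), PT (α n p.1) (R u (Bs.ep i))⟫_ℂ).re := by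
      intro i
      obtain ⟨ζ, hζ⟩ : ∃ ζ : H, ζ = R u (Bs.ep i) := ⟨_, rfl⟩
      rw [← hζ, hJs (B n) n (fun p => ⟪PT (β n p.1) ζ, PT (α n p.1) ζ⟫_ℂ)]
      have e1 : ∀ b ∈ B n, ⟪PT (β n b) ζ, PT (α n b) ζ⟫_ℂ =
          ⟪ζ, PT (fun g => α n b g * β n b g) ζ⟫_ℂ := by
        intro b _
        rw [h.sym (β n b) (hβa n b), ← h.mul (β n b) (α n b) (hβL n b) (hαa n b)]
        rfl
      rw [Finset.sum_congr rfl e1, ← inner_sum, ← ContinuousLinearMap.sum_apply,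
        ← h.sum (B n) (fun b g => α n b g * β n b g) 1 hαβa]
      have hm := hrr i R1 (hR1 i) (max (M n) R1) (le_max_right _ _) u hu
      have e2 : R u (Bs.lx 1 ((1 : H →L[ℂ] H) (Bs.ep i))) = ζ := by
        rw [hζ, Bs.lx_one]; rfl
      rw [e2] at hm
      have h2 := hexp (fun g => -1 * ∑ b ∈ B n, α n b g * β n b g + 0 * 0) R1 (max (M n) R1)
        (-c) c ((B n).card * 1) (fun g => by
          rw [zero_mul, add_zero, neg_one_mul, abs_neg]; exact hsb g) hc.le (fun g => ?_) ζ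
      · rw [h.lin (-1) 0 (fun g => ∑ b ∈ B n, α n b g * β n b g) (fun _ => 0) ((B n).card * 1) hsb
          (fun _ => by rw [abs_zero]; positivity)] at h2
        simp only [Complex.ofReal_zero, zero_smul, add_zero, smul_apply, inner_smul_right,
          Complex.re_ofReal_mul] at h2
        nlinarith
      · rw [zero_mul, add_zero]
        by_cases hk : WallA G12 G23 R1 (max (M n) R1) g
        · rw [ind_neg (P := fun h : Γ => ¬ WallA G12 G23 R1 (max (M n) R1) h)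
            (fun h0 => h0 hk), mul_zero, add_zero]
          have := hαβ n g hk.1 ((le_max_left _ _).trans hk.2)
          linarith
        · rw [ind_pos (P := fun h : Γ => ¬ WallA G12 G23 R1 (max (M n) R1) h) hk, mul_one]
          have : 0 ≤ ∑ b ∈ B n, α n b g * β n b g :=
            Finset.sum_nonneg fun b _ => mul_nonneg (hα0 n b g) (hβ0 n b g)
          linarith
    refine le_trans ?_ (Finset.sum_le_sum fun i _ => hterm i)
    rw [← Finset.mul_sum, Finset.sum_sub_distrib, Finset.sum_const, Finset.card_univ,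
      nsmul_eq_mul]
    have htr : ∑ i : ι, ‖R 1 (R u (Bs.ep i))‖ ^ 2 = t := by
      have e1 : ∀ i : ι, ‖R 1 (R u (Bs.ep i))‖ ^ 2 = (⟪Bs.ep i, R 1 (Bs.ep i)⟫_ℂ).re := by
        intro i
        rw [hR.app, one_mul, hR.norm_map, hR1n]
      rw [Finset.sum_congr rfl fun i _ => e1 i, ← Complex.re_sum, hR.tr_one, Complex.ofReal_re]
    rw [htr]
    nlinarith
  exact t_mean hR hE K hP0 hcov hYb hYW (by positivity) hlow

end good

end Vale.Agent.P092.H859
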