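import Vale.Agent.P092.H859.CLB

/-!
P092 (helper859), block C-LIM, part 3: strong limits in the full case, the projection valued
family `E`, covariance and commutation.
-/

set_option linter.all false

open scoped InnerProductSpace Pointwise
open Filter Topology ContinuousLinearMap TopologicalSpace

namespace Vale.Agent.P092.H859.CL

section lm

variable {D K : Type} [NormedAddCommGroup K] [InnerProductSpace ℂ K] [CompleteSpace K]

open Classical in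
/-- The strong limit of a family of operators, if it exists. -/
noncomputable def lm (l : Filter D) (f : D → (K →L[ℂ] K)) : K →L[ℂ] K :=
  if h : ∃ E : K →L[ℂ] K, ∀ ξ, Tendsto (fun w => f w ξ) l (𝓝 (E ξ)) then h.choose else 0

theorem lm_spec {l : Filter D} [l.NeBot] {f : D → (K →L[ℂ] K)} (hf : ∀ w, ‖f w‖ ≤ 1)
    (h : ∀ ξ, ∃ x, Tendsto (fun w => f w ξ) l (𝓝 x)) (ξ : K) :
    Tendsto (fun w => f w ξ) l (𝓝 (lm l f ξ)) := by
  have hex : ∃ E : K →L[ℂ] K, ∀ ξ, Tendsto (fun w => f w ξ) l (𝓝 (E ξ)) := by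
    choose e he using h
    have hadd : ∀ x y, e (x + y) = e x + e y := fun x y => by
      refine tendsto_nhds_unique (he (x + y)) ?_
      exact ((he x).add (he y)).congr fun w => (map_add _ _ _).symm
    have hsm : ∀ (c : ℂ) x, e (c • x) = c • e x := fun c x => by
      refine tendsto_nhds_unique (he (c • x)) ?_
      exact ((he x).const_smul c).congr fun w => (map_smul _ _ _).symm
    refine ⟨LinearMap.mkContinuous ⟨⟨e, hadd⟩, hsm⟩ 1 fun x => ?_, fun x => he x⟩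
    refine le_of_tendsto (he x).norm (Eventually.of_forall fun w => ?_)
    exact ((f w).le_opNorm x).trans (mul_le_mul_of_nonneg_right (hf w) (norm_nonneg _))
  rw [lm, dif_pos hex]
  exact hex.choose_spec ξ

end lm

/-- Differences of a shifted cone and a cone are negligible. -/
theorem shift_negl {Γ : Type} {G1 G2 : Γ → ℝ} {φ : Γ → Γ} {C : ℝ}
    (hC : ∀ x, |G1 (φ x) - G1 x| ≤ C ∧ |G2 (φ x) - G2 x| ≤ C) {Q1 Q2 : Γ → Prop}
    (hQ : ∀ r, ∃ T, ∀ x, T ≤ G1 x → G2 x ≤ r → (Q1 x ↔ Q2 x)) (r : ℝ) :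
    ∃ T, {g | ¬ ((G2 (φ g) ≤ G1 (φ g) ∧ Q1 g) ↔ (G2 g ≤ G1 g ∧ Q2 g))} ⊆
      FF G1 G2 T ∪ BB G1 G2 r := by
  obtain ⟨T1, hT1⟩ := hQ r
  refine ⟨max (max T1 (r + 2 * |C|)) r, fun g hg => ?_⟩
  obtain ⟨c1, c2⟩ := hC g
  have hC0 : C ≤ |C| := le_abs_self C
  have hC1 := abs_nonneg C
  obtain ⟨a1, a2⟩ := abs_le.mp c1
  obtain ⟨b1, b2⟩ := abs_le.mp c2
  have m1 : T1 ≤ max (max T1 (r + 2 * |C|)) r := (le_max_left _ _).trans (le_max_left _ _)
  have m2 : r + 2 * |C| ≤ max (max T1 (r + 2 * |C|)) r :=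
    (le_max_right _ _).trans (le_max_left _ _)
  have m3 : r ≤ max (max T1 (r + 2 * |C|)) r := le_max_right _ _
  by_cases h2 : G2 g ≤ r
  · left
    refine ⟨?_, h2.trans m3⟩
    by_contra h1
    push Not at h1
    refine hg ?_
    have e1 := hT1 g (m1.trans h1.le) h2
    constructor
    · rintro ⟨_, q⟩
      exact ⟨by linarith, e1.1 q⟩
    · rintro ⟨_, q⟩
      exact ⟨by linarith, e1.2 q⟩
  · push Not at h2
    by_cases h1 : G1 g ≤ r
    · left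
      refine ⟨h1.trans m3, ?_⟩
      by_contra h3
      push Not at h3
      refine hg ?_
      constructor
      · rintro ⟨q, _⟩
        exfalso; linarith
      · rintro ⟨q, _⟩
        exfalso; linarith
    · push Not at h1
      right
      exact ⟨h1, h2⟩

variable {Γ D K Y : Type} [Group Γ] [Group D] [NormedAddCommGroup K] [InnerProductSpace ℂ K]
  [CompleteSpace K] {m : Set Γ → (K →L[ℂ] K)} {R : D → (K →L[ℂ] K)} {Bd : Set K}
  {ms : D → Set Γ → ℝ} {A : Subgroup D} {G1 G2 : Γ → ℝ} {bp : Γ → Y} {l l' : Filter D}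

/-- All the mass is on the cone. -/
def Full (m : Set Γ → (K →L[ℂ] K)) (R : D → (K →L[ℂ] K)) (G1 G2 : Γ → ℝ) (l : Filter D) : Prop :=
  ∀ ξ, Tendsto (fun w => P m R w {g | G2 g ≤ G1 g} ξ) l (𝓝 (R 1 ξ))

theorem Full.mono (h : Full m R G1 G2 l) (hl : l' ≤ l) : Full m R G1 G2 l' :=
  fun ξ => (h ξ).mono_left hl

/-- The compressed projections for a set of base points. -/
noncomputable def Q (m : Set Γ → (K →L[ℂ] K)) (R : D → (K →L[ℂ] K)) (G1 G2 : Γ → ℝ)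
    (bp : Γ → Y) (w : D) (A0 : Set Y) : K →L[ℂ] K := P m R w (cn G1 G2 bp A0)

theorem cn_univ : cn G1 G2 bp (Set.univ : Set Y) = {g | G2 g ≤ G1 g} := by
  ext g; simp [cn]

theorem Q_add (hm : Prj m) (hR : Rep R) (w : D) {A0 A1 : Set Y} (h : Disjoint A0 A1) :
    Q m R G1 G2 bp w (A0 ∪ A1) = Q m R G1 G2 bp w A0 + Q m R G1 G2 bp w A1 := by
  rw [Q, Q, Q, cn_union, P_union hm hR w (cn_disj h)]

theorem Q_compl (hm : Prj m) (hR : Rep R) (w : D) (A0 : Set Y) :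
    Q m R G1 G2 bp w A0 + Q m R G1 G2 bp w A0ᶜ = P m R w {g | G2 g ≤ G1 g} := by
  rw [← Q_add hm hR w disjoint_compl_right, Set.union_compl_self, Q, cn_univ]

/-- The one-sided estimate. -/
theorem one_side (h : Sys m R Bd ms A G1 G2) (hf : ∀ r, (FF G1 G2 r).Finite)
    (he : Esc m R Bd A l) (he' : Esc m R Bd A l') (hfu' : Full m R G1 G2 l')
    {A0 : Set Y} (hs : SepP G1 G2 bp A0ᶜ A0) (ξ : K) :
    Tendsto (fun p : D × D => ⟪Q m R G1 G2 bp p.1 A0 ξ, ξ⟫_ℂ -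
      ⟪Q m R G1 G2 bp p.1 A0 ξ, Q m R G1 G2 bp p.2 A0 ξ⟫_ℂ) (l ×ˢ l') (𝓝 0) := by
  have h1 := pure h hf he he' hs ξ ξ
  have h2 : Tendsto (fun p : D × D => ⟪Q m R G1 G2 bp p.1 A0 ξ,
      R 1 ξ - P m R p.2 {g | G2 g ≤ G1 g} ξ⟫_ℂ) (l ×ˢ l') (𝓝 0) := by
    have h3 := ((hfu' ξ).const_sub (R 1 ξ)).norm
    rw [sub_self, norm_zero] at h3
    have h4 := (h3.mul_const ‖ξ‖).comp (tendsto_snd (f := l) (g := l'))
    rw [zero_mul] at h4
    refine squeeze_zero_norm (fun p => ?_) h4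
    refine (norm_inner_le_norm _ _).trans ?_
    rw [Function.comp_apply, mul_comm]
    have := P_norm_le' h.prj h.rep p.1 (cn G1 G2 bp A0) ξ
    exact mul_le_mul_of_nonneg_left this (norm_nonneg _)
  have h5 := h2.add h1
  rw [add_zero] at h5
  refine h5.congr fun p => ?_
  have e1 : ⟪Q m R G1 G2 bp p.1 A0 ξ, ξ⟫_ℂ = ⟪Q m R G1 G2 bp p.1 A0 ξ, R 1 ξ⟫_ℂ := by
    have e2 : Q m R G1 G2 bp p.1 A0 ξ = R 1 (Q m R G1 G2 bp p.1 A0 ξ) := by
      conv_lhs => rw [Q, ← one_P h.prj h.rep]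
      rfl
    conv_lhs => rw [e2]
    rw [h.rep.inner_left, inv_one]
  have e3 := congrArg (fun T : K →L[ℂ] K => T ξ) (Q_compl (G1 := G1) (G2 := G2) (bp := bp)
    h.prj h.rep p.2 A0)
  simp only [add_apply] at e3
  rw [e1, ← e3, inner_sub_right, inner_add_right]
  change _ - (_ + _) + ⟪Q m R G1 G2 bp p.1 A0 ξ, Q m R G1 G2 bp p.2 A0ᶜ ξ⟫_ℂ = _
  ring

/-- The compressed projections are strongly Cauchy, jointly for two filters. -/
theorem joint_cauchy (h : Sys m R Bd ms A G1 G2) (hf : ∀ r, (FF G1 G2 r).Finite)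
    (he : Esc m R Bd A l) (he' : Esc m R Bd A l') (hfu : Full m R G1 G2 l)
    (hfu' : Full m R G1 G2 l')
    {A0 : Set Y} (hs : SepP G1 G2 bp A0ᶜ A0) (ξ : K) :
    Tendsto (fun p : D × D => ‖Q m R G1 G2 bp p.1 A0 ξ - Q m R G1 G2 bp p.2 A0 ξ‖)
      (l ×ˢ l') (𝓝 0) := by
  have h1 := one_side h hf he he' hfu' hs ξ
  have h2 := (one_side h hf he' he hfu hs ξ).comp (Filter.tendsto_prod_swap (f := l) (g := l'))
  have h3 := ((Complex.continuous_re.tendsto _).comp (h1.add h2))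
  rw [add_zero, Complex.zero_re] at h3
  have h4 : Tendsto (fun p : D × D =>
      ‖Q m R G1 G2 bp p.1 A0 ξ - Q m R G1 G2 bp p.2 A0 ξ‖ ^ 2) (l ×ˢ l') (𝓝 0) := by
    refine squeeze_zero (fun p => by positivity) (fun p => ?_) h3
    have a1 := P_sq_le h.prj h.rep p.1 (cn G1 G2 bp A0) ξ
    have a2 := P_sq_le h.prj h.rep p.2 (cn G1 G2 bp A0) ξ
    change ‖Q m R G1 G2 bp p.1 A0 ξ‖ ^ 2 ≤ (⟪Q m R G1 G2 bp p.1 A0 ξ, ξ⟫_ℂ).re at a1
    change ‖Q m R G1 G2 bp p.2 A0 ξ‖ ^ 2 ≤ (⟪Q m R G1 G2 bp p.2 A0 ξ, ξ⟫_ℂ).re at a2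
    have a3 := @norm_sub_sq ℂ K _ _ _ (Q m R G1 G2 bp p.1 A0 ξ) (Q m R G1 G2 bp p.2 A0 ξ)
    have a4 : (⟪Q m R G1 G2 bp p.2 A0 ξ, Q m R G1 G2 bp p.1 A0 ξ⟫_ℂ).re =
        (⟪Q m R G1 G2 bp p.1 A0 ξ, Q m R G1 G2 bp p.2 A0 ξ⟫_ℂ).re := by
      rw [← inner_conj_symm, Complex.conj_re]
    rw [a3]
    simp only [Function.comp_apply, Prod.fst_swap, Prod.snd_swap, Complex.add_re, Complex.sub_re]
    rw [a4]
    change ‖Q m R G1 G2 bp p.1 A0 ξ‖ ^ 2 - 2 *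
      (⟪Q m R G1 G2 bp p.1 A0 ξ, Q m R G1 G2 bp p.2 A0 ξ⟫_ℂ).re +
      ‖Q m R G1 G2 bp p.2 A0 ξ‖ ^ 2 ≤ _
    linarith
  have h5 := h4.sqrt
  rw [Real.sqrt_zero] at h5
  exact h5.congr fun p => Real.sqrt_sq (norm_nonneg _)

/-- The limit projections. -/
noncomputable def E (m : Set Γ → (K →L[ℂ] K)) (R : D → (K →L[ℂ] K)) (G1 G2 : Γ → ℝ)
    (bp : Γ → Y) (l : Filter D) (A0 : Set Y) : K →L[ℂ] K :=
  lm l fun w => Q m R G1 G2 bp w A0

/-- **Strong convergence.** -/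
theorem E_spec (h : Sys m R Bd ms A G1 G2) (hf : ∀ r, (FF G1 G2 r).Finite)
    (he : Esc m R Bd A l) [l.NeBot] (hfu : Full m R G1 G2 l)
    {A0 : Set Y} (hs : SepP G1 G2 bp A0ᶜ A0) (ξ : K) :
    Tendsto (fun w => Q m R G1 G2 bp w A0 ξ) l (𝓝 (E m R G1 G2 bp l A0 ξ)) := by
  refine lm_spec (fun w => P_opNorm h.prj h.rep _ _) (fun ξ => ?_) ξ
  rw [← cauchy_map_iff_exists_tendsto]
  refine cauchy_map_iff.mpr ⟨inferInstance, ?_⟩
  rw [tendsto_uniformity_iff_dist_tendsto_zero]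
  refine (joint_cauchy h hf he he hfu hfu hs ξ).congr fun p => ?_
  rw [dist_eq_norm]; rfl

/-- The limit does not depend on the filter. -/
theorem E_indep (h : Sys m R Bd ms A G1 G2) (hf : ∀ r, (FF G1 G2 r).Finite)
    (he : Esc m R Bd A l) [l.NeBot] (hfu : Full m R G1 G2 l)
    (he' : Esc m R Bd A l') [l'.NeBot] (hfu' : Full m R G1 G2 l')
    {A0 : Set Y} (hs : SepP G1 G2 bp A0ᶜ A0) : E m R G1 G2 bp l A0 = E m R G1 G2 bp l' A0 := by
  ext ξ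
  have h1 := (E_spec h hf he hfu hs ξ).comp (tendsto_fst (f := l) (g := l'))
  have h2 := (E_spec h hf he' hfu' hs ξ).comp (tendsto_snd (f := l) (g := l'))
  have h3 := (h1.sub h2).norm
  have h4 := joint_cauchy h hf he he' hfu hfu' hs ξ
  have h5 := tendsto_nhds_unique h3 h4
  exact sub_eq_zero.mp (norm_eq_zero.mp h5)

theorem E_adj (h : Sys m R Bd ms A G1 G2) (hf : ∀ r, (FF G1 G2 r).Finite)
    (he : Esc m R Bd A l) [l.NeBot] (hfu : Full m R G1 G2 l)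
    {A0 : Set Y} (hs : SepP G1 G2 bp A0ᶜ A0) :
    adjoint (E m R G1 G2 bp l A0) = E m R G1 G2 bp l A0 := by
  ext ξ
  refine ext_inner_right ℂ fun η => ?_
  rw [adjoint_inner_left]
  have h1 := (tendsto_const_nhds (x := ξ)).inner (𝕜 := ℂ) (E_spec h hf he hfu hs η)
  have h2 := (E_spec h hf he hfu hs ξ).inner (𝕜 := ℂ) (tendsto_const_nhds (x := η))
  refine tendsto_nhds_unique h1 (h2.congr fun w => ?_)
  exact P_adj h.prj h.rep _ _ _ _

theorem E_one (h : Sys m R Bd ms A G1 G2) (hf : ∀ r, (FF G1 G2 r).Finite)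
    (he : Esc m R Bd A l) [l.NeBot] (hfu : Full m R G1 G2 l)
    {A0 : Set Y} (hs : SepP G1 G2 bp A0ᶜ A0) :
    R 1 * E m R G1 G2 bp l A0 = E m R G1 G2 bp l A0 := by
  ext ξ
  have h1 := E_spec h hf he hfu hs ξ
  have h2 := ((R 1).continuous.tendsto _).comp h1
  refine tendsto_nhds_unique (h2.congr fun w => ?_) h1
  exact congrArg (fun T : K →L[ℂ] K => T ξ) (one_P h.prj h.rep w (cn G1 G2 bp A0))

theorem E_one' (h : Sys m R Bd ms A G1 G2) (hf : ∀ r, (FF G1 G2 r).Finite)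
    (he : Esc m R Bd A l) [l.NeBot] (hfu : Full m R G1 G2 l)
    {A0 : Set Y} (hs : SepP G1 G2 bp A0ᶜ A0) :
    E m R G1 G2 bp l A0 * R 1 = E m R G1 G2 bp l A0 := by
  ext ξ
  have h1 := E_spec h hf he hfu hs ξ
  have h2 := E_spec h hf he hfu hs (R 1 ξ)
  refine tendsto_nhds_unique (h2.congr fun w => ?_) h1
  exact congrArg (fun T : K →L[ℂ] K => T ξ) (P_one h.prj h.rep w (cn G1 G2 bp A0))

theorem E_compl (h : Sys m R Bd ms A G1 G2) (hf : ∀ r, (FF G1 G2 r).Finite)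
    (he : Esc m R Bd A l) [l.NeBot] (hfu : Full m R G1 G2 l)
    {A0 : Set Y} (hs : SepP G1 G2 bp A0ᶜ A0) (hs' : SepP G1 G2 bp A0 A0ᶜ) :
    E m R G1 G2 bp l A0ᶜ = R 1 - E m R G1 G2 bp l A0 := by
  ext ξ
  have h1 := E_spec h hf he hfu hs ξ
  have h2 := E_spec (A0 := A0ᶜ) h hf he hfu (by rwa [compl_compl]) ξ
  have h3 := h1.add h2
  have h4 := tendsto_nhds_unique (h3.congr fun w => ?_) (hfu ξ)
  · rw [sub_apply, ← h4]; abel
  · rw [← add_apply, Q_compl h.prj h.rep]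

theorem E_orth (h : Sys m R Bd ms A G1 G2) (hf : ∀ r, (FF G1 G2 r).Finite)
    (he : Esc m R Bd A l) [l.NeBot] (hfu : Full m R G1 G2 l)
    (he' : Esc m R Bd A l') [l'.NeBot] (hfu' : Full m R G1 G2 l')
    {A0 A1 : Set Y} (hs : SepP G1 G2 bp A0ᶜ A0) (hs1 : SepP G1 G2 bp A1ᶜ A1)
    (hd : SepP G1 G2 bp A1 A0) :
    E m R G1 G2 bp l A0 * E m R G1 G2 bp l' A1 = 0 := by
  ext η
  refine ext_inner_left ℂ fun ξ => ?_
  rw [zero_apply, inner_zero_right, mul_ap', ← E_adj h hf he hfu hs, adjoint_inner_right]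
  have h1 := (E_spec h hf he hfu hs ξ).comp (tendsto_fst (f := l) (g := l'))
  have h2 := (E_spec h hf he' hfu' hs1 η).comp (tendsto_snd (f := l) (g := l'))
  have h3 := h1.inner (𝕜 := ℂ) h2
  exact tendsto_nhds_unique h3 (pure h hf he he' hd ξ η)

theorem E_add (h : Sys m R Bd ms A G1 G2) (hf : ∀ r, (FF G1 G2 r).Finite)
    (he : Esc m R Bd A l) [l.NeBot] (hfu : Full m R G1 G2 l)
    {A0 A1 : Set Y} (hs : SepP G1 G2 bp A0ᶜ A0) (hs1 : SepP G1 G2 bp A1ᶜ A1)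
    (hs2 : SepP G1 G2 bp (A0 ∪ A1)ᶜ (A0 ∪ A1)) (hd : Disjoint A0 A1) :
    E m R G1 G2 bp l (A0 ∪ A1) = E m R G1 G2 bp l A0 + E m R G1 G2 bp l A1 := by
  ext ξ
  have h1 := (E_spec h hf he hfu hs ξ).add (E_spec h hf he hfu hs1 ξ)
  refine tendsto_nhds_unique (E_spec h hf he hfu hs2 ξ) (h1.congr fun w => ?_)
  rw [Q_add h.prj h.rep w hd]; rfl

section clopen

variable [TopologicalSpace Y] [SMul Γ Y]

theorem Geo.sep' (hg : Geo G1 G2 bp) (A0 : Clopens Y) :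
    SepP G1 G2 bp (A0 : Set Y)ᶜ (A0 : Set Y) := by
  have := hg.sep A0ᶜ A0 disjoint_compl_left
  rwa [Clopens.coe_compl] at this

theorem Geo.sep'' (hg : Geo G1 G2 bp) (A0 : Clopens Y) :
    SepP G1 G2 bp (A0 : Set Y) (A0 : Set Y)ᶜ := by
  have := hg.sep A0 A0ᶜ disjoint_compl_right
  rwa [Clopens.coe_compl] at this

/-- The family `E` on clopen sets is a projection valued additive family with unit `R 1`. -/
theorem E_inf (h : Sys m R Bd ms A G1 G2) (hg : Geo G1 G2 bp)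
    (he : Esc m R Bd A l) [l.NeBot] (hfu : Full m R G1 G2 l) (A0 A1 : Clopens Y) :
    E m R G1 G2 bp l ((A0 ⊓ A1 : Clopens Y) : Set Y) =
      E m R G1 G2 bp l (A0 : Set Y) * E m R G1 G2 bp l (A1 : Set Y) := by
  obtain ⟨F, hF⟩ : ∃ F : Clopens Y → (K →L[ℂ] K), F = fun A0 : Clopens Y =>
      E m R G1 G2 bp l (A0 : Set Y) := ⟨_, rfl⟩
  have hF' : ∀ A0 : Clopens Y, E m R G1 G2 bp l (A0 : Set Y) = F A0 := fun A0 => by rw [hF]
  have orth : ∀ A0 A1 : Clopens Y, Disjoint A0 A1 → F A0 * F A1 = 0 := by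
    intro A0 A1 hd
    rw [← hF', ← hF']
    exact E_orth h hg.fin he hfu he hfu (hg.sep' A0) (hg.sep' A1) (hg.sep A1 A0 hd.symm)
  have add : ∀ A0 A1 : Clopens Y, Disjoint A0 A1 → F (A0 ⊔ A1) = F A0 + F A1 := by
    intro A0 A1 hd
    rw [← hF', ← hF', ← hF']
    have h1 : Disjoint (A0 : Set Y) (A1 : Set Y) := by
      rw [Set.disjoint_iff_inter_eq_empty]
      have := hd.eq_bot
      have h2 := congrArg (fun B : Clopens Y => (B : Set Y)) this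
      simpa using h2
    have h3 := hg.sep' (A0 ⊔ A1)
    rw [Clopens.coe_sup] at h3 ⊢
    exact E_add h hg.fin he hfu (hg.sep' A0) (hg.sep' A1) h3 h1
  have compl : ∀ A0 : Clopens Y, F A0ᶜ = R 1 - F A0 := by
    intro A0
    rw [← hF', ← hF', Clopens.coe_compl]
    exact E_compl h hg.fin he hfu (hg.sep' A0) (hg.sep'' A0)
  have idem : ∀ A0 : Clopens Y, F A0 * F A0 = F A0 := by
    intro A0
    have h1 := orth A0 A0ᶜ disjoint_compl_right
    rw [compl, mul_sub] at h1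
    have h2 : F A0 * R 1 = F A0 := by
      rw [← hF']; exact E_one' h hg.fin he hfu (hg.sep' A0)
    rw [h2] at h1
    exact (sub_eq_zero.mp h1).symm
  rw [hF', hF', hF']
  have s0 : A0 = (A0 ⊓ A1) ⊔ (A0 ⊓ A1ᶜ) := by rw [← inf_sup_left, sup_compl_eq_top, inf_top_eq]
  have s1 : A1 = (A0 ⊓ A1) ⊔ (A0ᶜ ⊓ A1) := by rw [← inf_sup_right, sup_compl_eq_top, top_inf_eq]
  have d0 : Disjoint (A0 ⊓ A1) (A0 ⊓ A1ᶜ) :=
    (disjoint_compl_right (a := A1)).mono inf_le_right inf_le_right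
  have d1 : Disjoint (A0 ⊓ A1) (A0ᶜ ⊓ A1) :=
    (disjoint_compl_right (a := A0)).mono inf_le_left inf_le_left
  have e0 : F A0 = F (A0 ⊓ A1) + F (A0 ⊓ A1ᶜ) := by conv_lhs => rw [s0, add _ _ d0]
  have e1 : F A1 = F (A0 ⊓ A1) + F (A0ᶜ ⊓ A1) := by conv_lhs => rw [s1, add _ _ d1]
  have z1 : F (A0 ⊓ A1) * F (A0ᶜ ⊓ A1) = 0 := orth _ _ d1
  have z2 : F (A0 ⊓ A1ᶜ) * F (A0 ⊓ A1) = 0 := orth _ _ d0.symm
  have z3 : F (A0 ⊓ A1ᶜ) * F (A0ᶜ ⊓ A1) = 0 :=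
    orth _ _ ((disjoint_compl_right (a := A0)).mono inf_le_left inf_le_left)
  rw [e0, e1, add_mul, mul_add, mul_add, z1, z2, z3, idem]
  simp

end clopen

end Vale.Agent.P092.H859.CL
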