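import Vale.Agent.P092.H553.Balance

/-!
P092 (helper859): the balance argument gives multiplicativity,
`Π_{z'}(f) Π_z(H) = Π_{z'}(f H)`.
-/

set_option linter.all false

open scoped InnerProductSpace
open Filter Topology ContinuousLinearMap

namespace Vale.Agent.P092.H859

open Vale.Agent.P092.H160 Vale.Agent.P092.H553

variable {Γ Λ : Type} [Group Γ] [Group Λ] {V : Λ →* (Ell2 Γ →L[ℂ] Ell2 Γ)}

/-- The balance estimate for one pair, with a bounded multiplier. -/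
theorem pair_mul (hV : Frame V) {q H f : Γ → ℝ} (hq : ∀ g, 0 ≤ q g ∧ q g ≤ 1)
    (hH : ∀ g, 0 ≤ H g ∧ H g ≤ 1) (hf : ∀ g, |f g| ≤ 1)
    (N : ℕ) (hN : 0 < N) (η ζ : Ell2 Γ) (hη : ‖η‖ ≤ 1)
    (hζ : ‖ζ‖ ≤ 1) (w : Λ) {ε : ℝ}
    (hfar : ∀ F G : Γ → ℝ, (∀ g, |F g| ≤ 1) → (∀ g, |G g| ≤ 1) →
      (∀ g h, F g ≠ 0 → G h ≠ 0 → 1 / (N : ℝ) ≤ |H g - H h|) →
      ‖⟪mo (fun g => q g * G g) ζ, Wr V w (mo (fun g => q g * F g) η)⟫_ℂ‖ ≤ ε) :
    ‖⟪mo (fun g => q g * f g) ζ, Wr V w (mo (fun g => q g * H g) η)⟫_ℂ -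
      ⟪mo (fun g => q g * (f g * H g)) ζ, Wr V w (mo q η)⟫_ℂ‖ ≤ 9 / N + 2 * (N + 1) ^ 2 * ε := by
  have hq' : ∀ g, |q g| ≤ 1 := fun g => by rw [abs_of_nonneg (hq g).1]; exact (hq g).2
  have hH' : ∀ g, |H g| ≤ 1 := fun g => by rw [abs_of_nonneg (hH g).1]; exact (hH g).2
  have hm : ∀ {a b : ℝ}, |a| ≤ 1 → |b| ≤ 1 → |a * b| ≤ 1 := fun {a b} ha hb => by
    rw [abs_mul]
    exact mul_le_one₀ ha (abs_nonneg _) hb
  have hqc : ∀ i g, |q g * cell N H i g| ≤ 1 := fun i g => hm (hq' g) (cell_abs N H i g)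
  have hqHc : ∀ i g, |q g * (H g * cell N H i g)| ≤ 1 := fun i g =>
    hm (hq' g) (hm (hH' g) (cell_abs N H i g))
  have hqfc : ∀ i g, |q g * (f g * cell N H i g)| ≤ 1 := fun i g =>
    hm (hq' g) (hm (hf g) (cell_abs N H i g))
  have hqfHc : ∀ i g, |q g * (f g * (H g * cell N H i g))| ≤ 1 := fun i g =>
    hm (hq' g) (hm (hf g) (hm (hH' g) (cell_abs N H i g)))
  have hsum : ∀ ξ : Ell2 Γ, mo q ξ =
      ∑ i ∈ Finset.range (N + 1), mo (fun g => q g * cell N H i g) ξ := by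
    intro ξ
    rw [← mo_sum (Finset.range (N + 1)) (fun i g => q g * cell N H i g) hqc]
    congr 2
    funext g
    rw [← Finset.mul_sum, cell_sum N H hH, mul_one]
  have hsum' : ∀ ξ : Ell2 Γ, mo (fun g => q g * H g) ξ =
      ∑ i ∈ Finset.range (N + 1), mo (fun g => q g * (H g * cell N H i g)) ξ := by
    intro ξ
    rw [← mo_sum (Finset.range (N + 1)) (fun i g => q g * (H g * cell N H i g)) hqHc]
    congr 2
    funext g
    rw [← Finset.mul_sum, ← Finset.mul_sum, cell_sum N H hH, mul_one]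
  have hsumf : ∀ ξ : Ell2 Γ, mo (fun g => q g * f g) ξ =
      ∑ i ∈ Finset.range (N + 1), mo (fun g => q g * (f g * cell N H i g)) ξ := by
    intro ξ
    rw [← mo_sum (Finset.range (N + 1)) (fun i g => q g * (f g * cell N H i g)) hqfc]
    congr 2
    funext g
    rw [← Finset.mul_sum, ← Finset.mul_sum, cell_sum N H hH, mul_one]
  have hsumf' : ∀ ξ : Ell2 Γ, mo (fun g => q g * (f g * H g)) ξ =
      ∑ i ∈ Finset.range (N + 1), mo (fun g => q g * (f g * (H g * cell N H i g))) ξ := by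
    intro ξ
    rw [← mo_sum (Finset.range (N + 1)) (fun i g => q g * (f g * (H g * cell N H i g))) hqfHc]
    congr 2
    funext g
    rw [← Finset.mul_sum, ← Finset.mul_sum, ← Finset.mul_sum, cell_sum N H hH, mul_one]
  have hnorm : ∀ (ξ : Ell2 Γ) (i : ℕ), ‖mo (fun g => q g * cell N H i g) ξ‖ ≤
      ‖mo (cell N H i) ξ‖ := by
    intro ξ i
    refine norm_mo_le_mo (hqc i) (cell_abs N H i) (fun g => ?_) ξ
    rw [abs_mul]
    exact mul_le_of_le_one_left (abs_nonneg _) (hq' g)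
  have hnormf : ∀ (ξ : Ell2 Γ) (i : ℕ), ‖mo (fun g => q g * (f g * cell N H i g)) ξ‖ ≤
      ‖mo (cell N H i) ξ‖ := by
    intro ξ i
    refine norm_mo_le_mo (hqfc i) (cell_abs N H i) (fun g => ?_) ξ
    rw [← mul_assoc, abs_mul]
    exact mul_le_of_le_one_left (abs_nonneg _) (hm (hq' g) (hf g))
  -- a general difference estimate
  have hdiffg : ∀ (p : Γ → ℝ), (∀ g, |p g| ≤ 1) → ∀ (ξ : Ell2 Γ) (i : ℕ),
      ‖mo (fun g => p g * (H g * cell N H i g)) ξ -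
      ((i / N : ℝ) : ℂ) • mo (fun g => p g * cell N H i g) ξ‖ ≤ 1 / N * ‖mo (cell N H i) ξ‖ := by
    intro p hp ξ i
    have hpc : ∀ g, |p g * cell N H i g| ≤ 1 := fun g => hm (hp g) (cell_abs N H i g)
    have hpHc : ∀ g, |p g * (H g * cell N H i g)| ≤ 1 := fun g =>
      hm (hp g) (hm (hH' g) (cell_abs N H i g))
    have hb1 : ∀ g, |(i / N : ℝ) * (p g * cell N H i g)| ≤ (i / N : ℝ) := fun g => by
      rw [abs_mul, abs_of_nonneg (by positivity)]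
      exact mul_le_of_le_one_right (by positivity) (hpc g)
    have hb2 : ∀ g, |(1 / N : ℝ) * cell N H i g| ≤ (1 / N : ℝ) := fun g => by
      rw [abs_mul, abs_of_nonneg (by positivity)]
      exact mul_le_of_le_one_right (by positivity) (cell_abs N H i g)
    have e1 : mo (fun g => p g * (H g * cell N H i g)) ξ -
        ((i / N : ℝ) : ℂ) • mo (fun g => p g * cell N H i g) ξ =
        mo (fun g => p g * (H g * cell N H i g) - (i / N : ℝ) * (p g * cell N H i g)) ξ := by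
      rw [mo_sub hpHc hb1, mo_smul _ hpc]
    have e2 : ((1 / N : ℝ) : ℝ) * ‖mo (cell N H i) ξ‖ =
        ‖mo (fun g => (1 / N : ℝ) * cell N H i g) ξ‖ := by
      rw [mo_smul _ (cell_abs N H i), norm_smul, Complex.norm_real,
        Real.norm_of_nonneg (by positivity)]
    rw [e1, e2]
    refine norm_mo_le_mo (C := 1 + i / N) (fun g => ?_) hb2 (fun g => ?_) ξ
    · exact (abs_sub _ _).trans (add_le_add (hpHc g) (hb1 g))
    · have e3 : p g * (H g * cell N H i g) - (i / N : ℝ) * (p g * cell N H i g) =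
          p g * ((H g - i / N) * cell N H i g) := by ring
      rw [e3, abs_mul]
      exact (mul_le_of_le_one_left (abs_nonneg _) (hp g)).trans (cell_near N H hN hH i g)
  have hdiff : ∀ (ξ : Ell2 Γ) (i : ℕ), ‖mo (fun g => q g * (H g * cell N H i g)) ξ -
      ((i / N : ℝ) : ℂ) • mo (fun g => q g * cell N H i g) ξ‖ ≤ 1 / N * ‖mo (cell N H i) ξ‖ :=
    hdiffg q hq'
  have hdifff : ∀ (ξ : Ell2 Γ) (i : ℕ),
      ‖mo (fun g => q g * (f g * (H g * cell N H i g))) ξ -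
      ((i / N : ℝ) : ℂ) • mo (fun g => q g * (f g * cell N H i g)) ξ‖ ≤
        1 / N * ‖mo (cell N H i) ξ‖ := by
    intro ξ i
    have h := hdiffg (fun g => q g * f g) (fun g => hm (hq' g) (hf g)) ξ i
    simpa only [mul_assoc] using h
  have hsq : ∀ ξ : Ell2 Γ, ‖ξ‖ ≤ 1 →
      ∑ i ∈ Finset.range (N + 1), ‖mo (cell N H i) ξ‖ ^ 2 ≤ 1 := by
    intro ξ hξ
    have h1 : ∀ i, ‖mo (cell N H i) ξ‖ ^ 2 = (⟪ξ, mo (cell N H i) ξ⟫_ℂ).re := by
      intro i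
      rw [inner_mo (cell_abs N H i), Complex.ofReal_re, norm_mo_sq (cell_abs N H i)]
      refine tsum_congr fun g => ?_
      rw [cell_sq]
    rw [Finset.sum_congr rfl fun i _ => h1 i, ← Complex.re_sum, ← inner_sum,
      ← mo_sum (Finset.range (N + 1)) (fun i => cell N H i) (cell_abs N H)]
    have h2 : (fun g => ∑ i ∈ Finset.range (N + 1), cell N H i g) = fun _ => (1 : ℝ) := by
      funext g
      exact cell_sum N H hH g
    rw [h2, mo_one, inner_self_eq_norm_sq_to_K]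
    have h3 : ‖ξ‖ ^ 2 ≤ 1 := pow_le_one₀ (norm_nonneg _) hξ
    have h4 : (((‖ξ‖ : ℂ)) ^ 2).re = ‖ξ‖ ^ 2 := by
      rw [← Complex.ofReal_pow, Complex.ofReal_re]
    exact h4.le.trans h3
  rw [hsumf ζ, hsum' η, hsumf' ζ, hsum η]
  refine double_sum N hN _ _ _ _ (fun i => ‖mo (cell N H i) η‖) (fun i => ‖mo (cell N H i) ζ‖)
    (Wr V w) (norm_W hV w) (hsq η hη) (hsq ζ hζ) (hnorm η) (hnormf ζ) (hdiff η) (hdifff ζ) ?_
  intro i j hij
  constructor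
  · refine hfar (fun g => H g * cell N H i g) (fun g => f g * cell N H j g)
      (fun g => hm (hH' g) (cell_abs N H i g)) (fun g => hm (hf g) (cell_abs N H j g))
      (fun g h hg hh => ?_)
    exact cell_far N H hN hH hij (fun h0 => hg (by rw [h0, mul_zero]))
      (fun h0 => hh (by rw [h0, mul_zero]))
  · refine hfar (cell N H i) (fun g => f g * (H g * cell N H j g)) (cell_abs N H i)
      (fun g => hm (hf g) (hm (hH' g) (cell_abs N H j g))) (fun g h hg hh => ?_)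
    exact cell_far N H hN hH hij hg (fun h0 => hh (by rw [h0, mul_zero, mul_zero]))

/-- Multiplicativity on matrix coefficients. -/
theorem bal_mul_dl (hV : Frame V) (hsep : SepEst V) (U : Ultrafilter ℕ) (z z' : ℕ → Λ)
    {q H f : Γ → ℝ} (hq : ∀ g, 0 ≤ q g ∧ q g ≤ 1) (hH : ∀ g, 0 ≤ H g ∧ H g ≤ 1)
    (hf : ∀ g, |f g| ≤ 1)
    (h1 : Pi2 U V z q (fun _ => 1) = 1) (a b : Γ)
    (hfar : Far U V z z' q H a b) :
    ⟪Pi2 U V z' q f (dl b : Ell2 Γ), Pi2 U V z q H (dl a)⟫_ℂ =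
      ⟪Pi2 U V z' q (fun g => f g * H g) (dl b : Ell2 Γ), (dl a : Ell2 Γ)⟫_ℂ := by
  have hq' : ∀ g, |q g| ≤ 1 := fun g => by rw [abs_of_nonneg (hq g).1]; exact (hq g).2
  have hH' : ∀ g, |H g| ≤ 1 := fun g => by rw [abs_of_nonneg (hH g).1]; exact (hH g).2
  have hm : ∀ {a b : ℝ}, |a| ≤ 1 → |b| ≤ 1 → |a * b| ≤ 1 := fun {a b} ha hb => by
    rw [abs_mul]
    exact mul_le_one₀ ha (abs_nonneg _) hb
  have hqH : ∀ g, |q g * H g| ≤ 1 := fun g => hm (hq' g) (hH' g)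
  have hqf : ∀ g, |q g * f g| ≤ 1 := fun g => hm (hq' g) (hf g)
  have hqfH : ∀ g, |q g * (f g * H g)| ≤ 1 := fun g => hm (hq' g) (hm (hf g) (hH' g))
  have hq1 : (fun g => q g * (1 : ℝ)) = q := by
    funext g; rw [mul_one]
  -- the approximants
  obtain ⟨A, hA⟩ : ∃ A : (Γ → ℝ) → Λ → Γ → Ell2 Γ, A = fun F w c =>
    Wr V w⁻¹ (mo F (Wr V w (dl c))) := ⟨_, rfl⟩
  have hAspec : ∀ (y : ℕ → Λ) (F : Γ → ℝ), (∀ g, |F g| ≤ 1) → ∀ (ξ : Ell2 Γ) (c : Γ),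
      Tendsto (fun k => ⟪ξ, A F (y k) c⟫_ℂ) U (𝓝 ⟪ξ, PiL U V y (fun _ => F) (dl c)⟫_ℂ) := by
    intro y F hF ξ c
    refine (pl_spec (U := U) (z := y) (F := fun _ => F) hV (fun _ => hF) ξ (dl c)).congr
      fun k => ?_
    rw [hA]
    have := (regRep_W hV).inner_left (y k) ξ (mo F (Wr V (y k) (dl c)))
    rw [this]
  have hAspec' : ∀ (y : ℕ → Λ) (F : Γ → ℝ), (∀ g, |F g| ≤ 1) → ∀ (ξ : Ell2 Γ) (c : Γ),
      Tendsto (fun k => ⟪A F (y k) c, ξ⟫_ℂ) U (𝓝 ⟪PiL U V y (fun _ => F) (dl c), ξ⟫_ℂ) := by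
    intro y F hF ξ c
    have h2 := (Complex.continuous_conj.tendsto _).comp (hAspec y F hF ξ c)
    rw [inner_conj_symm] at h2
    refine h2.congr fun k => ?_
    rw [Function.comp_apply, inner_conj_symm]
  obtain ⟨A2, hA2⟩ : ∃ A2 : (Γ → ℝ) → Λ → Γ → Ell2 Γ, A2 = fun F w c =>
    A F w c + A F w⁻¹ c := ⟨_, rfl⟩
  have hA2spec : ∀ (y : ℕ → Λ) (F : Γ → ℝ), (∀ g, |q g * F g| ≤ 1) → ∀ (ξ : Ell2 Γ) (c : Γ),
      Tendsto (fun k => ⟪ξ, A2 (fun g => q g * F g) (y k) c⟫_ℂ) U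
        (𝓝 ⟪ξ, Pi2 U V y q F (dl c)⟫_ℂ) := by
    intro y F hF ξ c
    rw [Pi2, add_apply, inner_add_right]
    refine ((hAspec y _ hF ξ c).add (hAspec (fun k => (y k)⁻¹) _ hF ξ c)).congr fun k => ?_
    rw [hA2, ← inner_add_right]
  have hA2spec' : ∀ (y : ℕ → Λ) (F : Γ → ℝ), (∀ g, |q g * F g| ≤ 1) → ∀ (ξ : Ell2 Γ) (c : Γ),
      Tendsto (fun k => ⟪A2 (fun g => q g * F g) (y k) c, ξ⟫_ℂ) U
        (𝓝 ⟪Pi2 U V y q F (dl c), ξ⟫_ℂ) := by
    intro y F hF ξ c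
    rw [Pi2, add_apply, inner_add_left]
    refine ((hAspec' y _ hF ξ c).add (hAspec' (fun k => (y k)⁻¹) _ hF ξ c)).congr fun k => ?_
    rw [hA2, ← inner_add_left]
  have hone : ∀ g, |q g * (fun _ => (1 : ℝ)) g| ≤ 1 := fun g => by
    change |q g * 1| ≤ 1
    rw [mul_one]; exact hq' g
  have l1 := hA2spec z H hqH (Pi2 U V z' q f (dl b)) a
  have l2 : Tendsto (fun k => ⟪Pi2 U V z' q (fun g => f g * H g) (dl b),
      A2 (fun g => q g * 1) (z k) a⟫_ℂ) U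
      (𝓝 ⟪Pi2 U V z' q (fun g => f g * H g) (dl b), (dl a : Ell2 Γ)⟫_ℂ) := by
    have := hA2spec z (fun _ => 1) hone (Pi2 U V z' q (fun g => f g * H g) (dl b)) a
    rw [h1] at this
    exact this
  have hd := l1.sub l2
  suffices hz : Tendsto (fun k => ⟪Pi2 U V z' q f (dl b : Ell2 Γ), A2 (fun g => q g * H g) (z k) a⟫_ℂ -
      ⟪Pi2 U V z' q (fun g => f g * H g) (dl b), A2 (fun g => q g * 1) (z k) a⟫_ℂ) U (𝓝 0) by
    exact sub_eq_zero.mp (tendsto_nhds_unique hd hz)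
  rw [Metric.tendsto_nhds]
  intro ε₀ hε₀
  obtain ⟨N, hN⟩ := exists_nat_gt (72 / ε₀)
  have hNpos : 0 < N := by
    have : (0 : ℝ) < N := lt_trans (by positivity) hN
    exact_mod_cast this
  have hN' : (0 : ℝ) < N := by exact_mod_cast hNpos
  obtain ⟨ε, hε0, hε⟩ : ∃ ε : ℝ, 0 < ε ∧ 24 * ((N : ℝ) + 1) ^ 2 * ε ≤ ε₀ / 4 := by
    refine ⟨ε₀ / (96 * ((N : ℝ) + 1) ^ 2), by positivity, ?_⟩
    rw [mul_div_assoc', div_le_iff₀ (by positivity)]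
    nlinarith
  have hbound : 4 * (9 / N + 2 * ((N : ℝ) + 1) ^ 2 * (3 * ε)) ≤ 3 * ε₀ / 4 := by
    have h3 : 36 / (N : ℝ) ≤ ε₀ / 2 := by
      rw [div_le_div_iff₀ hN' (by norm_num)]
      rw [div_lt_iff₀ hε₀] at hN
      linarith
    calc 4 * (9 / N + 2 * ((N : ℝ) + 1) ^ 2 * (3 * ε)) =
          36 / N + 24 * ((N : ℝ) + 1) ^ 2 * ε := by ring
      _ ≤ ε₀ / 2 + ε₀ / 4 := add_le_add h3 hε
      _ = 3 * ε₀ / 4 := by ring
  obtain ⟨E, P, T, f1, f2, f3, f4, f5⟩ := hfar (1 / N) (by positivity) ε hε0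
  filter_upwards [f1] with k hk
  rw [dist_zero_right]
  -- the inner limit
  have m1 := hA2spec' z' f hqf (A2 (fun g => q g * H g) (z k) a) b
  have m2 := hA2spec' z' (fun g => f g * H g) hqfH (A2 (fun g => q g * 1) (z k) a) b
  have m3 := (m1.sub m2).norm
  refine lt_of_le_of_lt (le_of_tendsto m3 ?_) (show 3 * ε₀ / 4 < ε₀ by linarith)
  filter_upwards [f2] with l hl
  have hpair : ∀ w v, (w = z k ∨ w = (z k)⁻¹) → (v = z' l ∨ v = (z' l)⁻¹) →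
      ‖⟪A (fun g => q g * f g) v b, A (fun g => q g * H g) w a⟫_ℂ -
        ⟪A (fun g => q g * (f g * H g)) v b, A q w a⟫_ℂ‖ ≤
        9 / N + 2 * ((N : ℝ) + 1) ^ 2 * (3 * ε) := by
    intro w v hw hv
    simp only [hA]
    rw [pair_W hV, pair_W hV]
    have hη : ‖Wr V w (dl a : Ell2 Γ)‖ ≤ 1 := by rw [norm_W hV, norm_dl]
    have hζ : ‖Wr V v (dl b : Ell2 Γ)‖ ≤ 1 := by rw [norm_W hV, norm_dl]
    refine pair_mul hV hq hH hf N hNpos _ _ hη hζ (v * w⁻¹) ?_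
    intro F G hF hG hFG
    have hu := f5 k l w v hw hv
    have := far_estimate hV hsep hq (H := H) _ _ hη hζ (w * v⁻¹) (hk w hw) (hl v hv) f3 f4 hu
      F G hF hG hFG
    rw [mul_inv_rev, inv_inv] at this
    exact this
  have p1 := hpair (z k) (z' l) (Or.inl rfl) (Or.inl rfl)
  have p2 := hpair (z k)⁻¹ (z' l) (Or.inr rfl) (Or.inl rfl)
  have p3 := hpair (z k) (z' l)⁻¹ (Or.inl rfl) (Or.inr rfl)
  have p4 := hpair (z k)⁻¹ (z' l)⁻¹ (Or.inr rfl) (Or.inr rfl)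
  refine le_trans ?_ hbound
  rw [hq1]
  simp only [hA2]
  have e1 : ⟪A (fun g => q g * f g) (z' l) b + A (fun g => q g * f g) (z' l)⁻¹ b,
        A (fun g => q g * H g) (z k) a + A (fun g => q g * H g) (z k)⁻¹ a⟫_ℂ -
      ⟪A (fun g => q g * (f g * H g)) (z' l) b + A (fun g => q g * (f g * H g)) (z' l)⁻¹ b,
        A q (z k) a + A q (z k)⁻¹ a⟫_ℂ =
      (⟪A (fun g => q g * f g) (z' l) b, A (fun g => q g * H g) (z k) a⟫_ℂ -
        ⟪A (fun g => q g * (f g * H g)) (z' l) b, A q (z k) a⟫_ℂ) +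
      (⟪A (fun g => q g * f g) (z' l) b, A (fun g => q g * H g) (z k)⁻¹ a⟫_ℂ -
        ⟪A (fun g => q g * (f g * H g)) (z' l) b, A q (z k)⁻¹ a⟫_ℂ) +
      (⟪A (fun g => q g * f g) (z' l)⁻¹ b, A (fun g => q g * H g) (z k) a⟫_ℂ -
        ⟪A (fun g => q g * (f g * H g)) (z' l)⁻¹ b, A q (z k) a⟫_ℂ) +
      (⟪A (fun g => q g * f g) (z' l)⁻¹ b, A (fun g => q g * H g) (z k)⁻¹ a⟫_ℂ -
        ⟪A (fun g => q g * (f g * H g)) (z' l)⁻¹ b, A q (z k)⁻¹ a⟫_ℂ) := by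
    simp only [inner_add_left, inner_add_right]
    ring
  rw [e1]
  calc _ ≤ _ := (norm_add_le _ _).trans (add_le_add_left norm_add₃_le _)
    _ ≤ (9 / N + 2 * ((N : ℝ) + 1) ^ 2 * (3 * ε)) + (9 / N + 2 * ((N : ℝ) + 1) ^ 2 * (3 * ε)) +
        (9 / N + 2 * ((N : ℝ) + 1) ^ 2 * (3 * ε)) + (9 / N + 2 * ((N : ℝ) + 1) ^ 2 * (3 * ε)) :=
        add_le_add (add_le_add (add_le_add p1 p2) p3) p4
    _ = _ := by ring

theorem pi2_symm' (hV : Frame V) {U : Ultrafilter ℕ} {z : ℕ → Λ} {q F : Γ → ℝ} {C : ℝ}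
    (hF : ∀ g, |q g * F g| ≤ C) (ξ η : Ell2 Γ) :
    ⟪Pi2 U V z q F ξ, η⟫_ℂ = ⟪ξ, Pi2 U V z q F η⟫_ℂ := by
  rw [Pi2, add_apply, add_apply, inner_add_left, inner_add_right,
    pl_sym hV (fun _ => hF), pl_sym hV (fun _ => hF)]

/-- Multiplicativity. -/
theorem bal_mul (hV : Frame V) (hsep : SepEst V) (U : Ultrafilter ℕ) (z z' : ℕ → Λ)
    {q H f : Γ → ℝ} (hq : ∀ g, 0 ≤ q g ∧ q g ≤ 1) (hH : ∀ g, 0 ≤ H g ∧ H g ≤ 1)
    (hf : ∀ g, |f g| ≤ 1)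
    (h1 : Pi2 U V z q (fun _ => 1) = 1)
    (hfar : ∀ a b, Far U V z z' q H a b) :
    Pi2 U V z' q f * Pi2 U V z q H = Pi2 U V z' q (fun g => f g * H g) := by
  have hq' : ∀ g, |q g| ≤ 1 := fun g => by rw [abs_of_nonneg (hq g).1]; exact (hq g).2
  have hH' : ∀ g, |H g| ≤ 1 := fun g => by rw [abs_of_nonneg (hH g).1]; exact (hH g).2
  have hm : ∀ {a b : ℝ}, |a| ≤ 1 → |b| ≤ 1 → |a * b| ≤ 1 := fun {a b} ha hb => by
    rw [abs_mul]
    exact mul_le_one₀ ha (abs_nonneg _) hb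
  apply op_ext
  intro a
  refine ext_inner_dl fun b => ?_
  rw [← inner_dl, ← inner_dl, mul_ap, ← pi2_symm' hV (fun g => hm (hq' g) (hf g)),
    bal_mul_dl hV hsep U z z' hq hH hf h1 a b (hfar a b),
    pi2_symm' hV (fun g => hm (hq' g) (hm (hf g) (hH' g)))]

/-- Multiplicativity, for one sequence, both orders. -/
theorem bal_mul_comm (hV : Frame V) (hsep : SepEst V) (U : Ultrafilter ℕ) (z : ℕ → Λ)
    {q H f : Γ → ℝ} (hq : ∀ g, 0 ≤ q g ∧ q g ≤ 1) (hH : ∀ g, 0 ≤ H g ∧ H g ≤ 1)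
    (hf : ∀ g, |f g| ≤ 1)
    (h1 : Pi2 U V z q (fun _ => 1) = 1)
    (hfar : ∀ a b, Far U V z z q H a b) :
    Pi2 U V z q H * Pi2 U V z q f = Pi2 U V z q (fun g => f g * H g) := by
  have hq' : ∀ g, |q g| ≤ 1 := fun g => by rw [abs_of_nonneg (hq g).1]; exact (hq g).2
  have hH' : ∀ g, |H g| ≤ 1 := fun g => by rw [abs_of_nonneg (hH g).1]; exact (hH g).2
  have hm : ∀ {a b : ℝ}, |a| ≤ 1 → |b| ≤ 1 → |a * b| ≤ 1 := fun {a b} ha hb => by
    rw [abs_mul]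
    exact mul_le_one₀ ha (abs_nonneg _) hb
  have h := bal_mul hV hsep U z z hq hH hf h1 hfar
  refine op_ext_inner fun ξ η => ?_
  rw [mul_ap, ← pi2_symm' hV (fun g => hm (hq' g) (hH' g)),
    ← pi2_symm' hV (fun g => hm (hq' g) (hf g)), ← mul_ap, h,
    pi2_symm' hV (fun g => hm (hq' g) (hm (hf g) (hH' g)))]

end Vale.Agent.P092.H859
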