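import Mathlib

/-!
P092 (helper859), block C-LIM, part 1: wall limits of set projections, abstract form.
`m S` are the projections onto the coordinates in `S ⊆ Γ`, `R v` the representation of the source
group, `P w S = R w⁻¹ m(S) R w`.
-/

set_option linter.all false

open scoped InnerProductSpace Pointwise
open Filter Topology ContinuousLinearMap

namespace Vale.Agent.P092.H859.CL

section basic

variable {K : Type} [NormedAddCommGroup K] [InnerProductSpace ℂ K] [CompleteSpace K]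

theorem mul_ap' (S T : K →L[ℂ] K) (ξ : K) : (S * T) ξ = S (T ξ) := rfl

/-- Forms `⟪P i ξ, Q i η⟫` of contractions tend to zero if they do so on a total set. -/
theorem form_of_total {ι : Type} {l : Filter ι} {P Q : ι → (K →L[ℂ] K)} (hP : ∀ i, ‖P i‖ ≤ 1)
    (hQ : ∀ i, ‖Q i‖ ≤ 1) {Bd : Set K} (hB : Dense ((Submodule.span ℂ Bd : Submodule ℂ K) : Set K))
    (h : ∀ ξ ∈ Bd, ∀ η ∈ Bd, Tendsto (fun i => ⟪P i ξ, Q i η⟫_ℂ) l (𝓝 0)) (ξ η : K) :
    Tendsto (fun i => ⟪P i ξ, Q i η⟫_ℂ) l (𝓝 0) := by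
  -- one variable at a time
  have key : ∀ (f : ι → K → ℂ) (hf0 : ∀ i, f i 0 = 0) (hadd : ∀ i x y, f i (x + y) = f i x + f i y)
      (C : ℝ) (hC : 0 ≤ C) (hb : ∀ i x, ‖f i x‖ ≤ C * ‖x‖)
      (hs : ∀ (c : ℂ) (i : ι) (x : K), ‖f i (c • x)‖ = ‖c‖ * ‖f i x‖)
      (h : ∀ x ∈ Bd, Tendsto (fun i => f i x) l (𝓝 0)) (x : K),
      Tendsto (fun i => f i x) l (𝓝 0) := by
    intro f hf0 hadd C hC hb hs h x
    have h1 : ∀ y ∈ Submodule.span ℂ Bd, Tendsto (fun i => f i y) l (𝓝 0) := by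
      intro y hy
      induction hy using Submodule.span_induction with
      | mem x hx => exact h x hx
      | zero => simp only [hf0]; exact tendsto_const_nhds
      | add x y _ _ hx hy =>
        have := hx.add hy
        rw [add_zero] at this
        exact this.congr fun i => (hadd i x y).symm
      | smul c x _ hx =>
        rw [tendsto_zero_iff_norm_tendsto_zero] at hx ⊢
        have := hx.const_mul ‖c‖
        rw [mul_zero] at this
        exact this.congr fun i => (hs c i x).symm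
    rw [Metric.tendsto_nhds]
    intro ε hε
    obtain ⟨y, hy, hd⟩ := Metric.mem_closure_iff.mp (hB x) (ε / (2 * (C + 1))) (by positivity)
    filter_upwards [(Metric.tendsto_nhds.mp (h1 y hy)) (ε / 2) (by positivity)] with i hi
    rw [dist_zero_right] at hi ⊢
    have h2 : f i x = f i (x - y) + f i y := by rw [← hadd, sub_add_cancel]
    rw [h2]
    rw [dist_eq_norm] at hd
    have h3 : ‖f i (x - y)‖ ≤ ε / 2 := by
      calc _ ≤ C * ‖x - y‖ := hb i _
        _ ≤ (C + 1) * (ε / (2 * (C + 1))) := by gcongr; linarith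
        _ = ε / 2 := by field_simp
    calc _ ≤ ‖f i (x - y)‖ + ‖f i y‖ := norm_add_le _ _
      _ < ε := by linarith
  have bd : ∀ i x y, ‖⟪P i x, Q i y⟫_ℂ‖ ≤ ‖x‖ * ‖y‖ := by
    intro i x y
    refine (norm_inner_le_norm _ _).trans ?_
    have a1 : ‖P i x‖ ≤ ‖x‖ := ((P i).le_opNorm x).trans
      (mul_le_of_le_one_left (norm_nonneg _) (hP i))
    have a2 : ‖Q i y‖ ≤ ‖y‖ := ((Q i).le_opNorm y).trans
      (mul_le_of_le_one_left (norm_nonneg _) (hQ i))
    gcongr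
  have h1 : ∀ ξ ∈ Bd, ∀ η, Tendsto (fun i => ⟪P i ξ, Q i η⟫_ℂ) l (𝓝 0) := by
    intro ξ hξ η
    refine key (fun i x => ⟪P i ξ, Q i x⟫_ℂ) (fun i => by simp)
      (fun i x y => by simp only [map_add, inner_add_right]) ‖ξ‖ (norm_nonneg _)
      (fun i x => bd i ξ x) (fun c i x => ?_) (h ξ hξ) η
    rw [map_smul, inner_smul_right, norm_mul]
  refine key (fun i x => ⟪P i x, Q i η⟫_ℂ) (fun i => by simp)
    (fun i x y => by simp only [map_add, inner_add_left]) ‖η‖ (norm_nonneg _)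
    (fun i x => by rw [mul_comm]; exact bd i x η) (fun c i x => ?_) (fun x hx => h1 x hx η) ξ
  rw [map_smul, inner_smul_left, norm_mul, RCLike.norm_conj]

/-- Vectors `f i ξ` of contractions tend to zero if they do so on a total set. -/
theorem vec_of_total {ι : Type} {l : Filter ι} {f : ι → (K →L[ℂ] K)} {C : ℝ}
    (hP : ∀ i, ‖f i‖ ≤ C)
    {Bd : Set K} (hB : Dense ((Submodule.span ℂ Bd : Submodule ℂ K) : Set K))
    (h : ∀ ξ ∈ Bd, Tendsto (fun i => f i ξ) l (𝓝 0)) (ξ : K) :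
    Tendsto (fun i => f i ξ) l (𝓝 0) := by
  rcases isEmpty_or_nonempty ι with hι | ⟨⟨i0⟩⟩
  · have : l = ⊥ := Filter.filter_eq_bot_of_isEmpty l
    rw [this]; exact tendsto_bot
  have hC : 0 ≤ C := (norm_nonneg _).trans (hP i0)
  have h1 : ∀ y ∈ Submodule.span ℂ Bd, Tendsto (fun i => f i y) l (𝓝 0) := by
    intro y hy
    induction hy using Submodule.span_induction with
    | mem x hx => exact h x hx
    | zero => simp only [map_zero]; exact tendsto_const_nhds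
    | add x y _ _ hx hy =>
      have := hx.add hy
      rw [add_zero] at this
      exact this.congr fun i => (map_add _ _ _).symm
    | smul c x _ hx =>
      have := hx.const_smul c
      rw [smul_zero] at this
      exact this.congr fun i => (map_smul _ _ _).symm
  rw [Metric.tendsto_nhds]
  intro ε hε
  obtain ⟨y, hy, hd⟩ := Metric.mem_closure_iff.mp (hB ξ) (ε / (2 * (C + 1))) (by positivity)
  filter_upwards [(Metric.tendsto_nhds.mp (h1 y hy)) (ε / 2) (by positivity)] with i hi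
  rw [dist_zero_right] at hi ⊢
  have h2 : f i ξ = f i (ξ - y) + f i y := by rw [← map_add, sub_add_cancel]
  rw [h2]
  rw [dist_eq_norm] at hd
  have h3 : ‖f i (ξ - y)‖ ≤ ε / 2 := by
    calc _ ≤ ‖f i‖ * ‖ξ - y‖ := (f i).le_opNorm _
      _ ≤ (C + 1) * (ε / (2 * (C + 1))) := by
          have := hP i
          gcongr
          linarith
      _ = ε / 2 := by field_simp
  calc _ ≤ ‖f i (ξ - y)‖ + ‖f i y‖ := norm_add_le _ _
    _ < ε := by linarith

end basic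

/-! ### Set projections -/

/-- Projections onto sets of coordinates. -/
structure Prj {Γ K : Type} [NormedAddCommGroup K] [InnerProductSpace ℂ K] [CompleteSpace K]
    (m : Set Γ → (K →L[ℂ] K)) : Prop where
  adj : ∀ S, adjoint (m S) = m S
  inter : ∀ S T, m (S ∩ T) = m S * m T
  compl : ∀ S, m Sᶜ = 1 - m S

/-- Representations by partial isometries with a common support `R 1`. -/
structure Rep {D K : Type} [Group D] [NormedAddCommGroup K] [InnerProductSpace ℂ K]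
    [CompleteSpace K] (R : D → (K →L[ℂ] K)) : Prop where
  mul : ∀ v w, R (v * w) = R v * R w
  adj : ∀ v, adjoint (R v) = R v⁻¹

section prj

variable {Γ K : Type} [NormedAddCommGroup K] [InnerProductSpace ℂ K] [CompleteSpace K]
  {m : Set Γ → (K →L[ℂ] K)}

namespace Prj

theorem idem (h : Prj m) (S : Set Γ) : m S * m S = m S := by
  rw [← h.inter, Set.inter_self]

theorem comm (h : Prj m) (S T : Set Γ) : m S * m T = m T * m S := by
  rw [← h.inter, ← h.inter, Set.inter_comm]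

theorem mul_compl (h : Prj m) (S : Set Γ) : m S * m Sᶜ = 0 := by
  rw [h.compl, mul_sub, mul_one, h.idem, sub_self]

theorem empty (h : Prj m) : m ∅ = 0 := by
  rw [← Set.inter_compl_self (∅ : Set Γ), h.inter, h.mul_compl]

theorem univ (h : Prj m) : m Set.univ = 1 := by
  rw [← Set.compl_empty, h.compl, h.empty, sub_zero]

theorem sub_mul (h : Prj m) {S T : Set Γ} (hST : S ⊆ T) : m S * m T = m S := by
  rw [← h.inter, Set.inter_eq_left.mpr hST]

theorem sub_mul' (h : Prj m) {S T : Set Γ} (hST : S ⊆ T) : m T * m S = m S := by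
  rw [← h.inter, Set.inter_eq_right.mpr hST]

theorem disj (h : Prj m) {S T : Set Γ} (hST : Disjoint S T) : m S * m T = 0 := by
  rw [← h.inter, Set.disjoint_iff_inter_eq_empty.mp hST, h.empty]

theorem diff (h : Prj m) {S T : Set Γ} (hST : S ⊆ T) : m (T \ S) = m T - m S := by
  rw [Set.diff_eq, h.inter, h.compl, mul_sub, mul_one, h.sub_mul' hST]

theorem union (h : Prj m) {S T : Set Γ} (hST : Disjoint S T) : m (S ∪ T) = m S + m T := by
  have h1 := h.diff (Set.subset_union_left (s := S) (t := T))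
  rw [Set.union_diff_left, sdiff_eq_left.mpr hST.symm] at h1
  rw [h1]; abel

theorem split (h : Prj m) (S T : Set Γ) : m S = m (S ∩ T) + m (S \ T) := by
  rw [← h.union (Set.disjoint_sdiff_inter.symm), Set.inter_union_diff]

theorem inner_self (h : Prj m) (S : Set Γ) (ξ : K) : ⟪m S ξ, ξ⟫_ℂ = ((‖m S ξ‖ ^ 2 : ℝ) : ℂ) := by
  have h1 : ⟪m S ξ, ξ⟫_ℂ = ⟪m S ξ, m S ξ⟫_ℂ := by
    conv_lhs => rw [← h.idem S]
    rw [mul_ap', ← h.adj S, adjoint_inner_left, h.adj]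
  rw [h1, inner_self_eq_norm_sq_to_K]
  norm_cast

theorem norm_sq_add (h : Prj m) (S : Set Γ) (ξ : K) :
    ‖m S ξ‖ ^ 2 + ‖m Sᶜ ξ‖ ^ 2 = ‖ξ‖ ^ 2 := by
  have h1 := h.inner_self S ξ
  have h2 := h.inner_self Sᶜ ξ
  have h3 : m Sᶜ ξ = ξ - m S ξ := by rw [h.compl]; rfl
  have h4 : ⟪m Sᶜ ξ, ξ⟫_ℂ = ⟪ξ, ξ⟫_ℂ - ⟪m S ξ, ξ⟫_ℂ := by rw [h3, inner_sub_left]
  rw [h1, h2, inner_self_eq_norm_sq_to_K] at h4
  have h5 : ((‖m Sᶜ ξ‖ ^ 2 : ℝ) : ℂ) = ((‖ξ‖ ^ 2 - ‖m S ξ‖ ^ 2 : ℝ) : ℂ) := by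
    rw [h4]; push_cast; rfl
  have h6 := Complex.ofReal_injective h5
  linarith

theorem norm_le (h : Prj m) (S : Set Γ) (ξ : K) : ‖m S ξ‖ ≤ ‖ξ‖ := by
  have h1 := h.norm_sq_add S ξ
  have h2 : ‖m S ξ‖ ^ 2 ≤ ‖ξ‖ ^ 2 := by nlinarith [sq_nonneg ‖m Sᶜ ξ‖]
  exact (pow_le_pow_iff_left₀ (norm_nonneg _) (norm_nonneg _) two_ne_zero).mp h2

theorem opNorm_le (h : Prj m) (S : Set Γ) : ‖m S‖ ≤ 1 :=
  ContinuousLinearMap.opNorm_le_bound _ zero_le_one fun ξ => by rw [one_mul]; exact h.norm_le S ξ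

theorem mono (h : Prj m) {S T : Set Γ} (hST : S ⊆ T) (ξ : K) : ‖m S ξ‖ ≤ ‖m T ξ‖ := by
  rw [← h.sub_mul hST]
  exact h.norm_le S _

theorem norm_union_le (h : Prj m) (S T : Set Γ) (ξ : K) :
    ‖m (S ∪ T) ξ‖ ≤ ‖m S ξ‖ + ‖m T ξ‖ := by
  have h1 := h.split (S ∪ T) S
  rw [Set.union_inter_cancel_left, Set.union_diff_left] at h1
  rw [h1, add_apply]
  exact (norm_add_le _ _).trans (by have := h.mono (Set.diff_subset (s := T) (t := S)) ξ; linarith)

/-- Differences of projections are controlled by the symmetric difference. -/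
theorem sub_le (h : Prj m) {S T N : Set Γ} (h1 : ∀ g, g ∉ N → (g ∈ S ↔ g ∈ T)) (ξ : K) :
    ‖m S ξ - m T ξ‖ ≤ 2 * ‖m N ξ‖ := by
  have e1 := h.split S N
  have e2 := h.split T N
  have e3 : S \ N = T \ N := by
    ext g
    simp only [Set.mem_diff]
    constructor
    · rintro ⟨a, b⟩; exact ⟨(h1 g b).1 a, b⟩
    · rintro ⟨a, b⟩; exact ⟨(h1 g b).2 a, b⟩
  rw [e1, e2, e3, add_apply, add_apply, add_sub_add_right_eq_sub]
  have a1 := h.mono (Set.inter_subset_right (s := S) (t := N)) ξ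
  have a2 := h.mono (Set.inter_subset_right (s := T) (t := N)) ξ
  calc _ ≤ ‖m (S ∩ N) ξ‖ + ‖m (T ∩ N) ξ‖ := norm_sub_le _ _
    _ ≤ _ := by linarith

/-- Finite sets: projections tend to zero if they do so at the points. -/
theorem tendsto_finite (h : Prj m) {ι : Type} {l : Filter ι} {f : ι → K}
    (hf : ∀ g, Tendsto (fun i => ‖m {g} (f i)‖) l (𝓝 0)) {S : Set Γ} (hS : S.Finite) :
    Tendsto (fun i => ‖m S (f i)‖) l (𝓝 0) := by
  induction S, hS using Set.Finite.induction_on with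
  | empty => simp only [h.empty, zero_apply, norm_zero]; exact tendsto_const_nhds
  | @insert a s _ _ ih =>
    have h1 := (hf a).add ih
    rw [add_zero] at h1
    refine squeeze_zero (fun i => norm_nonneg _) (fun i => ?_) h1
    have := h.norm_union_le {a} s (f i)
    rwa [Set.singleton_union] at this

end Prj

end prj

section rep

variable {D K : Type} [Group D] [NormedAddCommGroup K] [InnerProductSpace ℂ K]
  [CompleteSpace K] {R : D → (K →L[ℂ] K)}

namespace Rep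

theorem one_mul' (h : Rep R) (v : D) : R 1 * R v = R v := by rw [← h.mul, one_mul]

theorem mul_one' (h : Rep R) (v : D) : R v * R 1 = R v := by rw [← h.mul, mul_one]

theorem one_adj (h : Rep R) : adjoint (R 1) = R 1 := by rw [h.adj, inv_one]

theorem inner_left (h : Rep R) (v : D) (ξ η : K) : ⟪R v ξ, η⟫_ℂ = ⟪ξ, R v⁻¹ η⟫_ℂ := by
  rw [← h.adj, adjoint_inner_right]

theorem inner_right (h : Rep R) (v : D) (ξ η : K) : ⟪ξ, R v η⟫_ℂ = ⟪R v⁻¹ ξ, η⟫_ℂ := by
  rw [← h.adj, adjoint_inner_left]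

theorem norm_one_le (h : Rep R) (ξ : K) : ‖R 1 ξ‖ ≤ ‖ξ‖ := by
  have h1 : ⟪R 1 ξ, R 1 ξ⟫_ℂ = ⟪ξ, R 1 ξ⟫_ℂ := by
    rw [h.inner_left, inv_one, ← mul_ap', h.one_mul']
  have h2 : ‖R 1 ξ‖ ^ 2 ≤ ‖ξ‖ * ‖R 1 ξ‖ := by
    have h3 := norm_inner_le_norm (𝕜 := ℂ) ξ (R 1 ξ)
    rw [← h1, inner_self_eq_norm_sq_to_K] at h3
    simpa using h3
  by_contra hc
  push Not at hc
  have h4 := norm_nonneg ξ
  nlinarith

theorem norm_eq (h : Rep R) (v : D) (ξ : K) : ‖R v ξ‖ = ‖R 1 ξ‖ := by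
  have h1 : ⟪R v ξ, R v ξ⟫_ℂ = ⟪R 1 ξ, R 1 ξ⟫_ℂ := by
    rw [h.inner_left, h.inner_left, ← mul_ap', ← mul_ap', ← h.mul, ← h.mul, inv_mul_cancel,
      inv_one, one_mul]
  rw [inner_self_eq_norm_sq_to_K, inner_self_eq_norm_sq_to_K] at h1
  have h2 : ‖R v ξ‖ ^ 2 = ‖R 1 ξ‖ ^ 2 := by exact_mod_cast h1
  exact (pow_left_inj₀ (norm_nonneg _) (norm_nonneg _) two_ne_zero).mp h2

theorem norm_le (h : Rep R) (v : D) (ξ : K) : ‖R v ξ‖ ≤ ‖ξ‖ := by
  rw [h.norm_eq]; exact h.norm_one_le ξ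

theorem opNorm_le (h : Rep R) (v : D) : ‖R v‖ ≤ 1 :=
  ContinuousLinearMap.opNorm_le_bound _ zero_le_one fun ξ => by rw [one_mul]; exact h.norm_le v ξ

end Rep

end rep

section conj

variable {Γ D K : Type} [Group D] [NormedAddCommGroup K] [InnerProductSpace ℂ K]
  [CompleteSpace K] {m : Set Γ → (K →L[ℂ] K)} {R : D → (K →L[ℂ] K)}

/-- The conjugated projections. -/
noncomputable def P (m : Set Γ → (K →L[ℂ] K)) (R : D → (K →L[ℂ] K)) (w : D) (S : Set Γ) :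
    K →L[ℂ] K := R w⁻¹ * m S * R w

theorem P_ap (w : D) (S : Set Γ) (ξ : K) : P m R w S ξ = R w⁻¹ (m S (R w ξ)) := rfl

theorem P_norm_le (hm : Prj m) (hR : Rep R) (w : D) (S : Set Γ) (ξ : K) :
    ‖P m R w S ξ‖ ≤ ‖m S (R w ξ)‖ := by
  rw [P_ap]; exact hR.norm_le _ _

theorem P_norm_le' (hm : Prj m) (hR : Rep R) (w : D) (S : Set Γ) (ξ : K) :
    ‖P m R w S ξ‖ ≤ ‖ξ‖ :=
  (P_norm_le hm hR w S ξ).trans ((hm.norm_le _ _).trans (hR.norm_le _ _))

theorem P_opNorm (hm : Prj m) (hR : Rep R) (w : D) (S : Set Γ) : ‖P m R w S‖ ≤ 1 :=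
  ContinuousLinearMap.opNorm_le_bound _ zero_le_one fun ξ => by
    rw [one_mul]; exact P_norm_le' hm hR w S ξ

theorem P_adj (hm : Prj m) (hR : Rep R) (w : D) (S : Set Γ) (ξ η : K) :
    ⟪P m R w S ξ, η⟫_ℂ = ⟪ξ, P m R w S η⟫_ℂ := by
  have h1 : ⟪m S (R w ξ), R w η⟫_ℂ = ⟪R w ξ, m S (R w η)⟫_ℂ := by
    rw [← adjoint_inner_right, hm.adj]
  rw [P_ap, P_ap, hR.inner_left, inv_inv, h1, hR.inner_left]

theorem P_inner (hm : Prj m) (hR : Rep R) (w : D) (S : Set Γ) (ξ : K) :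
    ⟪P m R w S ξ, ξ⟫_ℂ = ((‖m S (R w ξ)‖ ^ 2 : ℝ) : ℂ) := by
  rw [P_ap, hR.inner_left, inv_inv, hm.inner_self]

theorem P_one (hm : Prj m) (hR : Rep R) (w : D) (S : Set Γ) : P m R w S * R 1 = P m R w S := by
  rw [P, mul_assoc, hR.mul_one']

theorem one_P (hm : Prj m) (hR : Rep R) (w : D) (S : Set Γ) : R 1 * P m R w S = P m R w S := by
  rw [P, mul_assoc, ← mul_assoc, hR.one_mul']

theorem P_union (hm : Prj m) (hR : Rep R) (w : D) {S T : Set Γ} (h : Disjoint S T) :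
    P m R w (S ∪ T) = P m R w S + P m R w T := by
  rw [P, P, P, hm.union h, mul_add, add_mul]

theorem P_compl (hm : Prj m) (hR : Rep R) (w : D) (S : Set Γ) :
    P m R w Sᶜ = R 1 - P m R w S := by
  rw [P, P, hm.compl, mul_sub, _root_.sub_mul, mul_one, ← hR.mul, inv_mul_cancel]

theorem P_univ (hm : Prj m) (hR : Rep R) (w : D) : P m R w (Set.univ : Set Γ) = R 1 := by
  rw [P, hm.univ, mul_one, ← hR.mul, inv_mul_cancel]

/-- `P` is bounded by its diagonal. -/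
theorem P_sq_le (hm : Prj m) (hR : Rep R) (w : D) (S : Set Γ) (ξ : K) :
    ‖P m R w S ξ‖ ^ 2 ≤ (⟪P m R w S ξ, ξ⟫_ℂ).re := by
  rw [P_inner hm hR, Complex.ofReal_re]
  exact pow_le_pow_left₀ (norm_nonneg _) (P_norm_le hm hR w S ξ) 2

theorem P_inner_two (hR : Rep R) (w w' : D) (S T : Set Γ) (ξ η : K) (hm : Prj m) :
    ⟪P m R w S ξ, P m R w' T η⟫_ℂ = ⟪m S (R w ξ), R (w * w'⁻¹) (m T (R w' η))⟫_ℂ := by
  rw [P_ap, P_ap, hR.inner_left, inv_inv, hR.mul]
  rfl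

theorem P_sub_le (hm : Prj m) (hR : Rep R) (w : D) {S T N : Set Γ}
    (h1 : ∀ g, g ∉ N → (g ∈ S ↔ g ∈ T)) (ξ : K) :
    ‖P m R w S ξ - P m R w T ξ‖ ≤ 2 * ‖m N (R w ξ)‖ := by
  rw [P_ap, P_ap, ← map_sub]
  exact (hR.norm_le _ _).trans (hm.sub_le h1 _)

end conj

end Vale.Agent.P092.H859.CL
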