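import Vale.Agent.P092.H859.CLC
import Vale.Agent.P092.H714.BalA

/-!
P092 (helper859), block C-LIM / D-0, part 4: multiplication by functions, the balance estimate.
-/

set_option linter.all false

open scoped InnerProductSpace Pointwise
open Filter Topology ContinuousLinearMap TopologicalSpace

namespace Vale.Agent.P092.H859.CL

open Vale.Agent.P092.H553 (ind ind_nonneg ind_le_one abs_ind_le ind_pos ind_neg cell cell_abs
  cell_pos cell_neg cell_sum cell_sq cell_near)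
open Vale.Agent.P092.H714 (double_sumA)

/-- Multiplication by bounded real functions. -/
structure Fn {Γ K : Type} [NormedAddCommGroup K] [InnerProductSpace ℂ K] [CompleteSpace K]
    (mp : (Γ → ℝ) → (K →L[ℂ] K)) : Prop where
  one : mp (fun _ => 1) = 1
  add : ∀ {F G : Γ → ℝ} {C D : ℝ}, (∀ g, |F g| ≤ C) → (∀ g, |G g| ≤ D) →
    mp (fun g => F g + G g) = mp F + mp G
  smul : ∀ (c : ℝ) {F : Γ → ℝ} {C : ℝ}, (∀ g, |F g| ≤ C) →
    mp (fun g => c * F g) = (c : ℂ) • mp F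
  mul : ∀ {F G : Γ → ℝ} {C D : ℝ}, (∀ g, |F g| ≤ C) → (∀ g, |G g| ≤ D) →
    mp (fun g => F g * G g) = mp F * mp G
  adj : ∀ {F : Γ → ℝ} {C : ℝ}, (∀ g, |F g| ≤ C) → adjoint (mp F) = mp F

/-- Set projections from multiplication operators. -/
noncomputable def st {Γ K : Type} [NormedAddCommGroup K] [InnerProductSpace ℂ K]
    (mp : (Γ → ℝ) → (K →L[ℂ] K)) (S : Set Γ) : K →L[ℂ] K := mp (ind fun g => g ∈ S)

section fn

variable {Γ K : Type} [NormedAddCommGroup K] [InnerProductSpace ℂ K] [CompleteSpace K]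
  {mp : (Γ → ℝ) → (K →L[ℂ] K)} {F G : Γ → ℝ} {C D : ℝ}

namespace Fn

theorem mul_ap (h : Fn mp) (hF : ∀ g, |F g| ≤ C) (hG : ∀ g, |G g| ≤ D) (ξ : K) :
    mp (fun g => F g * G g) ξ = mp F (mp G ξ) := by rw [h.mul hF hG]; rfl

theorem add_ap (h : Fn mp) (hF : ∀ g, |F g| ≤ C) (hG : ∀ g, |G g| ≤ D) (ξ : K) :
    mp (fun g => F g + G g) ξ = mp F ξ + mp G ξ := by rw [h.add hF hG]; rfl

theorem smul_ap (h : Fn mp) (c : ℝ) (hF : ∀ g, |F g| ≤ C) (ξ : K) :
    mp (fun g => c * F g) ξ = (c : ℂ) • mp F ξ := by rw [h.smul c hF]; rfl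

theorem one_ap (h : Fn mp) (ξ : K) : mp (fun _ => (1 : ℝ)) ξ = ξ := by rw [h.one]; rfl

theorem zero (h : Fn mp) : mp (fun _ => (0 : ℝ)) = 0 := by
  have h1 := h.smul (0 : ℝ) (F := fun _ => 1) (C := 1) (fun g => by simp)
  have h2 : (fun g : Γ => (0 : ℝ) * 1) = fun _ => 0 := by funext g; ring
  rw [h2] at h1
  rw [h1]; simp

theorem sub (h : Fn mp) (hF : ∀ g, |F g| ≤ C) (hG : ∀ g, |G g| ≤ D) :
    mp (fun g => F g - G g) = mp F - mp G := by
  have h1 : (fun g => F g - G g) = fun g => F g + (-1) * G g := by funext g; ring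
  rw [h1, h.add hF (G := fun g => (-1) * G g) (D := D) (fun g => by
    rw [abs_mul, abs_neg, abs_one, one_mul]; exact hG g), h.smul _ hG]
  ext ξ
  simp [sub_eq_add_neg]

theorem sub_ap (h : Fn mp) (hF : ∀ g, |F g| ≤ C) (hG : ∀ g, |G g| ≤ D) (ξ : K) :
    mp (fun g => F g - G g) ξ = mp F ξ - mp G ξ := by rw [h.sub hF hG]; rfl

theorem inner_left (h : Fn mp) (hF : ∀ g, |F g| ≤ C) (ξ η : K) :
    ⟪mp F ξ, η⟫_ℂ = ⟪ξ, mp F η⟫_ℂ := by
  rw [← adjoint_inner_right, h.adj hF]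

theorem inner_sq (h : Fn mp) (hF : ∀ g, |F g| ≤ C) (ξ : K) :
    (⟪ξ, mp (fun g => F g * F g) ξ⟫_ℂ).re = ‖mp F ξ‖ ^ 2 := by
  rw [h.mul_ap hF hF, ← h.inner_left hF, inner_self_eq_norm_sq_to_K]
  norm_cast

theorem re_nonneg (h : Fn mp) (hF : ∀ g, |F g| ≤ C) (h0 : ∀ g, 0 ≤ F g) (ξ : K) :
    0 ≤ (⟪ξ, mp F ξ⟫_ℂ).re := by
  have h1 : F = fun g => Real.sqrt (F g) * Real.sqrt (F g) := by
    funext g; exact (Real.mul_self_sqrt (h0 g)).symm
  have h2 : ∀ g, |Real.sqrt (F g)| ≤ Real.sqrt C := fun g => by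
    rw [abs_of_nonneg (Real.sqrt_nonneg _)]
    exact Real.sqrt_le_sqrt ((le_abs_self _).trans (hF g))
  rw [h1, h.inner_sq h2]
  positivity

theorem re_mono (h : Fn mp) (hF : ∀ g, |F g| ≤ C) (hG : ∀ g, |G g| ≤ D) (hh : ∀ g, F g ≤ G g)
    (ξ : K) : (⟪ξ, mp F ξ⟫_ℂ).re ≤ (⟪ξ, mp G ξ⟫_ℂ).re := by
  have h1 := h.re_nonneg (F := fun g => G g - F g) (C := D + C) (fun g =>
    (abs_sub _ _).trans (add_le_add (hG g) (hF g))) (fun g => sub_nonneg.mpr (hh g)) ξ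
  rw [h.sub_ap hG hF, inner_sub_right, Complex.sub_re] at h1
  linarith

theorem mono (h : Fn mp) (hF : ∀ g, |F g| ≤ C) (hG : ∀ g, |G g| ≤ D) (hh : ∀ g, |F g| ≤ |G g|)
    (ξ : K) : ‖mp F ξ‖ ≤ ‖mp G ξ‖ := by
  refine abs_le_of_sq_le_sq' ?_ (norm_nonneg _) |>.2
  rw [← h.inner_sq hF, ← h.inner_sq hG]
  have hC : ∀ g, |F g * F g| ≤ C * C := fun g => by
    rw [abs_mul]
    exact mul_le_mul (hF g) (hF g) (abs_nonneg _) ((abs_nonneg _).trans (hF g))
  have hD : ∀ g, |G g * G g| ≤ D * D := fun g => by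
    rw [abs_mul]
    exact mul_le_mul (hG g) (hG g) (abs_nonneg _) ((abs_nonneg _).trans (hG g))
  refine h.re_mono hC hD (fun g => ?_) ξ
  rw [← abs_mul_abs_self (F g), ← abs_mul_abs_self (G g)]
  exact mul_le_mul (hh g) (hh g) (abs_nonneg _) (abs_nonneg _)

theorem norm_le (h : Fn mp) (hC : 0 ≤ C) (hF : ∀ g, |F g| ≤ C) (ξ : K) : ‖mp F ξ‖ ≤ C * ‖ξ‖ := by
  have h1 := h.mono hF (G := fun _ => C * 1) (D := C) (fun g => by
    rw [mul_one, abs_of_nonneg hC]) (fun g => by rw [mul_one, abs_of_nonneg hC]; exact hF g) ξ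
  rw [h.smul_ap C (F := fun _ => 1) (C := 1) (fun g => by simp), h.one_ap, norm_smul,
    Complex.norm_real, Real.norm_of_nonneg hC] at h1
  exact h1

theorem opNorm_le (h : Fn mp) (hC : 0 ≤ C) (hF : ∀ g, |F g| ≤ C) : ‖mp F‖ ≤ C :=
  ContinuousLinearMap.opNorm_le_bound _ hC (h.norm_le hC hF)

theorem sum (h : Fn mp) {κ : Type*} (s : Finset κ) {F : κ → Γ → ℝ} {C : κ → ℝ}
    (hF : ∀ i g, |F i g| ≤ C i) :
    mp (fun g => ∑ i ∈ s, F i g) = ∑ i ∈ s, mp (F i) := by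
  classical
  induction s using Finset.induction_on with
  | empty => simp only [Finset.sum_empty]; exact h.zero
  | insert i s hi ih =>
    rw [Finset.sum_insert hi, ← ih]
    have h1 : ∀ x, |∑ j ∈ s, F j x| ≤ ∑ j ∈ s, C j := fun x =>
      (Finset.abs_sum_le_sum_abs _ _).trans (Finset.sum_le_sum fun j _ => hF j x)
    rw [← h.add (hF i) h1]
    congr 1
    funext x
    rw [Finset.sum_insert hi]

theorem comm (h : Fn mp) (hF : ∀ g, |F g| ≤ C) (hG : ∀ g, |G g| ≤ D) : mp F * mp G = mp G * mp F := by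
  rw [← h.mul hF hG, ← h.mul hG hF]
  congr 1
  funext g
  ring

theorem prj (h : Fn mp) : Prj (st mp) := by
  have hb : ∀ S : Set Γ, ∀ g, |ind (fun g => g ∈ S) g| ≤ 1 := fun S => abs_ind_le _
  refine ⟨fun S => h.adj (hb S), fun S T => ?_, fun S => ?_⟩
  · rw [st, st, st, ← h.mul (hb S) (hb T)]
    congr 1
    funext g
    by_cases h1 : g ∈ S <;> by_cases h2 : g ∈ T <;> simp [ind, h1, h2]
  · rw [st, st, ← h.one, ← h.sub (C := 1) (fun g => by simp) (hb S)]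
    congr 1
    funext g
    by_cases h1 : g ∈ S <;> simp [ind, h1]

/-- A function supported in `S`. -/
theorem st_mul (h : Fn mp) (hF : ∀ g, |F g| ≤ C) {S : Set Γ} (hS : ∀ g, F g ≠ 0 → g ∈ S) :
    st mp S * mp F = mp F := by
  rw [st, ← h.mul (abs_ind_le _) hF]
  congr 1
  funext g
  by_cases h1 : g ∈ S
  · rw [ind_pos h1, one_mul]
  · rw [ind_neg h1, zero_mul]
    by_contra h2
    exact h1 (hS g (fun h3 => h2 h3.symm))

theorem st_le (h : Fn mp) (hF : ∀ g, |F g| ≤ 1) (S : Set Γ) (ξ : K) :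
    ‖st mp S (mp F ξ)‖ ≤ ‖st mp S ξ‖ := by
  have h1 : st mp S (mp F ξ) = mp F (st mp S ξ) :=
    congrArg (fun T : K →L[ℂ] K => T ξ) (h.comm (abs_ind_le _) hF)
  rw [h1]
  have := h.norm_le zero_le_one hF (st mp S ξ)
  rwa [one_mul] at this

end Fn

/-- The balance estimate for one pair of vectors and a contraction. -/
theorem pair_estF (h : Fn mp) (W : K →L[ℂ] K) (hW : ∀ v, ‖W v‖ ≤ ‖v‖)
    {q H : Γ → ℝ} (hq : ∀ g, 0 ≤ q g ∧ q g ≤ 1)
    (hH : ∀ g, 0 ≤ H g ∧ H g ≤ 1) (N : ℕ) (hN : 0 < N) (η ζ : K) (hη : ‖η‖ ≤ 1)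
    (hζ : ‖ζ‖ ≤ 1) {ε : ℝ}
    (hfar : ∀ i j : ℕ, ¬ (i ≤ j + 1 ∧ j ≤ i + 1) → ∀ F G : Γ → ℝ, (∀ g, |F g| ≤ 1) →
      (∀ g, |G g| ≤ 1) → (∀ g, F g ≠ 0 → ⌊(N : ℝ) * H g⌋₊ = i) →
      (∀ g, G g ≠ 0 → ⌊(N : ℝ) * H g⌋₊ = j) →
      ‖⟪mp (fun g => q g * G g) ζ, W (mp (fun g => q g * F g) η)⟫_ℂ‖ ≤ ε) :
    ‖⟪mp q ζ, W (mp (fun g => q g * H g) η)⟫_ℂ -
      ⟪mp (fun g => q g * H g) ζ, W (mp q η)⟫_ℂ‖ ≤ 9 / N + 2 * (N + 1) ^ 2 * ε := by
  have hq' : ∀ g, |q g| ≤ 1 := fun g => by rw [abs_of_nonneg (hq g).1]; exact (hq g).2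
  have hH' : ∀ g, |H g| ≤ 1 := fun g => by rw [abs_of_nonneg (hH g).1]; exact (hH g).2
  have hm : ∀ {a b : ℝ}, |a| ≤ 1 → |b| ≤ 1 → |a * b| ≤ 1 := fun {a b} ha hb => by
    rw [abs_mul]; exact mul_le_one₀ ha (abs_nonneg _) hb
  have hqc : ∀ i g, |q g * cell N H i g| ≤ 1 := fun i g => hm (hq' g) (cell_abs N H i g)
  have hqHc : ∀ i g, |q g * (H g * cell N H i g)| ≤ 1 := fun i g =>
    hm (hq' g) (hm (hH' g) (cell_abs N H i g))
  have hsum : ∀ ξ : K, mp q ξ =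
      ∑ i ∈ Finset.range (N + 1), mp (fun g => q g * cell N H i g) ξ := by
    intro ξ
    rw [← ContinuousLinearMap.sum_apply, ← h.sum (Finset.range (N + 1))
      (F := fun i g => q g * cell N H i g) (C := fun _ => 1) hqc]
    congr 2
    funext g
    rw [← Finset.mul_sum, cell_sum N H hH, mul_one]
  have hsum' : ∀ ξ : K, mp (fun g => q g * H g) ξ =
      ∑ i ∈ Finset.range (N + 1), mp (fun g => q g * (H g * cell N H i g)) ξ := by
    intro ξ
    rw [← ContinuousLinearMap.sum_apply, ← h.sum (Finset.range (N + 1))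
      (F := fun i g => q g * (H g * cell N H i g)) (C := fun _ => 1) hqHc]
    congr 2
    funext g
    rw [← Finset.mul_sum, ← Finset.mul_sum, cell_sum N H hH, mul_one]
  have hnorm : ∀ (ξ : K) (i : ℕ), ‖mp (fun g => q g * cell N H i g) ξ‖ ≤
      ‖mp (cell N H i) ξ‖ := by
    intro ξ i
    refine h.mono (hqc i) (cell_abs N H i) (fun g => ?_) ξ
    rw [abs_mul]
    exact mul_le_of_le_one_left (abs_nonneg _) (hq' g)
  have hdiff : ∀ (ξ : K) (i : ℕ), ‖mp (fun g => q g * (H g * cell N H i g)) ξ -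
      ((i / N : ℝ) : ℂ) • mp (fun g => q g * cell N H i g) ξ‖ ≤
        1 / N * ‖mp (cell N H i) ξ‖ := by
    intro ξ i
    have hb1 : ∀ g, |(i / N : ℝ) * (q g * cell N H i g)| ≤ (i / N : ℝ) := fun g => by
      rw [abs_mul, abs_of_nonneg (by positivity)]
      exact mul_le_of_le_one_right (by positivity) (hqc i g)
    have hb2 : ∀ g, |(1 / N : ℝ) * cell N H i g| ≤ (1 / N : ℝ) := fun g => by
      rw [abs_mul, abs_of_nonneg (by positivity)]
      exact mul_le_of_le_one_right (by positivity) (cell_abs N H i g)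
    have e1 : mp (fun g => q g * (H g * cell N H i g)) ξ -
        ((i / N : ℝ) : ℂ) • mp (fun g => q g * cell N H i g) ξ =
        mp (fun g => q g * (H g * cell N H i g) - (i / N : ℝ) * (q g * cell N H i g)) ξ := by
      rw [h.sub_ap (hqHc i) hb1, h.smul_ap _ (hqc i)]
    have e2 : ((1 / N : ℝ) : ℝ) * ‖mp (cell N H i) ξ‖ =
        ‖mp (fun g => (1 / N : ℝ) * cell N H i g) ξ‖ := by
      rw [h.smul_ap _ (cell_abs N H i), norm_smul, Complex.norm_real,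
        Real.norm_of_nonneg (by positivity)]
    rw [e1, e2]
    refine h.mono (C := 1 + i / N) (fun g => ?_) hb2 (fun g => ?_) ξ
    · exact (abs_sub _ _).trans (add_le_add (hqHc i g) (hb1 g))
    · have e3 : q g * (H g * cell N H i g) - (i / N : ℝ) * (q g * cell N H i g) =
          q g * ((H g - i / N) * cell N H i g) := by ring
      rw [e3, abs_mul]
      exact (mul_le_of_le_one_left (abs_nonneg _) (hq' g)).trans (cell_near N H hN hH i g)
  have hsq : ∀ ξ : K, ‖ξ‖ ≤ 1 →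
      ∑ i ∈ Finset.range (N + 1), ‖mp (cell N H i) ξ‖ ^ 2 ≤ 1 := by
    intro ξ hξ
    have h1 : ∀ i, ‖mp (cell N H i) ξ‖ ^ 2 = (⟪ξ, mp (cell N H i) ξ⟫_ℂ).re := by
      intro i
      rw [← h.inner_sq (cell_abs N H i)]
      have e : (fun g => cell N H i g * cell N H i g) = cell N H i := by
        funext g
        rw [← sq, cell_sq]
      rw [e]
    rw [Finset.sum_congr rfl fun i _ => h1 i, ← Complex.re_sum, ← inner_sum,
      ← ContinuousLinearMap.sum_apply, ← h.sum (Finset.range (N + 1))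
      (F := fun i => cell N H i) (C := fun _ => 1) (cell_abs N H)]
    have h2 : (fun g => ∑ i ∈ Finset.range (N + 1), cell N H i g) = fun _ => (1 : ℝ) := by
      funext g
      exact cell_sum N H hH g
    rw [h2, h.one_ap, inner_self_eq_norm_sq_to_K]
    have h3 : ‖ξ‖ ^ 2 ≤ 1 := pow_le_one₀ (norm_nonneg _) hξ
    have h4 : (((‖ξ‖ : ℂ)) ^ 2).re = ‖ξ‖ ^ 2 := by
      rw [← Complex.ofReal_pow, Complex.ofReal_re]
    exact h4.le.trans h3
  have hcl : ∀ i g, cell N H i g ≠ 0 → ⌊(N : ℝ) * H g⌋₊ = i := by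
    intro i g h1
    by_contra h2
    exact h1 (cell_neg N H h2)
  rw [hsum ζ, hsum' η, hsum' ζ, hsum η]
  refine double_sumA N hN _ _ _ _ (fun i => ‖mp (cell N H i) η‖)
    (fun i => ‖mp (cell N H i) ζ‖)
    W hW (hsq η hη) (hsq ζ hζ) (hnorm η) (hnorm ζ) (hdiff η) (hdiff ζ) ?_
  intro i j hij
  constructor
  · exact hfar i j hij (fun g => H g * cell N H i g) (cell N H j)
      (fun g => hm (hH' g) (cell_abs N H i g)) (cell_abs N H j)
      (fun g hg => hcl i g fun h0 => hg (by rw [h0, mul_zero])) (hcl j)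
  · exact hfar i j hij (cell N H i) (fun g => H g * cell N H j g) (cell_abs N H i)
      (fun g => hm (hH' g) (cell_abs N H j g)) (hcl i)
      (fun g hg => hcl j g fun h0 => hg (by rw [h0, mul_zero]))

end fn

end Vale.Agent.P092.H859.CL
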