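import Vale.Agent.P092.H859.CLF

/-!
P092 (helper859), block C-LIM / D-0, part 5: the key lemma for functions of the base point.
-/

set_option linter.all false

open scoped InnerProductSpace Pointwise
open Filter Topology ContinuousLinearMap TopologicalSpace

namespace Vale.Agent.P092.H859.CL

open Vale.Agent.P092.H553 (ind ind_nonneg ind_le_one abs_ind_le ind_pos ind_neg)

section forms

variable {K : Type} [NormedAddCommGroup K] [InnerProductSpace ℂ K] [CompleteSpace K]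

/-- Bounded forms tend to zero if they do so on a total set. -/
theorem bform_of_total {ι : Type} {l : Filter ι} {B : ι → K → K → ℂ} {C : ℝ} (hC : 0 ≤ C)
    (hb : ∀ i x y, ‖B i x y‖ ≤ C * ‖x‖ * ‖y‖)
    (hl : ∀ i x x' y, B i (x + x') y = B i x y + B i x' y)
    (hr : ∀ i x y y', B i x (y + y') = B i x y + B i x y')
    (sl : ∀ i (c : ℂ) x y, ‖B i (c • x) y‖ = ‖c‖ * ‖B i x y‖)
    (sr : ∀ i (c : ℂ) x y, ‖B i x (c • y)‖ = ‖c‖ * ‖B i x y‖)
    {Bd : Set K} (hB : Dense ((Submodule.span ℂ Bd : Submodule ℂ K) : Set K))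
    (h : ∀ ξ ∈ Bd, ∀ η ∈ Bd, Tendsto (fun i => B i ξ η) l (𝓝 0)) (ξ η : K) :
    Tendsto (fun i => B i ξ η) l (𝓝 0) := by
  have key : ∀ (f : ι → K → ℂ) (hadd : ∀ i x y, f i (x + y) = f i x + f i y)
      (C : ℝ) (hC : 0 ≤ C) (hb : ∀ i x, ‖f i x‖ ≤ C * ‖x‖)
      (hs : ∀ (c : ℂ) (i : ι) (x : K), ‖f i (c • x)‖ = ‖c‖ * ‖f i x‖)
      (h : ∀ x ∈ Bd, Tendsto (fun i => f i x) l (𝓝 0)) (x : K),
      Tendsto (fun i => f i x) l (𝓝 0) := by
    intro f hadd C hC hb hs h x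
    have h1 : ∀ y ∈ Submodule.span ℂ Bd, Tendsto (fun i => f i y) l (𝓝 0) := by
      intro y hy
      induction hy using Submodule.span_induction with
      | mem x hx => exact h x hx
      | zero =>
        have h0 : ∀ i, f i 0 = 0 := fun i => by
          have := hb i 0
          rw [norm_zero, mul_zero] at this
          exact norm_le_zero_iff.mp this
        simp only [h0]; exact tendsto_const_nhds
      | add x y _ _ hx hy =>
        have := hx.add hy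
        rw [add_zero] at this
        exact this.congr fun i => (hadd i x y).symm
      | smul c x _ hx =>
        rw [tendsto_zero_iff_norm_tendsto_zero] at hx ⊢
        have := hx.const_mul ‖c‖
        rw [mul_zero] at this
        exact this.congr fun i => (hs c i x).symm
    rw [Metric.tendsto_nhds]
    intro ε hε
    obtain ⟨y, hy, hd⟩ := Metric.mem_closure_iff.mp (hB x) (ε / (2 * (C + 1))) (by positivity)
    filter_upwards [(Metric.tendsto_nhds.mp (h1 y hy)) (ε / 2) (by positivity)] with i hi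
    rw [dist_zero_right] at hi ⊢
    have h2 : f i x = f i (x - y) + f i y := by rw [← hadd, sub_add_cancel]
    rw [h2]
    rw [dist_eq_norm] at hd
    have h3 : ‖f i (x - y)‖ ≤ ε / 2 := by
      calc _ ≤ C * ‖x - y‖ := hb i _
        _ ≤ (C + 1) * (ε / (2 * (C + 1))) := by gcongr; linarith
        _ = ε / 2 := by field_simp
    calc _ ≤ ‖f i (x - y)‖ + ‖f i y‖ := norm_add_le _ _
      _ < ε := by linarith
  have h1 : ∀ ξ ∈ Bd, ∀ η, Tendsto (fun i => B i ξ η) l (𝓝 0) := by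
    intro ξ hξ η
    exact key (fun i x => B i ξ x) (fun i x y => hr i ξ x y) (C * ‖ξ‖) (by positivity)
      (fun i x => hb i ξ x) (fun c i x => sr i c ξ x) (h ξ hξ) η
  refine key (fun i x => B i x η) (fun i x y => hl i x y η) (C * ‖η‖) (by positivity)
    (fun i x => (hb i x η).trans (le_of_eq (by ring))) (fun c i x => sl i c x η)
    (fun x hx => h1 x hx η) ξ

end forms

section pf

variable {Γ D K : Type} [Group D] [NormedAddCommGroup K] [InnerProductSpace ℂ K]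
  [CompleteSpace K] {mp : (Γ → ℝ) → (K →L[ℂ] K)} {R : D → (K →L[ℂ] K)} {F G : Γ → ℝ} {C : ℝ}

/-- The conjugated multiplication operators. -/
noncomputable def PF (mp : (Γ → ℝ) → (K →L[ℂ] K)) (R : D → (K →L[ℂ] K)) (w : D) (F : Γ → ℝ) :
    K →L[ℂ] K := R w⁻¹ * mp F * R w

theorem PF_ap (w : D) (F : Γ → ℝ) (ξ : K) : PF mp R w F ξ = R w⁻¹ (mp F (R w ξ)) := rfl

theorem PF_st (w : D) (S : Set Γ) : PF mp R w (ind fun g => g ∈ S) = P (st mp) R w S := rfl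

theorem PF_norm_le (h : Fn mp) (hR : Rep R) (w : D) (ξ : K) :
    ‖PF mp R w F ξ‖ ≤ ‖mp F (R w ξ)‖ := by
  rw [PF_ap]; exact hR.norm_le _ _

theorem PF_norm (h : Fn mp) (hR : Rep R) (hC : 0 ≤ C) (hF : ∀ g, |F g| ≤ C) (w : D) (ξ : K) :
    ‖PF mp R w F ξ‖ ≤ C * ‖ξ‖ :=
  (PF_norm_le h hR w ξ).trans ((h.norm_le hC hF _).trans
    (mul_le_mul_of_nonneg_left (hR.norm_le _ _) hC))

theorem PF_opNorm (h : Fn mp) (hR : Rep R) (hC : 0 ≤ C) (hF : ∀ g, |F g| ≤ C) (w : D) :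
    ‖PF mp R w F‖ ≤ C :=
  ContinuousLinearMap.opNorm_le_bound _ hC (PF_norm h hR hC hF w)

theorem PF_sym (h : Fn mp) (hR : Rep R) (hF : ∀ g, |F g| ≤ C) (w : D) (ξ η : K) :
    ⟪PF mp R w F ξ, η⟫_ℂ = ⟪ξ, PF mp R w F η⟫_ℂ := by
  rw [PF_ap, PF_ap, hR.inner_left, inv_inv, h.inner_left hF, hR.inner_left]

theorem PF_one (h : Fn mp) (hR : Rep R) (w : D) : PF mp R w F * R 1 = PF mp R w F := by
  rw [PF, mul_assoc, hR.mul_one']

theorem one_PF (h : Fn mp) (hR : Rep R) (w : D) : R 1 * PF mp R w F = PF mp R w F := by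
  rw [PF, mul_assoc, ← mul_assoc, hR.one_mul']

theorem PF_add (h : Fn mp) (hR : Rep R) (w : D) {D' : ℝ} (hF : ∀ g, |F g| ≤ C)
    (hG : ∀ g, |G g| ≤ D') :
    PF mp R w (fun g => F g + G g) = PF mp R w F + PF mp R w G := by
  rw [PF, PF, PF, h.add hF hG, mul_add, add_mul]

theorem PF_smul (h : Fn mp) (hR : Rep R) (w : D) (c : ℝ) (hF : ∀ g, |F g| ≤ C) :
    PF mp R w (fun g => c * F g) = (c : ℂ) • PF mp R w F := by
  rw [PF, PF, h.smul c hF, mul_smul_comm, smul_mul_assoc]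

theorem PF_sq (h : Fn mp) (hR : Rep R) (hF : ∀ g, |F g| ≤ C) (w : D) (ξ : K) :
    ‖PF mp R w F ξ‖ ^ 2 ≤ (⟪ξ, PF mp R w (fun g => F g * F g) ξ⟫_ℂ).re := by
  have h1 : (⟪ξ, PF mp R w (fun g => F g * F g) ξ⟫_ℂ).re = ‖mp F (R w ξ)‖ ^ 2 := by
    rw [PF_ap, hR.inner_right, inv_inv, h.inner_sq hF]
  rw [h1]
  exact pow_le_pow_left₀ (norm_nonneg _) (PF_norm_le h hR w ξ) 2

theorem PF_two (h : Fn mp) (hR : Rep R) (w w' : D) (ξ η : K) :
    ⟪PF mp R w F ξ, PF mp R w' G η⟫_ℂ = ⟪mp F (R w ξ), R (w * w'⁻¹) (mp G (R w' η))⟫_ℂ := by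
  rw [PF_ap, PF_ap, hR.inner_left, inv_inv, hR.mul]
  rfl

end pf

section key

variable {Γ D K Y : Type} [Group Γ] [Group D] [NormedAddCommGroup K] [InnerProductSpace ℂ K]
  [CompleteSpace K]

/-- Analytic input with functions. -/
structure SysF (mp : (Γ → ℝ) → (K →L[ℂ] K)) (R : D → (K →L[ℂ] K)) (Bd : Set K)
    (ms : D → Set Γ → ℝ) (A : Subgroup D) (G1 G2 : Γ → ℝ) : Prop where
  fn : Fn mp
  sys : Sys (st mp) R Bd ms A G1 G2
  mpb : ∀ F : Γ → ℝ, (∀ g, |F g| ≤ 1) → ∀ ξ ∈ Bd, mp F ξ ∈ Bd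

/-- Functions whose level sets are separated. -/
def SepF (G1 G2 : Γ → ℝ) (bp : Γ → Y) (f : Y → ℝ) : Prop :=
  ∀ c d : ℝ, c < d → SepP G1 G2 bp {y | f y ≤ c} {y | d ≤ f y} ∧
    SepP G1 G2 bp {y | d ≤ f y} {y | f y ≤ c}

/-- Functions of the base point on the cone. -/
noncomputable def cf (G1 G2 : Γ → ℝ) (bp : Γ → Y) (f : Y → ℝ) : Γ → ℝ :=
  fun g => ind (fun g => G2 g ≤ G1 g) g * f (bp g)

theorem SepP.mono {G1 G2 : Γ → ℝ} {bp : Γ → Y} {A A' A0 A0' : Set Y}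
    (h : SepP G1 G2 bp A A') (h1 : A0 ⊆ A) (h2 : A0' ⊆ A') : SepP G1 G2 bp A0 A0' := by
  intro R
  obtain ⟨S, hS⟩ := h R
  refine ⟨S, fun r => ?_⟩
  obtain ⟨T, hT1, hT2⟩ := hS r
  exact ⟨T, fun x y hx hy => hT1 x y (h1 hx) (h2 hy),
    fun x₁ y₁ x₂ y₂ a b c d => hT2 x₁ y₁ x₂ y₂ (h1 a) (h2 b) (h1 c) (h2 d)⟩

theorem cf_abs {G1 G2 : Γ → ℝ} {bp : Γ → Y} {f : Y → ℝ} {C : ℝ} (hf : ∀ y, |f y| ≤ C) (g : Γ) :
    |cf G1 G2 bp f g| ≤ C := by
  rw [cf, abs_mul]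
  exact (mul_le_of_le_one_left (abs_nonneg _) (abs_ind_le _ g)).trans (hf _)

variable {mp : (Γ → ℝ) → (K →L[ℂ] K)} {R : D → (K →L[ℂ] K)} {Bd : Set K}
  {ms : D → Set Γ → ℝ} {A : Subgroup D} {G1 G2 : Γ → ℝ} {bp : Γ → Y} {l l' : Filter D}

/-- The key estimate on bounded vectors. -/
theorem key_bd (h : SysF mp R Bd ms A G1 G2) (hfin : ∀ r, (FF G1 G2 r).Finite)
    (he : Esc (st mp) R Bd A l) (he' : Esc (st mp) R Bd A l') {f : Y → ℝ}
    (h01 : ∀ y, 0 ≤ f y ∧ f y ≤ 1) (hs : SepF G1 G2 bp f)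
    {ξ η : K} (hξ : ξ ∈ Bd) (hη : η ∈ Bd) {ε : ℝ} (hε : 0 < ε) :
    ∀ᶠ p : D × D in l ×ˢ l', ∀ F : Γ → ℝ, (∀ g, |F g| ≤ 1) →
      ‖⟪mp (ind fun g => G2 g ≤ G1 g) (R p.1 ξ),
          R (p.1 * p.2⁻¹) (mp (cf G1 G2 bp f) (mp F (R p.2 η)))⟫_ℂ -
        ⟪mp (cf G1 G2 bp f) (R p.1 ξ),
          R (p.1 * p.2⁻¹) (mp (ind fun g => G2 g ≤ G1 g) (mp F (R p.2 η)))⟫_ℂ‖ ≤ ε := by
  obtain ⟨N, hN⟩ := exists_nat_gt (18 / ε)
  have hN0 : 0 < N := by
    have h1 : (0 : ℝ) < N := lt_trans (by positivity) hN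
    exact_mod_cast h1
  have hNr : (0 : ℝ) < N := by exact_mod_cast hN0
  obtain ⟨ε', hε'⟩ : ∃ ε' : ℝ, ε' = ε / (4 * (N + 1) ^ 2) := ⟨_, rfl⟩
  have hε'0 : 0 < ε' := by rw [hε']; positivity
  obtain ⟨Uc, hUc⟩ : ∃ Uc : ℕ → Set Y, Uc = fun i => {y | ⌊(N : ℝ) * f y⌋₊ = i} := ⟨_, rfl⟩
  have hsepc : ∀ i j : ℕ, ¬ (i ≤ j + 1 ∧ j ≤ i + 1) → SepP G1 G2 bp (Uc i) (Uc j) := by
    intro i j hij
    have hlo : ∀ (k : ℕ) y, y ∈ Uc k → (k : ℝ) / N ≤ f y := by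
      intro k y hy
      rw [hUc] at hy
      have h0 : 0 ≤ (N : ℝ) * f y := mul_nonneg hNr.le (h01 y).1
      have h1 : (k : ℝ) ≤ N * f y := by rw [← hy]; exact Nat.floor_le h0
      rw [div_le_iff₀ hNr]; linarith
    have hhi : ∀ (k : ℕ) y, y ∈ Uc k → f y ≤ ((k : ℝ) + 1) / N := by
      intro k y hy
      rw [hUc] at hy
      have h2 : (N : ℝ) * f y < k + 1 := by rw [← hy]; exact Nat.lt_floor_add_one _
      rw [le_div_iff₀ hNr]; linarith
    rw [not_and_or, not_le, not_le] at hij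
    rcases hij with h1 | h1
    · have h2 : ((j : ℝ) + 1) / N < (i : ℝ) / N := by
        have : (j : ℝ) + 1 < i := by exact_mod_cast h1
        gcongr
      exact (hs _ _ h2).2.mono (fun y hy => hlo i y hy) (fun y hy => hhi j y hy)
    · have h2 : ((i : ℝ) + 1) / N < (j : ℝ) / N := by
        have : (i : ℝ) + 1 < j := by exact_mod_cast h1
        gcongr
      exact (hs _ _ h2).1.mono (fun y hy => hhi i y hy) (fun y hy => hlo j y hy)
  have hev : ∀ᶠ p : D × D in l ×ˢ l', ∀ ij ∈ (Finset.range (N + 1)) ×ˢ (Finset.range (N + 1)),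
      ¬ (ij.1 ≤ ij.2 + 1 ∧ ij.2 ≤ ij.1 + 1) → ∀ a ∈ Bd, ∀ b ∈ Bd,
      (∀ S, ‖st mp S a‖ ≤ ‖st mp S (R p.1 ξ)‖) → (∀ S, ‖st mp S b‖ ≤ ‖st mp S (R p.2 η)‖) →
      ‖⟪st mp (cn G1 G2 bp (Uc ij.2)) a,
        R (p.1 * p.2⁻¹) (st mp (cn G1 G2 bp (Uc ij.1)) b)⟫_ℂ‖ < ε' := by
    rw [Filter.eventually_all_finset]
    intro ij _
    by_cases hij : ij.1 ≤ ij.2 + 1 ∧ ij.2 ≤ ij.1 + 1
    · exact Eventually.of_forall fun p h => absurd hij h
    · filter_upwards [pure_unif h.sys hfin he he' (hsepc ij.1 ij.2 hij) hξ hη hε'0] with p hp _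
      exact hp
  filter_upwards [hev] with p hp F hF
  obtain ⟨a, ha⟩ : ∃ a, a = R p.1 ξ := ⟨_, rfl⟩
  obtain ⟨b, hb⟩ : ∃ b, b = R p.2 η := ⟨_, rfl⟩
  rw [← ha, ← hb]
  rw [← ha, ← hb] at hp
  have haB : a ∈ Bd := by rw [ha]; exact h.sys.map _ _ hξ
  have hbB : b ∈ Bd := by rw [hb]; exact h.sys.map _ _ hη
  have hq : ∀ g : Γ, 0 ≤ ind (fun g => G2 g ≤ G1 g) g ∧ ind (fun g => G2 g ≤ G1 g) g ≤ 1 :=
    fun g => ⟨ind_nonneg _ g, ind_le_one _ g⟩
  have main := pair_estF (mp := mp) h.fn (R (p.1 * p.2⁻¹)) (h.sys.rep.norm_le _)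
    (q := ind fun g => G2 g ≤ G1 g) (H := fun g => f (bp g)) hq (fun g => h01 _) N hN0
    (mp F b) a (h.sys.norm _ (h.mpb F hF b hbB)) (h.sys.norm _ haB) (ε := ε') ?_
  · refine main.trans ?_
    have h1 : (9 : ℝ) / N ≤ ε / 2 := by
      rw [div_le_iff₀ hNr]
      rw [div_lt_iff₀ hε] at hN
      linarith
    have h2 : 2 * ((N : ℝ) + 1) ^ 2 * ε' = ε / 2 := by
      rw [hε']; field_simp; ring
    linarith
  · intro i j hij F' G' hF' hG' hFi hGj
    have hm : ∀ {a b : ℝ}, |a| ≤ 1 → |b| ≤ 1 → |a * b| ≤ 1 := fun {a b} ha hb => by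
      rw [abs_mul]; exact mul_le_one₀ ha (abs_nonneg _) hb
    have bq : ∀ g : Γ, |ind (fun g => G2 g ≤ G1 g) g| ≤ 1 := abs_ind_le _
    have b1 : ∀ g, |ind (fun g => G2 g ≤ G1 g) g * F' g| ≤ 1 := fun g => hm (bq g) (hF' g)
    have b2 : ∀ g, |ind (fun g => G2 g ≤ G1 g) g * G' g| ≤ 1 := fun g => hm (bq g) (hG' g)
    have supp : ∀ (X : Γ → ℝ) (k : ℕ), (∀ g, X g ≠ 0 → ⌊(N : ℝ) * f (bp g)⌋₊ = k) →
        ∀ g, ind (fun g => G2 g ≤ G1 g) g * X g ≠ 0 → g ∈ cn G1 G2 bp (Uc k) := by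
      intro X k hX g hg
      have h1 : G2 g ≤ G1 g := by
        by_contra h2
        rw [ind_neg (P := fun g => G2 g ≤ G1 g) h2, zero_mul] at hg
        exact hg rfl
      have h2 : X g ≠ 0 := fun h3 => hg (by rw [h3, mul_zero])
      refine ⟨h1, ?_⟩
      rw [hUc]; exact hX g h2
    by_cases hi : i ∈ Finset.range (N + 1)
    · by_cases hj : j ∈ Finset.range (N + 1)
      · have h3 := hp (i, j) (Finset.mem_product.mpr ⟨hi, hj⟩) hij
          (mp (fun g => ind (fun g => G2 g ≤ G1 g) g * G' g) a) (h.mpb _ b2 a haB)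
          (mp (fun g => ind (fun g => G2 g ≤ G1 g) g * F' g) (mp F b))
          (h.mpb _ b1 _ (h.mpb F hF b hbB)) (fun S => h.fn.st_le b2 S a)
          (fun S => (h.fn.st_le b1 S _).trans (h.fn.st_le hF S b))
        have e1 := congrArg (fun T : K →L[ℂ] K => T a) (h.fn.st_mul b2 (supp G' j hGj))
        have e2 := congrArg (fun T : K →L[ℂ] K => T (mp F b)) (h.fn.st_mul b1 (supp F' i hFi))
        simp only [mul_ap'] at e1 e2
        simp only at h3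
        rw [e1, e2] at h3
        exact h3.le
      · have h0 : G' = fun _ => 0 := by
          funext g
          by_contra h4
          have h5 := hGj g h4
          refine hj (Finset.mem_range.mpr ?_)
          rw [← h5, Nat.lt_succ_iff]
          refine Nat.floor_le_of_le ?_
          have := (h01 (bp g)).2
          nlinarith
        rw [h0]
        have h4 : (fun g : Γ => ind (fun g => G2 g ≤ G1 g) g * (fun _ : Γ => (0 : ℝ)) g) =
            fun _ => (0 : ℝ) := by funext g; simp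
        rw [h4, h.fn.zero, zero_apply, inner_zero_left, norm_zero]
        exact hε'0.le
    · have h0 : F' = fun _ => 0 := by
        funext g
        by_contra h4
        have h5 := hFi g h4
        refine hi (Finset.mem_range.mpr ?_)
        rw [← h5, Nat.lt_succ_iff]
        refine Nat.floor_le_of_le ?_
        have := (h01 (bp g)).2
        nlinarith
      rw [h0]
      have h4 : (fun g : Γ => ind (fun g => G2 g ≤ G1 g) g * (fun _ : Γ => (0 : ℝ)) g) =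
          fun _ => (0 : ℝ) := by funext g; simp
      rw [h4, h.fn.zero, zero_apply, map_zero, inner_zero_right, norm_zero]
      exact hε'0.le

/-- **Key lemma**, functions with values in `[0,1]`. -/
theorem key01 (h : SysF mp R Bd ms A G1 G2) (hfin : ∀ r, (FF G1 G2 r).Finite)
    (he : Esc (st mp) R Bd A l) (he' : Esc (st mp) R Bd A l') {f g : Y → ℝ}
    (h01 : ∀ y, 0 ≤ f y ∧ f y ≤ 1) (hs : SepF G1 G2 bp f) (hg : ∀ y, |g y| ≤ 1) (ξ η : K) :
    Tendsto (fun p : D × D =>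
      ⟪PF mp R p.1 (cf G1 G2 bp fun _ => 1) ξ, PF mp R p.2 (cf G1 G2 bp fun y => f y * g y) η⟫_ℂ -
      ⟪PF mp R p.1 (cf G1 G2 bp f) ξ, PF mp R p.2 (cf G1 G2 bp g) η⟫_ℂ) (l ×ˢ l') (𝓝 0) := by
  have hfa : ∀ y, |f y| ≤ 1 := fun y => by rw [abs_of_nonneg (h01 y).1]; exact (h01 y).2
  have hfg : ∀ y, |f y * g y| ≤ 1 := fun y => by
    rw [abs_mul]; exact mul_le_one₀ (hfa y) (abs_nonneg _) (hg y)
  have h1a : ∀ y : Y, |(1 : ℝ)| ≤ 1 := fun y => by rw [abs_one]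
  have n1 : ∀ w (x : K), ‖PF mp R w (cf G1 G2 bp fun _ => 1) x‖ ≤ ‖x‖ := fun w x => by
    have := PF_norm h.fn h.sys.rep zero_le_one (cf_abs (G1 := G1) (G2 := G2) (bp := bp) h1a) w x
    rwa [one_mul] at this
  have n2 : ∀ w (x : K), ‖PF mp R w (cf G1 G2 bp fun y => f y * g y) x‖ ≤ ‖x‖ := fun w x => by
    have := PF_norm h.fn h.sys.rep zero_le_one (cf_abs (G1 := G1) (G2 := G2) (bp := bp) hfg) w x
    rwa [one_mul] at this
  have n3 : ∀ w (x : K), ‖PF mp R w (cf G1 G2 bp f) x‖ ≤ ‖x‖ := fun w x => by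
    have := PF_norm h.fn h.sys.rep zero_le_one (cf_abs (G1 := G1) (G2 := G2) (bp := bp) hfa) w x
    rwa [one_mul] at this
  have n4 : ∀ w (x : K), ‖PF mp R w (cf G1 G2 bp g) x‖ ≤ ‖x‖ := fun w x => by
    have := PF_norm h.fn h.sys.rep zero_le_one (cf_abs (G1 := G1) (G2 := G2) (bp := bp) hg) w x
    rwa [one_mul] at this
  refine bform_of_total (B := fun (p : D × D) ξ η =>
      ⟪PF mp R p.1 (cf G1 G2 bp fun _ => 1) ξ, PF mp R p.2 (cf G1 G2 bp fun y => f y * g y) η⟫_ℂ -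
      ⟪PF mp R p.1 (cf G1 G2 bp f) ξ, PF mp R p.2 (cf G1 G2 bp g) η⟫_ℂ) (C := 2) (by norm_num)
    ?_ ?_ ?_ ?_ ?_ h.sys.dense ?_ ξ η
  · intro p x y
    refine (norm_sub_le _ _).trans ?_
    have a1 := norm_inner_le_norm (𝕜 := ℂ) (PF mp R p.1 (cf G1 G2 bp fun _ => 1) x)
      (PF mp R p.2 (cf G1 G2 bp fun y => f y * g y) y)
    have a2 := norm_inner_le_norm (𝕜 := ℂ) (PF mp R p.1 (cf G1 G2 bp f) x)
      (PF mp R p.2 (cf G1 G2 bp g) y)
    have a3 : ‖PF mp R p.1 (cf G1 G2 bp fun _ => 1) x‖ *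
        ‖PF mp R p.2 (cf G1 G2 bp fun y => f y * g y) y‖ ≤ ‖x‖ * ‖y‖ :=
      mul_le_mul (n1 _ _) (n2 _ _) (norm_nonneg _) (norm_nonneg _)
    have a4 : ‖PF mp R p.1 (cf G1 G2 bp f) x‖ *
        ‖PF mp R p.2 (cf G1 G2 bp g) y‖ ≤ ‖x‖ * ‖y‖ :=
      mul_le_mul (n3 _ _) (n4 _ _) (norm_nonneg _) (norm_nonneg _)
    linarith
  · intro p x x' y
    simp only [map_add, inner_add_left]; ring
  · intro p x y y'
    simp only [map_add, inner_add_right]; ring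
  · intro p c x y
    simp only [map_smul, inner_smul_left]
    rw [← mul_sub, norm_mul, RCLike.norm_conj]
  · intro p c x y
    simp only [map_smul, inner_smul_right]
    rw [← mul_sub, norm_mul]
  · intro ξ hξ η hη
    rw [Metric.tendsto_nhds]
    intro ε hε
    filter_upwards [key_bd h hfin he he' h01 hs hξ hη (half_pos hε)] with p hp
    have h1 := hp (fun x => g (bp x)) (fun x => hg _)
    rw [dist_zero_right, PF_two h.fn h.sys.rep, PF_two h.fn h.sys.rep]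
    have e0 : (cf G1 G2 bp fun _ => (1 : ℝ)) = ind fun g => G2 g ≤ G1 g := by
      funext x; rw [cf, mul_one]
    have e1 : mp (cf G1 G2 bp fun y => f y * g y) (R p.2 η) =
        mp (cf G1 G2 bp f) (mp (fun x => g (bp x)) (R p.2 η)) := by
      rw [← h.fn.mul_ap (cf_abs hfa) (fun x => hg (bp x))]
      congr 2
      funext x
      rw [cf, cf]; ring
    have e2 : mp (cf G1 G2 bp g) (R p.2 η) =
        mp (ind fun g => G2 g ≤ G1 g) (mp (fun x => g (bp x)) (R p.2 η)) := by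
      rw [← h.fn.mul_ap (abs_ind_le _) (fun x => hg (bp x))]
      rfl
    rw [e0, e1, e2]
    linarith

end key

end Vale.Agent.P092.H859.CL
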