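import Vale.Agent.P092.H859.CLD

/-!
P092 (helper859), blocks C-LIM / D0-ENG, part 7: complex functions of the base point, the
homomorphism of the full case.
-/

set_option linter.all false

open scoped InnerProductSpace Pointwise
open Filter Topology ContinuousLinearMap TopologicalSpace

namespace Vale.Agent.P092.H859.CL

open Vale.Agent.P092.H553 (ind ind_nonneg ind_le_one abs_ind_le ind_pos ind_neg)

section mc

variable {Γ D K : Type} [NormedAddCommGroup K] [InnerProductSpace ℂ K]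
  [CompleteSpace K] {mp : (Γ → ℝ) → (K →L[ℂ] K)} {F G : Γ → ℂ} {C C' : ℝ}

theorem abs_re_le' (hF : ∀ g, ‖F g‖ ≤ C) (g : Γ) : |(F g).re| ≤ C :=
  (Complex.abs_re_le_norm _).trans (hF g)

theorem abs_im_le' (hF : ∀ g, ‖F g‖ ≤ C) (g : Γ) : |(F g).im| ≤ C :=
  (Complex.abs_im_le_norm _).trans (hF g)

theorem mc_ap (F : Γ → ℂ) (ξ : K) :
    mc mp F ξ = mp (fun g => (F g).re) ξ + Complex.I • mp (fun g => (F g).im) ξ := rfl

theorem mc_real (h : Fn mp) (F : Γ → ℝ) : mc mp (fun g => (F g : ℂ)) = mp F := by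
  rw [mc]
  simp only [Complex.ofReal_re, Complex.ofReal_im]
  rw [h.zero, smul_zero, add_zero]

theorem mc_add (h : Fn mp) (hF : ∀ g, ‖F g‖ ≤ C) (hG : ∀ g, ‖G g‖ ≤ C') :
    mc mp (fun g => F g + G g) = mc mp F + mc mp G := by
  rw [mc, mc, mc]
  simp only [Complex.add_re, Complex.add_im]
  rw [h.add (abs_re_le' hF) (abs_re_le' hG), h.add (abs_im_le' hF) (abs_im_le' hG), smul_add]
  abel

theorem mul_bd (a : ℝ) {X : Γ → ℝ} (hX : ∀ g, |X g| ≤ C) (g : Γ) : |a * X g| ≤ |a| * C := by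
  rw [abs_mul]; exact mul_le_mul_of_nonneg_left (hX g) (abs_nonneg _)

theorem mul_bd' {X Z : Γ → ℝ} (hX : ∀ g, |X g| ≤ C) (hZ : ∀ g, |Z g| ≤ C') (g : Γ) :
    |X g * Z g| ≤ C * C' := by
  rw [abs_mul]
  exact mul_le_mul (hX g) (hZ g) (abs_nonneg _) ((abs_nonneg _).trans (hX g))

theorem mc_smul (h : Fn mp) (c : ℂ) (hF : ∀ g, ‖F g‖ ≤ C) :
    mc mp (fun g => c * F g) = c • mc mp F := by
  rw [mc, mc]
  simp only [Complex.mul_re, Complex.mul_im]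
  rw [h.sub (mul_bd _ (abs_re_le' hF)) (mul_bd _ (abs_im_le' hF)),
    h.add (mul_bd _ (abs_im_le' hF)) (mul_bd _ (abs_re_le' hF)),
    h.smul _ (abs_re_le' hF), h.smul _ (abs_im_le' hF), h.smul _ (abs_im_le' hF),
    h.smul _ (abs_re_le' hF)]
  have e : c = (c.re : ℂ) + Complex.I * (c.im : ℂ) := by
    conv_lhs => rw [← Complex.re_add_im c]
    ring
  ext ξ
  simp only [add_apply, sub_apply, smul_apply]
  conv_rhs => rw [e]
  generalize (mp fun g => (F g).re) ξ = a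
  generalize (mp fun g => (F g).im) ξ = b
  generalize (c.re : ℂ) = x
  generalize (c.im : ℂ) = y
  have hI : Complex.I * y * Complex.I = -y := by
    rw [mul_assoc, mul_comm y, ← mul_assoc, Complex.I_mul_I]; ring
  simp only [smul_add, add_smul, smul_smul]
  rw [add_mul, hI, add_smul, neg_smul, mul_comm x Complex.I]
  abel

theorem mc_mul (h : Fn mp) (hF : ∀ g, ‖F g‖ ≤ C) (hG : ∀ g, ‖G g‖ ≤ C') :
    mc mp (fun g => F g * G g) = mc mp F * mc mp G := by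
  rw [mc, mc, mc]
  simp only [Complex.mul_re, Complex.mul_im]
  rw [h.sub (mul_bd' (abs_re_le' hF) (abs_re_le' hG)) (mul_bd' (abs_im_le' hF) (abs_im_le' hG)),
    h.add (mul_bd' (abs_re_le' hF) (abs_im_le' hG)) (mul_bd' (abs_im_le' hF) (abs_re_le' hG)),
    h.mul (abs_re_le' hF) (abs_re_le' hG), h.mul (abs_im_le' hF) (abs_im_le' hG),
    h.mul (abs_re_le' hF) (abs_im_le' hG), h.mul (abs_im_le' hF) (abs_re_le' hG)]
  rw [add_mul, mul_add, mul_add, smul_mul_assoc, smul_mul_assoc, mul_smul_comm, mul_smul_comm,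
    smul_smul, Complex.I_mul_I, smul_add, neg_one_smul]
  abel

theorem mc_mul_ap (h : Fn mp) (hF : ∀ g, ‖F g‖ ≤ C) (hG : ∀ g, ‖G g‖ ≤ C') (ξ : K) :
    mc mp (fun g => F g * G g) ξ = mc mp F (mc mp G ξ) := by rw [mc_mul h hF hG]; rfl

theorem mc_adj (h : Fn mp) (hF : ∀ g, ‖F g‖ ≤ C) :
    adjoint (mc mp F) = mc mp (fun g => (starRingEnd ℂ) (F g)) := by
  rw [mc, mc, map_add, map_smulₛₗ, h.adj (abs_re_le' hF), h.adj (abs_im_le' hF)]
  simp only [Complex.conj_re, Complex.conj_im, Complex.conj_I]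
  have h1 := h.smul (-1) (abs_im_le' hF)
  have h2 : (fun g => -1 * (F g).im) = fun g => -(F g).im := by funext g; ring
  rw [h2] at h1
  rw [h1, smul_smul]
  simp

theorem mc_inner_left (h : Fn mp) (hF : ∀ g, ‖F g‖ ≤ C) (ξ η : K) :
    ⟪mc mp F ξ, η⟫_ℂ = ⟪ξ, mc mp (fun g => (starRingEnd ℂ) (F g)) η⟫_ℂ := by
  rw [← mc_adj h hF, adjoint_inner_right]

theorem mc_sq (h : Fn mp) (hF : ∀ g, ‖F g‖ ≤ C) (ξ : K) :
    (⟪ξ, mc mp (fun g => (starRingEnd ℂ) (F g) * F g) ξ⟫_ℂ).re = ‖mc mp F ξ‖ ^ 2 := by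
  have hF' : ∀ g, ‖(starRingEnd ℂ) (F g)‖ ≤ C := fun g => by rw [RCLike.norm_conj]; exact hF g
  rw [mc_mul_ap h hF' hF, ← mc_inner_left h hF, inner_self_eq_norm_sq_to_K]
  norm_cast

theorem conj_mul_real (F : Γ → ℂ) : (fun g => (starRingEnd ℂ) (F g) * F g) =
    fun g => (((‖F g‖ * ‖F g‖ : ℝ)) : ℂ) := by
  funext g
  rw [← Complex.normSq_eq_conj_mul_self, Complex.normSq_eq_norm_sq, pow_two]

theorem mc_sq' (h : Fn mp) (hF : ∀ g, ‖F g‖ ≤ C) (ξ : K) :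
    ‖mc mp F ξ‖ ^ 2 = ‖mp (fun g => ‖F g‖) ξ‖ ^ 2 := by
  have hn : ∀ g, |‖F g‖| ≤ C := fun g => by rw [abs_norm]; exact hF g
  rw [← mc_sq h hF, conj_mul_real, mc_real h, h.inner_sq hn]

/-- The norm of the complex multiplication operator is the norm for the absolute value. -/
theorem mc_norm_eq (h : Fn mp) (hF : ∀ g, ‖F g‖ ≤ C) (ξ : K) :
    ‖mc mp F ξ‖ = ‖mp (fun g => ‖F g‖) ξ‖ :=
  (pow_left_inj₀ (norm_nonneg _) (norm_nonneg _) two_ne_zero).mp (mc_sq' h hF ξ)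

theorem mc_norm (h : Fn mp) (hC : 0 ≤ C) (hF : ∀ g, ‖F g‖ ≤ C) (ξ : K) :
    ‖mc mp F ξ‖ ≤ C * ‖ξ‖ := by
  rw [mc_norm_eq h hF]
  exact h.norm_le hC (fun g => by rw [abs_norm]; exact hF g) ξ

theorem mc_mono (h : Fn mp) (hF : ∀ g, ‖F g‖ ≤ C) (hG : ∀ g, ‖G g‖ ≤ C')
    (hh : ∀ g, ‖F g‖ ≤ ‖G g‖) (ξ : K) : ‖mc mp F ξ‖ ≤ ‖mc mp G ξ‖ := by
  rw [mc_norm_eq h hF, mc_norm_eq h hG]
  exact h.mono (fun g => by rw [abs_norm]; exact hF g) (fun g => by rw [abs_norm]; exact hG g)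
    (fun g => by rw [abs_norm, abs_norm]; exact hh g) ξ

theorem mc_one (h : Fn mp) : mc mp (fun _ => (1 : ℂ)) = 1 := by
  have h1 := mc_real h (fun _ : Γ => (1 : ℝ))
  simp only [Complex.ofReal_one] at h1
  rw [h1, h.one]

end mc

section pc

variable {Γ D K Y : Type} [Group D] [NormedAddCommGroup K] [InnerProductSpace ℂ K]
  [CompleteSpace K] {mp : (Γ → ℝ) → (K →L[ℂ] K)} {R : D → (K →L[ℂ] K)} {F G : Γ → ℂ} {C C' : ℝ}
  {G1 G2 : Γ → ℝ} {bp : Γ → Y} {f g : Y → ℂ}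

theorem PC_ap (w : D) (F : Γ → ℂ) (ξ : K) : PC mp R w F ξ = R w⁻¹ (mc mp F (R w ξ)) := rfl

theorem PC_real (h : Fn mp) (w : D) (F : Γ → ℝ) :
    PC mp R w (fun g => (F g : ℂ)) = PF mp R w F := by
  rw [PC, PF, mc_real h]

theorem PC_split (w : D) (F : Γ → ℂ) (ξ : K) : PC mp R w F ξ =
    PF mp R w (fun g => (F g).re) ξ + Complex.I • PF mp R w (fun g => (F g).im) ξ := by
  rw [PC_ap, PF_ap, PF_ap, mc_ap, map_add, map_smul]

theorem PC_norm (h : Fn mp) (hR : Rep R) (hC : 0 ≤ C) (hF : ∀ g, ‖F g‖ ≤ C) (w : D) (ξ : K) :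
    ‖PC mp R w F ξ‖ ≤ C * ‖ξ‖ := by
  rw [PC_ap]
  exact (hR.norm_le _ _).trans ((mc_norm h hC hF _).trans
    (mul_le_mul_of_nonneg_left (hR.norm_le _ _) hC))

theorem PC_opNorm (h : Fn mp) (hR : Rep R) (hC : 0 ≤ C) (hF : ∀ g, ‖F g‖ ≤ C) (w : D) :
    ‖PC mp R w F‖ ≤ C :=
  ContinuousLinearMap.opNorm_le_bound _ hC (PC_norm h hR hC hF w)

theorem PC_add (h : Fn mp) (hF : ∀ g, ‖F g‖ ≤ C) (hG : ∀ g, ‖G g‖ ≤ C') (w : D) :
    PC mp R w (fun g => F g + G g) = PC mp R w F + PC mp R w G := by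
  rw [PC, PC, PC, mc_add h hF hG, mul_add, add_mul]

theorem PC_smul (h : Fn mp) (c : ℂ) (hF : ∀ g, ‖F g‖ ≤ C) (w : D) :
    PC mp R w (fun g => c * F g) = c • PC mp R w F := by
  rw [PC, PC, mc_smul h c hF, mul_smul_comm, smul_mul_assoc]

theorem PC_mul (h : Fn mp) (hR : Rep R) (h1 : R 1 = 1) (hF : ∀ g, ‖F g‖ ≤ C)
    (hG : ∀ g, ‖G g‖ ≤ C') (w : D) :
    PC mp R w (fun g => F g * G g) = PC mp R w F * PC mp R w G := by
  rw [PC, PC, PC, mc_mul h hF hG]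
  have e : R w * R w⁻¹ = 1 := by rw [← hR.mul, mul_inv_cancel, h1]
  calc R w⁻¹ * (mc mp F * mc mp G) * R w
      = R w⁻¹ * mc mp F * 1 * mc mp G * R w := by rw [mul_one]; simp only [mul_assoc]
    _ = R w⁻¹ * mc mp F * (R w * R w⁻¹) * mc mp G * R w := by rw [e]
    _ = _ := by simp only [mul_assoc]

theorem PC_adj (h : Fn mp) (hR : Rep R) (hF : ∀ g, ‖F g‖ ≤ C) (w : D) :
    adjoint (PC mp R w F) = PC mp R w (fun g => (starRingEnd ℂ) (F g)) := by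
  rw [PC, PC, ← star_eq_adjoint, star_mul, star_mul, star_eq_adjoint, star_eq_adjoint,
    star_eq_adjoint, hR.adj, hR.adj, mc_adj h hF, inv_inv, mul_assoc]

theorem PC_inner (h : Fn mp) (hR : Rep R) (hF : ∀ g, ‖F g‖ ≤ C) (w : D) (ξ η : K) :
    ⟪PC mp R w F ξ, η⟫_ℂ = ⟪ξ, PC mp R w (fun g => (starRingEnd ℂ) (F g)) η⟫_ℂ := by
  rw [← PC_adj h hR hF, adjoint_inner_right]

theorem PC_one (h : Fn mp) (hR : Rep R) (w : D) : PC mp R w (fun _ => (1 : ℂ)) = R 1 := by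
  rw [PC, mc_one h, mul_one, ← hR.mul, inv_mul_cancel]

theorem PC_sq (h : Fn mp) (hR : Rep R) (hF : ∀ g, ‖F g‖ ≤ C) (w : D) (ξ : K) :
    ‖PC mp R w F ξ‖ ^ 2 ≤ (⟪ξ, PC mp R w (fun g => (starRingEnd ℂ) (F g) * F g) ξ⟫_ℂ).re := by
  have h1 : (⟪ξ, PC mp R w (fun g => (starRingEnd ℂ) (F g) * F g) ξ⟫_ℂ).re =
      ‖mc mp F (R w ξ)‖ ^ 2 := by
    rw [PC_ap, hR.inner_right, inv_inv, mc_sq h hF]
  rw [h1, PC_ap]
  exact pow_le_pow_left₀ (norm_nonneg _) (hR.norm_le _ _) 2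

theorem cfc_norm (hf : ∀ y, ‖f y‖ ≤ C) (g : Γ) : ‖cfc G1 G2 bp f g‖ ≤ C := by
  rw [cfc, norm_mul, Complex.norm_real, Real.norm_eq_abs]
  exact (mul_le_of_le_one_left (norm_nonneg _) (abs_ind_le _ g)).trans (hf _)

theorem cfc_re : (fun g => (cfc G1 G2 bp f g).re) = cf G1 G2 bp fun y => (f y).re := by
  funext g; rw [cfc, cf, Complex.re_ofReal_mul]

theorem cfc_im : (fun g => (cfc G1 G2 bp f g).im) = cf G1 G2 bp fun y => (f y).im := by
  funext g; rw [cfc, cf, Complex.im_ofReal_mul]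

theorem cfc_add : cfc G1 G2 bp (fun y => f y + g y) =
    fun x => cfc G1 G2 bp f x + cfc G1 G2 bp g x := by
  funext x; rw [cfc, cfc, cfc, mul_add]

theorem cfc_smul (c : ℂ) : cfc G1 G2 bp (fun y => c * f y) = fun x => c * cfc G1 G2 bp f x := by
  funext x; rw [cfc, cfc]; ring

theorem cfc_mul : cfc G1 G2 bp (fun y => f y * g y) =
    fun x => cfc G1 G2 bp f x * cfc G1 G2 bp g x := by
  funext x
  rw [cfc, cfc, cfc]
  have e : (ind (fun g => G2 g ≤ G1 g) x : ℂ) =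
      (ind (fun g => G2 g ≤ G1 g) x : ℂ) * (ind (fun g => G2 g ≤ G1 g) x : ℂ) := by
    by_cases h : G2 x ≤ G1 x
    · rw [ind_pos (P := fun g => G2 g ≤ G1 g) h]; simp
    · rw [ind_neg (P := fun g => G2 g ≤ G1 g) h]; simp
  conv_lhs => rw [e]
  ring

theorem cfc_conj : cfc G1 G2 bp (fun y => (starRingEnd ℂ) (f y)) =
    fun x => (starRingEnd ℂ) (cfc G1 G2 bp f x) := by
  funext x; rw [cfc, cfc, map_mul, Complex.conj_ofReal]

theorem cfc_split (w : D) (ξ : K) : PC mp R w (cfc G1 G2 bp f) ξ =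
    PF mp R w (cf G1 G2 bp fun y => (f y).re) ξ +
      Complex.I • PF mp R w (cf G1 G2 bp fun y => (f y).im) ξ := by
  rw [PC_split, cfc_re, cfc_im]

end pc

end Vale.Agent.P092.H859.CL
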