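import Vale.Agent.P092.H859.CLH

/-!
P092 (helper859), blocks C-LIM / D0-ENG, part 8: strong convergence and the homomorphism in the
full case.
-/

set_option linter.all false

open scoped InnerProductSpace Pointwise
open Filter Topology ContinuousLinearMap TopologicalSpace

namespace Vale.Agent.P092.H859.CL

open Vale.Agent.P092.H553 (ind ind_nonneg ind_le_one abs_ind_le ind_pos ind_neg)

section lm

variable {D K : Type} [NormedAddCommGroup K] [InnerProductSpace ℂ K] [CompleteSpace K]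

theorem lm_spec' {l : Filter D} [l.NeBot] {f : D → (K →L[ℂ] K)} {C : ℝ} (hf : ∀ w, ‖f w‖ ≤ C)
    (h : ∀ ξ, ∃ x, Tendsto (fun w => f w ξ) l (𝓝 x)) (ξ : K) :
    Tendsto (fun w => f w ξ) l (𝓝 (lm l f ξ)) := by
  have hex : ∃ E : K →L[ℂ] K, ∀ ξ, Tendsto (fun w => f w ξ) l (𝓝 (E ξ)) := by
    choose e he using h
    have hadd : ∀ x y, e (x + y) = e x + e y := fun x y => by
      refine tendsto_nhds_unique (he (x + y)) ?_
      exact ((he x).add (he y)).congr fun w => (map_add _ _ _).symm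
    have hsm : ∀ (c : ℂ) x, e (c • x) = c • e x := fun c x => by
      refine tendsto_nhds_unique (he (c • x)) ?_
      exact ((he x).const_smul c).congr fun w => (map_smul _ _ _).symm
    refine ⟨LinearMap.mkContinuous ⟨⟨e, hadd⟩, hsm⟩ C fun x => ?_, fun x => he x⟩
    refine le_of_tendsto (he x).norm (Eventually.of_forall fun w => ?_)
    exact ((f w).le_opNorm x).trans (mul_le_mul_of_nonneg_right (hf w) (norm_nonneg _))
  rw [lm, dif_pos hex]
  exact hex.choose_spec ξ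

/-- Products of strongly convergent bounded families. -/
theorem tendsto_mul_ap {l : Filter D} {f g : D → (K →L[ℂ] K)} {S T : K →L[ℂ] K} {C : ℝ}
    (hf : ∀ w, ‖f w‖ ≤ C) (h1 : ∀ ξ, Tendsto (fun w => f w ξ) l (𝓝 (S ξ)))
    (h2 : ∀ ξ, Tendsto (fun w => g w ξ) l (𝓝 (T ξ))) (ξ : K) :
    Tendsto (fun w => (f w * g w) ξ) l (𝓝 ((S * T) ξ)) := by
  have e : ∀ w, (f w * g w) ξ = f w (T ξ) + f w (g w ξ - T ξ) := fun w => by
    rw [← map_add, add_sub_cancel]; rfl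
  have h3 : Tendsto (fun w => f w (g w ξ - T ξ)) l (𝓝 0) := by
    have h4 := tendsto_iff_norm_sub_tendsto_zero.mp (h2 ξ)
    have h5 := h4.const_mul C
    rw [mul_zero] at h5
    refine squeeze_zero_norm (fun w => ?_) h5
    exact ((f w).le_opNorm _).trans (mul_le_mul_of_nonneg_right (hf w) (norm_nonneg _))
  have h6 := (h1 (T ξ)).add h3
  rw [add_zero] at h6
  exact h6.congr fun w => (e w).symm

end lm

section full

variable {Γ D K Y : Type} [Group Γ] [Group D] [NormedAddCommGroup K] [InnerProductSpace ℂ K]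
  [CompleteSpace K] {mp : (Γ → ℝ) → (K →L[ℂ] K)} {R : D → (K →L[ℂ] K)} {Bd : Set K}
  {ms : D → Set Γ → ℝ} {A : Subgroup D} {G1 G2 : Γ → ℝ} {bp : Γ → Y} {l l' : Filter D}

theorem cf_one : (cf G1 G2 bp fun _ => (1 : ℝ)) = ind fun g => G2 g ≤ G1 g := by
  funext x; rw [cf, mul_one]

theorem cf_mul (f g : Y → ℝ) : (fun x => cf G1 G2 bp f x * cf G1 G2 bp g x) =
    cf G1 G2 bp fun y => f y * g y := by
  funext x
  rw [cf, cf, cf]
  by_cases h : G2 x ≤ G1 x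
  · rw [ind_pos (P := fun g => G2 g ≤ G1 g) h]; ring
  · rw [ind_neg (P := fun g => G2 g ≤ G1 g) h]; ring

theorem full_one (hfu : Full (st mp) R G1 G2 l) (ξ : K) :
    Tendsto (fun w => PF mp R w (cf G1 G2 bp fun _ => 1) ξ) l (𝓝 (R 1 ξ)) := by
  rw [cf_one]; exact hfu ξ

/-- One half of the Cauchy estimate. -/
theorem half01 (h : SysF mp R Bd ms A G1 G2) (hfin : ∀ r, (FF G1 G2 r).Finite)
    (he : Esc (st mp) R Bd A l) (he' : Esc (st mp) R Bd A l') (hfu : Full (st mp) R G1 G2 l)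
    {f : Y → ℝ} (h01 : ∀ y, 0 ≤ f y ∧ f y ≤ 1) (hs : SepF G1 G2 bp f) (ξ : K) :
    Tendsto (fun p : D × D => ⟪ξ, PF mp R p.2 (cf G1 G2 bp fun y => f y * f y) ξ⟫_ℂ -
      ⟪PF mp R p.1 (cf G1 G2 bp f) ξ, PF mp R p.2 (cf G1 G2 bp f) ξ⟫_ℂ) (l ×ˢ l') (𝓝 0) := by
  have hfa : ∀ y, |f y| ≤ 1 := fun y => by rw [abs_of_nonneg (h01 y).1]; exact (h01 y).2
  have hff : ∀ y, |f y * f y| ≤ 1 := fun y => by
    rw [abs_mul]; exact mul_le_one₀ (hfa y) (abs_nonneg _) (hfa y)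
  have h1 := key01 h hfin he he' h01 hs hfa ξ ξ
  have h2 : Tendsto (fun p : D × D => ⟪R 1 ξ - PF mp R p.1 (cf G1 G2 bp fun _ => 1) ξ,
      PF mp R p.2 (cf G1 G2 bp fun y => f y * f y) ξ⟫_ℂ) (l ×ˢ l') (𝓝 0) := by
    have h3 := ((full_one (bp := bp) hfu ξ).const_sub (R 1 ξ)).norm
    rw [sub_self, norm_zero] at h3
    have h4 := (h3.mul_const ‖ξ‖).comp (tendsto_fst (f := l) (g := l'))
    rw [zero_mul] at h4
    refine squeeze_zero_norm (fun p => ?_) h4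
    refine (norm_inner_le_norm _ _).trans ?_
    rw [Function.comp_apply]
    have := PF_norm h.fn h.sys.rep zero_le_one
      (cf_abs (G1 := G1) (G2 := G2) (bp := bp) hff) p.2 ξ
    rw [one_mul] at this
    exact mul_le_mul_of_nonneg_left this (norm_nonneg _)
  have h5 := h2.add h1
  rw [add_zero] at h5
  refine h5.congr fun p => ?_
  have e1 : ⟪R 1 ξ, PF mp R p.2 (cf G1 G2 bp fun y => f y * f y) ξ⟫_ℂ =
      ⟪ξ, PF mp R p.2 (cf G1 G2 bp fun y => f y * f y) ξ⟫_ℂ := by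
    rw [h.sys.rep.inner_left, inv_one, ← mul_ap', one_PF h.fn h.sys.rep]
  rw [inner_sub_left, e1]
  ring

/-- The Cauchy estimate, functions with values in `[0, 1]`. -/
theorem cau01 (h : SysF mp R Bd ms A G1 G2) (hfin : ∀ r, (FF G1 G2 r).Finite)
    (he : Esc (st mp) R Bd A l) (he' : Esc (st mp) R Bd A l') (hfu : Full (st mp) R G1 G2 l)
    (hfu' : Full (st mp) R G1 G2 l')
    {f : Y → ℝ} (h01 : ∀ y, 0 ≤ f y ∧ f y ≤ 1) (hs : SepF G1 G2 bp f) (ξ : K) :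
    Tendsto (fun p : D × D => ‖PF mp R p.1 (cf G1 G2 bp f) ξ - PF mp R p.2 (cf G1 G2 bp f) ξ‖)
      (l ×ˢ l') (𝓝 0) := by
  have hfa : ∀ y, |f y| ≤ 1 := fun y => by rw [abs_of_nonneg (h01 y).1]; exact (h01 y).2
  have hca := cf_abs (G1 := G1) (G2 := G2) (bp := bp) hfa
  have h1 := half01 h hfin he he' hfu h01 hs ξ
  have h2 := (half01 h hfin he' he hfu' h01 hs ξ).comp
    (Filter.tendsto_prod_swap (f := l) (g := l'))
  have h3 := ((Complex.continuous_re.tendsto _).comp (h1.add h2))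
  rw [add_zero, Complex.zero_re] at h3
  have h4 : Tendsto (fun p : D × D =>
      ‖PF mp R p.1 (cf G1 G2 bp f) ξ - PF mp R p.2 (cf G1 G2 bp f) ξ‖ ^ 2) (l ×ˢ l') (𝓝 0) := by
    refine squeeze_zero (fun p => by positivity) (fun p => ?_) h3
    have a1 := PF_sq h.fn h.sys.rep hca p.1 ξ
    have a2 := PF_sq h.fn h.sys.rep hca p.2 ξ
    rw [cf_mul] at a1 a2
    have a3 := @norm_sub_sq ℂ K _ _ _ (PF mp R p.1 (cf G1 G2 bp f) ξ)
      (PF mp R p.2 (cf G1 G2 bp f) ξ)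
    have a4 : (⟪PF mp R p.2 (cf G1 G2 bp f) ξ, PF mp R p.1 (cf G1 G2 bp f) ξ⟫_ℂ).re =
        (⟪PF mp R p.1 (cf G1 G2 bp f) ξ, PF mp R p.2 (cf G1 G2 bp f) ξ⟫_ℂ).re := by
      rw [← inner_conj_symm, Complex.conj_re]
    rw [a3]
    simp only [Function.comp_apply, Prod.fst_swap, Prod.snd_swap, Complex.add_re, Complex.sub_re]
    rw [a4]
    change ‖PF mp R p.1 (cf G1 G2 bp f) ξ‖ ^ 2 - 2 *
      (⟪PF mp R p.1 (cf G1 G2 bp f) ξ, PF mp R p.2 (cf G1 G2 bp f) ξ⟫_ℂ).re +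
      ‖PF mp R p.2 (cf G1 G2 bp f) ξ‖ ^ 2 ≤ _
    linarith
  have h5 := h4.sqrt
  rw [Real.sqrt_zero] at h5
  exact h5.congr fun p => Real.sqrt_sq (norm_nonneg _)

theorem SepF.affine {f : Y → ℝ} (hs : SepF G1 G2 bp f) {a b : ℝ} (ha : 0 < a) :
    SepF G1 G2 bp fun y => a * f y + b := by
  intro c d hcd
  have h1 := hs ((c - b) / a) ((d - b) / a) (by gcongr)
  have e1 : {y | a * f y + b ≤ c} = {y | f y ≤ (c - b) / a} := by
    ext y
    simp only [Set.mem_setOf_eq]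
    rw [le_div_iff₀ ha]
    constructor <;> intro h <;> linarith
  have e2 : {y | d ≤ a * f y + b} = {y | (d - b) / a ≤ f y} := by
    ext y
    simp only [Set.mem_setOf_eq]
    rw [div_le_iff₀ ha]
    constructor <;> intro h <;> linarith
  rw [e1, e2]
  exact h1

/-- The Cauchy estimate, bounded real functions. -/
theorem cauR (h : SysF mp R Bd ms A G1 G2) (hfin : ∀ r, (FF G1 G2 r).Finite)
    (he : Esc (st mp) R Bd A l) (he' : Esc (st mp) R Bd A l') (hfu : Full (st mp) R G1 G2 l)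
    (hfu' : Full (st mp) R G1 G2 l')
    {f : Y → ℝ} {C : ℝ} (hC : ∀ y, |f y| ≤ C) (hs : SepF G1 G2 bp f) (ξ : K) :
    Tendsto (fun p : D × D => ‖PF mp R p.1 (cf G1 G2 bp f) ξ - PF mp R p.2 (cf G1 G2 bp f) ξ‖)
      (l ×ˢ l') (𝓝 0) := by
  obtain ⟨M, hM⟩ : ∃ M : ℝ, M = |C| + 1 := ⟨_, rfl⟩
  have hM0 : 0 < M := by rw [hM]; positivity
  have hCM : ∀ y, |f y| ≤ M := fun y => (hC y).trans ((le_abs_self C).trans (by rw [hM]; linarith))
  obtain ⟨f0, hf0⟩ : ∃ f0 : Y → ℝ, f0 = fun y => (1 / (2 * M)) * f y + 1 / 2 := ⟨_, rfl⟩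
  have h01 : ∀ y, 0 ≤ f0 y ∧ f0 y ≤ 1 := fun y => by
    obtain ⟨a1, a2⟩ := abs_le.mp (hCM y)
    rw [hf0]
    simp only
    have e : 1 / (2 * M) * f y = f y / M / 2 := by field_simp
    have b1 : -1 ≤ f y / M := by rw [le_div_iff₀ hM0]; linarith
    have b2 : f y / M ≤ 1 := by rw [div_le_one hM0]; exact a2
    rw [e]
    constructor <;> linarith
  have hs0 : SepF G1 G2 bp f0 := by rw [hf0]; exact hs.affine (by positivity)
  have h1 := cau01 h hfin he he' hfu hfu' h01 hs0 ξ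
  have h2 : Tendsto (fun p : D × D => ‖PF mp R p.1 (cf G1 G2 bp fun _ => 1) ξ -
      PF mp R p.2 (cf G1 G2 bp fun _ => 1) ξ‖) (l ×ˢ l') (𝓝 0) := by
    have a1 := (full_one (bp := bp) hfu ξ).comp (tendsto_fst (f := l) (g := l'))
    have a2 := (full_one (bp := bp) hfu' ξ).comp (tendsto_snd (f := l) (g := l'))
    have a3 := (a1.sub a2).norm
    rw [sub_self, norm_zero] at a3
    exact a3
  have h3 := (h1.const_mul (2 * M)).add (h2.const_mul M)
  rw [mul_zero, mul_zero, add_zero] at h3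
  refine squeeze_zero (fun p => norm_nonneg _) (fun p => ?_) h3
  have hfa0 : ∀ y, |f0 y| ≤ 1 := fun y => by rw [abs_of_nonneg (h01 y).1]; exact (h01 y).2
  have hfa1 : ∀ y : Y, |(1 : ℝ)| ≤ 1 := fun y => by rw [abs_one]
  have e1 : ∀ w (x : K), PF mp R w (cf G1 G2 bp f) x =
      ((2 * M : ℝ) : ℂ) • PF mp R w (cf G1 G2 bp f0) x +
        ((-M : ℝ) : ℂ) • PF mp R w (cf G1 G2 bp fun _ => 1) x := by
    intro w x
    have c0 := cf_abs (G1 := G1) (G2 := G2) (bp := bp) hfa0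
    have c1 := cf_abs (G1 := G1) (G2 := G2) (bp := bp) hfa1
    have e2 : cf G1 G2 bp f = fun g => (2 * M) * cf G1 G2 bp f0 g +
        (-M) * cf G1 G2 bp (fun _ => 1) g := by
      funext g
      rw [hf0, cf, cf, cf]
      field_simp
      ring
    rw [e2, PF_add h.fn h.sys.rep w (mul_bd _ c0) (mul_bd _ c1), PF_smul h.fn h.sys.rep w _ c0,
      PF_smul h.fn h.sys.rep w _ c1]
    rfl
  rw [e1, e1, add_sub_add_comm, ← smul_sub, ← smul_sub]
  refine (norm_add_le _ _).trans ?_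
  rw [norm_smul, norm_smul, Complex.norm_real, Complex.norm_real, Real.norm_eq_abs,
    Real.norm_eq_abs, abs_neg, abs_of_pos hM0, abs_of_pos (by linarith : 0 < 2 * M)]

/-- Complex functions whose real and imaginary parts are separated. -/
def SepC (G1 G2 : Γ → ℝ) (bp : Γ → Y) (f : Y → ℂ) : Prop :=
  SepF G1 G2 bp (fun y => (f y).re) ∧ SepF G1 G2 bp fun y => (f y).im

/-- The Cauchy estimate. -/
theorem cauC (h : SysF mp R Bd ms A G1 G2) (hfin : ∀ r, (FF G1 G2 r).Finite)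
    (he : Esc (st mp) R Bd A l) (he' : Esc (st mp) R Bd A l') (hfu : Full (st mp) R G1 G2 l)
    (hfu' : Full (st mp) R G1 G2 l')
    {f : Y → ℂ} {C : ℝ} (hC : ∀ y, ‖f y‖ ≤ C) (hs : SepC G1 G2 bp f) (ξ : K) :
    Tendsto (fun p : D × D => ‖PC mp R p.1 (cfc G1 G2 bp f) ξ - PC mp R p.2 (cfc G1 G2 bp f) ξ‖)
      (l ×ˢ l') (𝓝 0) := by
  have h1 := cauR h hfin he he' hfu hfu' (f := fun y => (f y).re) (C := C)
    (fun y => (Complex.abs_re_le_norm _).trans (hC y)) hs.1 ξ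
  have h2 := cauR h hfin he he' hfu hfu' (f := fun y => (f y).im) (C := C)
    (fun y => (Complex.abs_im_le_norm _).trans (hC y)) hs.2 ξ
  have h3 := h1.add h2
  rw [add_zero] at h3
  refine squeeze_zero (fun p => norm_nonneg _) (fun p => ?_) h3
  rw [cfc_split, cfc_split, add_sub_add_comm, ← smul_sub]
  refine (norm_add_le _ _).trans ?_
  rw [norm_smul, Complex.norm_I, one_mul]

/-- **Strong convergence** in the full case. -/
theorem strong (h : SysF mp R Bd ms A G1 G2) (hfin : ∀ r, (FF G1 G2 r).Finite)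
    (he : Esc (st mp) R Bd A l) [l.NeBot] (hfu : Full (st mp) R G1 G2 l)
    {f : Y → ℂ} {C : ℝ} (hC : ∀ y, ‖f y‖ ≤ C) (hs : SepC G1 G2 bp f) (ξ : K) :
    ∃ x, Tendsto (fun w => PC mp R w (cfc G1 G2 bp f) ξ) l (𝓝 x) := by
  rw [← cauchy_map_iff_exists_tendsto]
  refine cauchy_map_iff.mpr ⟨inferInstance, ?_⟩
  rw [tendsto_uniformity_iff_dist_tendsto_zero]
  refine (cauC h hfin he he hfu hfu hC hs ξ).congr fun p => ?_
  rw [dist_eq_norm]

section cont

variable [TopologicalSpace Y] [CompactSpace Y]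

theorem sepC_of (hS : ∀ f : C(Y, ℝ), SepF G1 G2 bp f) (f : C(Y, ℂ)) : SepC G1 G2 bp f :=
  ⟨hS ⟨fun y => (f y).re, Complex.continuous_re.comp f.continuous⟩,
    hS ⟨fun y => (f y).im, Complex.continuous_im.comp f.continuous⟩⟩

/-- **The homomorphism of the full case.** -/
theorem exists_beta (h : SysF mp R Bd ms A G1 G2) (hfin : ∀ r, (FF G1 G2 r).Finite)
    (he : Esc (st mp) R Bd A l) [l.NeBot] (hfu : Full (st mp) R G1 G2 l) (h1 : R 1 = 1)
    (hS : ∀ f : C(Y, ℝ), SepF G1 G2 bp f) :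
    ∃ β : C(Y, ℂ) →⋆ₐ[ℂ] (K →L[ℂ] K), ∀ (f : C(Y, ℂ)) ξ,
      Tendsto (fun w => PC mp R w (cfc G1 G2 bp f) ξ) l (𝓝 (β f ξ)) := by
  obtain ⟨T, hT⟩ : ∃ T : C(Y, ℂ) → (K →L[ℂ] K), ∀ (f : C(Y, ℂ)) ξ,
      Tendsto (fun w => PC mp R w (cfc G1 G2 bp f) ξ) l (𝓝 (T f ξ)) := by
    refine ⟨fun f : C(Y, ℂ) => lm l fun w => PC mp R w (cfc G1 G2 bp f), fun f ξ => ?_⟩
    exact lm_spec' (fun w => PC_opNorm h.fn h.sys.rep (norm_nonneg f)
      (cfc_norm fun y => f.norm_coe_le_norm y) w)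
      (fun ξ => strong h hfin he hfu (fun y => f.norm_coe_le_norm y) (sepC_of hS f) ξ) ξ
  have bd : ∀ f : C(Y, ℂ), ∀ g, ‖cfc G1 G2 bp f g‖ ≤ ‖f‖ := fun f =>
    cfc_norm fun y => f.norm_coe_le_norm y
  have hone : T 1 = 1 := by
    ext ξ
    refine tendsto_nhds_unique (hT 1 ξ) ?_
    have h2 := full_one (bp := bp) hfu ξ
    rw [h1] at h2
    refine h2.congr fun w => ?_
    rw [← PC_real h.fn]
    congr 2
    funext g
    rw [cf, cfc]; simp
  have hadd : ∀ f g, T (f + g) = T f + T g := by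
    intro f g
    ext ξ
    refine tendsto_nhds_unique (hT (f + g) ξ) (((hT f ξ).add (hT g ξ)).congr fun w => ?_)
    rw [← add_apply, ← PC_add h.fn (bd f) (bd g), ← cfc_add]
    rfl
  have hsm : ∀ (c : ℂ) f, T (c • f) = c • T f := by
    intro c f
    ext ξ
    refine tendsto_nhds_unique (hT (c • f) ξ) (((hT f ξ).const_smul c).congr fun w => ?_)
    rw [← smul_apply, ← PC_smul h.fn c (bd f), ← cfc_smul]
    rfl
  have hmul : ∀ f g, T (f * g) = T f * T g := by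
    intro f g
    ext ξ
    refine tendsto_nhds_unique (hT (f * g) ξ) ((tendsto_mul_ap (fun w =>
      PC_opNorm h.fn h.sys.rep (norm_nonneg f) (bd f) w) (hT f) (hT g) ξ).congr fun w => ?_)
    rw [← PC_mul h.fn h.sys.rep h1 (bd f) (bd g), ← cfc_mul]
    rfl
  have hstar : ∀ f, T (star f) = star (T f) := by
    intro f
    ext ξ
    refine ext_inner_right ℂ fun η => ?_
    rw [star_eq_adjoint, adjoint_inner_left]
    have a1 := (hT (star f) ξ).inner (𝕜 := ℂ) (tendsto_const_nhds (x := η))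
    have a2 := (tendsto_const_nhds (x := ξ)).inner (𝕜 := ℂ) (hT f η)
    refine tendsto_nhds_unique a1 (a2.congr fun w => ?_)
    have a3 := PC_inner h.fn h.sys.rep (F := cfc G1 G2 bp ((star f : C(Y, ℂ)) : Y → ℂ))
      (C := ‖star f‖) (bd (star f)) w ξ η
    rw [a3, ← cfc_conj]
    congr 3
    congr 1
    funext y
    change f y = (starRingEnd ℂ) (star (f y))
    rw [starRingEnd_apply, star_star]
  have hzero : T 0 = 0 := by
    have := hsm 0 0
    rwa [zero_smul, zero_smul] at this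
  have hcomm : ∀ c : ℂ, T (algebraMap ℂ C(Y, ℂ) c) = algebraMap ℂ (K →L[ℂ] K) c := fun c => by
    rw [Algebra.algebraMap_eq_smul_one, hsm, hone, Algebra.algebraMap_eq_smul_one]
  exact ⟨⟨⟨⟨⟨⟨T, hone⟩, hmul⟩, hzero, hadd⟩, hcomm⟩, hstar⟩, fun f ξ => hT f ξ⟩

/-- Independence of the filter. -/
theorem beta_indep (h : SysF mp R Bd ms A G1 G2) (hfin : ∀ r, (FF G1 G2 r).Finite)
    (he : Esc (st mp) R Bd A l) [l.NeBot] (hfu : Full (st mp) R G1 G2 l)
    (he' : Esc (st mp) R Bd A l') [l'.NeBot] (hfu' : Full (st mp) R G1 G2 l')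
    (hS : ∀ f : C(Y, ℝ), SepF G1 G2 bp f) {β β' : C(Y, ℂ) →⋆ₐ[ℂ] (K →L[ℂ] K)}
    (hβ : ∀ (f : C(Y, ℂ)) ξ, Tendsto (fun w => PC mp R w (cfc G1 G2 bp f) ξ) l (𝓝 (β f ξ)))
    (hβ' : ∀ (f : C(Y, ℂ)) ξ, Tendsto (fun w => PC mp R w (cfc G1 G2 bp f) ξ) l' (𝓝 (β' f ξ))) : β = β' := by
  refine StarAlgHom.ext fun f => ?_
  ext ξ
  have h1 := (hβ f ξ).comp (tendsto_fst (f := l) (g := l'))
  have h2 := (hβ' f ξ).comp (tendsto_snd (f := l) (g := l'))
  have h3 := (h1.sub h2).norm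
  have h4 := cauC h hfin he he' hfu hfu' (fun y => f.norm_coe_le_norm y) (sepC_of hS f) ξ
  have h5 := tendsto_nhds_unique h3 h4
  exact sub_eq_zero.mp (norm_eq_zero.mp h5)

end cont

end full

end Vale.Agent.P092.H859.CL
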