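import Vale.Agent.P092.H859.CLN

/-!
P092 (helper859), blocks C-LIM / D0-ENG, part 11: exchange of the two gaps.
-/

set_option linter.all false

open scoped InnerProductSpace Pointwise
open Filter Topology ContinuousLinearMap TopologicalSpace

namespace Vale.Agent.P092.H859.CL

open Vale.Agent.P092.H553 (ind ind_nonneg ind_le_one abs_ind_le ind_pos ind_neg)

variable {Γ D K Y : Type} [Group Γ] [Group D] [NormedAddCommGroup K] [InnerProductSpace ℂ K]
  [CompleteSpace K] {mp : (Γ → ℝ) → (K →L[ℂ] K)} {m : Set Γ → (K →L[ℂ] K)}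
  {R : D → (K →L[ℂ] K)} {Bd : Set K}
  {ms : D → Set Γ → ℝ} {A : Subgroup D} {G1 G2 : Γ → ℝ} {bp : Γ → Y} {l l' : Filter D}
  {lam : Γ → (K →L[ℂ] K)} {W : Set (K →L[ℂ] K)} {C : ℝ}

theorem BB_swap (r : ℝ) : BB G2 G1 r = BB G1 G2 r := by
  ext g; exact and_comm

theorem FF_swap (r : ℝ) : FF G2 G1 r = FF G1 G2 r := by
  ext g; exact and_comm

theorem Sys.swap (h : Sys m R Bd ms A G1 G2) : Sys m R Bd ms A G2 G1 :=
  ⟨h.prj, h.rep, h.dense, h.norm, h.map, h.sep,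
    fun ε hε => (h.nrm ε hε).imp fun r hr u hu => by rw [BB_swap]; exact hr u hu,
    fun ξ hξ ε hε => (h.nrv ξ hξ ε hε).imp fun r hr w hw => by rw [BB_swap]; exact hr w hw⟩

theorem SysF.swap (h : SysF mp R Bd ms A G1 G2) : SysF mp R Bd ms A G2 G1 :=
  ⟨h.fn, h.sys.swap, h.mpb⟩

theorem Neg.swap {F : Γ → ℂ} (h : Neg G1 G2 F) : Neg G2 G1 F := fun ε hε r =>
  (h ε hε r).imp fun T hT g hg => by rw [BB_swap, FF_swap]; exact hT g hg

theorem LU1.swap (h : LU1 mp R G1 G2 l) : LU1 mp R G2 G1 l := fun F C hF hN v ξ η =>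
  h F C hF (fun u => (hN u).swap) v ξ η

/-- The mass of a set tends to zero on all vectors. -/
theorem mass_zero_iff (hm : Prj m) (hR : Rep R) (h1 : R 1 = 1) (S : Set Γ) (ξ : K) :
    Tendsto (fun w => P m R w S ξ) l (𝓝 0) ↔ Tendsto (fun w => ‖m S (R w ξ)‖) l (𝓝 0) := by
  rw [tendsto_zero_iff_norm_tendsto_zero]
  have e : ∀ w, ‖P m R w S ξ‖ = ‖m S (R w ξ)‖ := fun w => by
    rw [P_ap, hR.norm_eq, h1]; rfl
  simp only [e]

theorem full_iff (hm : Prj m) (hR : Rep R) (h1 : R 1 = 1) :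
    Full m R G1 G2 l ↔ ∀ ξ, Tendsto (fun w => ‖m {g | G2 g ≤ G1 g}ᶜ (R w ξ)‖) l (𝓝 0) := by
  have e : ∀ w (ξ : K), ‖P m R w {g | G2 g ≤ G1 g} ξ - R 1 ξ‖ =
      ‖m {g | G2 g ≤ G1 g}ᶜ (R w ξ)‖ := fun w ξ => by
    have e1 : P m R w {g | G2 g ≤ G1 g} ξ - R 1 ξ = - P m R w {g | G2 g ≤ G1 g}ᶜ ξ := by
      rw [P_compl hm hR, sub_apply]; abel
    rw [e1, norm_neg, P_ap, hR.norm_eq, h1]; rfl
  unfold Full
  constructor
  · intro h ξ
    have h2 := tendsto_iff_norm_sub_tendsto_zero.mp (h ξ)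
    exact h2.congr fun w => e w ξ
  · intro h ξ
    refine tendsto_iff_norm_sub_tendsto_zero.mpr ((h ξ).congr fun w => (e w ξ).symm)

/-- If the cone carries no mass, then the other cone is full. -/
theorem full_swap (hm : Prj m) (hR : Rep R) (h1 : R 1 = 1)
    (h : ∀ ξ, Tendsto (fun w => P m R w {g | G2 g ≤ G1 g} ξ) l (𝓝 0)) : Full m R G2 G1 l := by
  rw [full_iff hm hR h1]
  intro ξ
  have h2 := (mass_zero_iff hm hR h1 _ ξ).mp (h ξ)
  refine squeeze_zero (fun w => norm_nonneg _) (fun w => ?_) h2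
  refine hm.mono (fun g hg => ?_) _
  simp only [Set.mem_compl_iff, Set.mem_setOf_eq, not_le] at hg ⊢
  exact hg.le

/-- The cone and the opposite cone: masses on a vector. -/
theorem mass_add (hm : Prj m) (S : Set Γ) (x : K) : ‖m S x‖ ^ 2 + ‖m Sᶜ x‖ ^ 2 = ‖x‖ ^ 2 :=
  hm.norm_sq_add S x

/-- Weakly null families of projections are strongly null. -/
theorem strong_of_weak_zero (hm : Prj m) (hR : Rep R) (h1 : R 1 = 1) (S : Set Γ)
    (h : ∀ ξ, Tendsto (fun w => ⟪ξ, P m R w S ξ⟫_ℂ) l (𝓝 0)) (ξ : K) :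
    Tendsto (fun w => P m R w S ξ) l (𝓝 0) := by
  rw [tendsto_zero_iff_norm_tendsto_zero]
  have h2 := ((Complex.continuous_re.tendsto _).comp (h ξ))
  rw [Complex.zero_re] at h2
  have h3 : Tendsto (fun w => ‖P m R w S ξ‖ ^ 2) l (𝓝 0) := by
    refine squeeze_zero (fun w => sq_nonneg _) (fun w => ?_) h2
    have h4 := P_sq_le hm hR w S ξ
    rwa [← inner_conj_symm, Complex.conj_re] at h4
  have h5 := h3.sqrt
  rw [Real.sqrt_zero] at h5
  exact h5.congr fun w => Real.sqrt_sq (norm_nonneg _)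

end Vale.Agent.P092.H859.CL
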