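import Vale.Agent.P092.H859.CNA
import Vale.Agent.P092.H76.DichoD

/-!
P092 (helper859), Team N, block [N-DICHO]: the type dichotomy for the wall of type one of
`SL_n(k)`, `n ≥ 3`, in the letters of the engine `CNA`. `(G1, G2)` = (first gap, sum of the other
gaps), `(H1, H2)` = (last gap, sum of the other gaps). Adapted from helper76's H76/Dicho, DichoB,
DichoC, DichoD (`n = 3`).
-/

set_option linter.all false

open scoped InnerProductSpace Pointwise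
open Filter Topology ContinuousLinearMap TopologicalSpace

namespace Vale.Agent.P092.H859.CN

open Vale.Agent.P092.H859.CL
open Vale.Agent.P092.H553 (ind ind_nonneg ind_le_one abs_ind_le ind_pos ind_neg)
open Vale.Agent.P092.H76.Pur
open Vale.Agent.P092.H76.Dicho (net net_apply net_split net_one net_ucp net_inner limF_of zero_of
  inv_of_pic erg_of_pic leg_of_pic Moore.mono)
open Vale.Agent.P092.RC (Pic Moore)

section sep

variable {Γ D K Y : Type} [Group Γ] [Group D] [NormedAddCommGroup K] [InnerProductSpace ℂ K]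
  [CompleteSpace K] {mp : (Γ → ℝ) → (K →L[ℂ] K)} {R : D → (K →L[ℂ] K)} {Bd : Set K}
  {ms : D → Set Γ → ℝ} {A : Subgroup D} {Br : ℝ → Set Γ} {G1 G2 H1 H2 : Γ → ℝ} {bp : Γ → Y}
  {l l' : Filter D} [TopologicalSpace Y] [CompactSpace Y] [MulAction Γ Y]

/-- the separation for real functions -/
theorem sep_real (h : SysF mp R Bd ms A Br G1 G2) (hg : GeoF Br G1 G2 bp)
    (he : Esc (st mp) R Bd A l) (he' : Esc (st mp) R Bd A l') (f g : C(Y, ℝ))
    (hfg : ∀ y, f y = 0 ∨ g y = 0) (ξ η : K) :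
    Tendsto (fun p : D × D => ⟪PF mp R p.1 (cf G1 G2 bp f) ξ, PF mp R p.2 (cf G1 G2 bp g) η⟫_ℂ)
      (l ×ˢ l') (𝓝 0) := by
  -- nonnegative `f`
  have key : ∀ f g : C(Y, ℝ), (∀ y, f y = 0 ∨ g y = 0) → (∀ y, 0 ≤ f y) →
      Tendsto (fun p : D × D => ⟪PF mp R p.1 (cf G1 G2 bp f) ξ, PF mp R p.2 (cf G1 G2 bp g) η⟫_ℂ)
      (l ×ˢ l') (𝓝 0) := by
    intro f g hfg hf0
    obtain ⟨N, hN⟩ : ∃ N : ℝ, N = ‖f‖ + ‖g‖ + 1 := ⟨_, rfl⟩
    have hN0 : 0 < N := by rw [hN]; positivity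
    have hfN : ∀ y, |N⁻¹ * f y| ≤ 1 := fun y => by
      have := f.norm_coe_le_norm y
      rw [Real.norm_eq_abs] at this
      rw [abs_mul, abs_of_pos (inv_pos.2 hN0), inv_mul_le_iff₀ hN0, mul_one]
      linarith [norm_nonneg g]
    have hgN : ∀ y, |N⁻¹ * g y| ≤ 1 := fun y => by
      have := g.norm_coe_le_norm y
      rw [Real.norm_eq_abs] at this
      rw [abs_mul, abs_of_pos (inv_pos.2 hN0), inv_mul_le_iff₀ hN0, mul_one]
      linarith [norm_nonneg f]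
    have hs : SepF Br G1 G2 bp (fun y => N⁻¹ * f y) := by
      intro c d hcd
      have hc1 : IsClosed {y | N⁻¹ * f y ≤ c} := isClosed_le (by fun_prop) continuous_const
      have hc2 : IsClosed {y | d ≤ N⁻¹ * f y} := isClosed_le continuous_const (by fun_prop)
      have hd : Disjoint {y | N⁻¹ * f y ≤ c} {y | d ≤ N⁻¹ * f y} :=
        Set.disjoint_left.2 fun y hy hy' => by
          have h1 : N⁻¹ * f y ≤ c := hy
          have h2 : d ≤ N⁻¹ * f y := hy'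
          linarith
      exact ⟨hg.sep _ _ hc1 hc2 hd, hg.sep _ _ hc2 hc1 hd.symm⟩
    have h1 := key01 h hg.fin he he' (f := fun y => N⁻¹ * f y) (g := fun y => N⁻¹ * g y)
      (fun y => ⟨mul_nonneg (inv_pos.2 hN0).le (hf0 y), (le_abs_self _).trans (hfN y)⟩) hs hgN ξ η
    have e0 : (fun y => N⁻¹ * f y * (N⁻¹ * g y)) = fun _ => (0 : ℝ) := by
      funext y
      rcases hfg y with h | h <;> rw [h] <;> ring
    have e1 : cf G1 G2 bp (fun _ : Y => (0 : ℝ)) = fun _ => (0 : ℝ) := by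
      funext x; simp [cf]
    have e2 : ∀ (w : D) (u : Y → ℝ) (C : ℝ) (hu : ∀ y, |u y| ≤ C),
        PF mp R w (cf G1 G2 bp fun y => N⁻¹ * u y) = ((N⁻¹ : ℝ) : ℂ) • PF mp R w (cf G1 G2 bp u) := by
      intro w u C hu
      have e3 : cf G1 G2 bp (fun y => N⁻¹ * u y) = fun x => N⁻¹ * cf G1 G2 bp u x := by
        funext x; simp only [cf]; ring
      rw [e3, PF_smul h.fn h.sys.rep w N⁻¹ (cf_abs hu)]
    have hfb : ∀ y, |f y| ≤ ‖f‖ := fun y => by
      have := f.norm_coe_le_norm y; rwa [Real.norm_eq_abs] at this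
    have hgb : ∀ y, |g y| ≤ ‖g‖ := fun y => by
      have := g.norm_coe_le_norm y; rwa [Real.norm_eq_abs] at this
    have h2 : Tendsto (fun p : D × D => ((N⁻¹ : ℝ) : ℂ) * ((N⁻¹ : ℝ) : ℂ) *
        ⟪PF mp R p.1 (cf G1 G2 bp f) ξ, PF mp R p.2 (cf G1 G2 bp g) η⟫_ℂ) (l ×ˢ l') (𝓝 0) := by
      have h3 := h1.neg
      rw [neg_zero] at h3
      refine h3.congr fun p => ?_
      rw [e0, e1, e2 p.1 f _ hfb, e2 p.2 g _ hgb]
      have e4 : PF mp R p.2 (fun _ => (0 : ℝ)) = 0 := by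
        rw [PF, h.fn.zero, mul_zero, zero_mul]
      rw [e4, zero_apply, inner_zero_right, zero_sub, neg_neg, smul_apply, smul_apply,
        inner_smul_left, inner_smul_right, Complex.conj_ofReal]
      ring
    have h3 := h2.const_mul ((N : ℂ) * N)
    rw [mul_zero] at h3
    refine h3.congr fun p => ?_
    have hNc : (N : ℂ) ≠ 0 := by exact_mod_cast hN0.ne'
    push_cast
    field_simp
  obtain ⟨fp, hfp⟩ : ∃ fp : C(Y, ℝ), ∀ y, fp y = max (f y) 0 :=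
    ⟨⟨fun y => max (f y) 0, by fun_prop⟩, fun y => rfl⟩
  obtain ⟨fm, hfm⟩ : ∃ fm : C(Y, ℝ), ∀ y, fm y = max (-f y) 0 :=
    ⟨⟨fun y => max (-f y) 0, by fun_prop⟩, fun y => rfl⟩
  have k1 := key fp g (fun y => by
    rcases hfg y with h | h
    · left; rw [hfp, h, max_self]
    · right; exact h) (fun y => by rw [hfp]; exact le_max_right _ _)
  have k2 := key fm g (fun y => by
    rcases hfg y with h | h
    · left; rw [hfm, h, neg_zero, max_self]
    · right; exact h) (fun y => by rw [hfm]; exact le_max_right _ _)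
  have k3 := k1.sub k2
  rw [sub_zero] at k3
  refine k3.congr fun p => ?_
  have hb : ∀ u : C(Y, ℝ), ∀ y, |u y| ≤ ‖u‖ := fun u y => by
    have := u.norm_coe_le_norm y; rwa [Real.norm_eq_abs] at this
  have e : PF mp R p.1 (cf G1 G2 bp f) + PF mp R p.1 (cf G1 G2 bp fm) =
      PF mp R p.1 (cf G1 G2 bp fp) := by
    rw [← PF_add h.fn h.sys.rep p.1 (cf_abs (hb f)) (cf_abs (hb fm))]
    congr 1
    funext x
    simp only [cf]
    rw [← mul_add, hfp, hfm]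
    congr 1
    rcases le_total 0 (f (bp x)) with h0 | h0
    · rw [max_eq_left h0, max_eq_right (by linarith), add_zero]
    · rw [max_eq_right h0, max_eq_left (by linarith)]; ring
  rw [← inner_sub_left, ← e]
  simp

/-- the separation for complex functions -/
theorem sep_cplx (h : SysF mp R Bd ms A Br G1 G2) (hg : GeoF Br G1 G2 bp)
    (he : Esc (st mp) R Bd A l) (he' : Esc (st mp) R Bd A l') (f g : C(Y, ℂ))
    (hfg : Disjoint (tsupport f) (tsupport g)) (ξ η : K) :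
    Tendsto (fun p : D × D => ⟪net h.fn R G1 G2 bp p.1 f ξ, net h.fn R G1 G2 bp p.2 g η⟫_ℂ)
      (l ×ˢ l') (𝓝 0) := by
  have h0 : ∀ y, f y = 0 ∨ g y = 0 := by
    intro y
    by_contra hn
    push Not at hn
    exact Set.disjoint_left.1 hfg (subset_tsupport _ hn.1) (subset_tsupport _ hn.2)
  obtain ⟨fr, hfr⟩ : ∃ u : C(Y, ℝ), ∀ y, u y = (f y).re := ⟨⟨fun y => (f y).re, by fun_prop⟩, fun y => rfl⟩
  obtain ⟨fi, hfi⟩ : ∃ u : C(Y, ℝ), ∀ y, u y = (f y).im := ⟨⟨fun y => (f y).im, by fun_prop⟩, fun y => rfl⟩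
  obtain ⟨gr, hgr⟩ : ∃ u : C(Y, ℝ), ∀ y, u y = (g y).re := ⟨⟨fun y => (g y).re, by fun_prop⟩, fun y => rfl⟩
  obtain ⟨gi, hgi⟩ : ∃ u : C(Y, ℝ), ∀ y, u y = (g y).im := ⟨⟨fun y => (g y).im, by fun_prop⟩, fun y => rfl⟩
  have k : ∀ u v : C(Y, ℝ), (∀ y, u y = 0 ∨ v y = 0) → _ := fun u v huv =>
    sep_real h hg he he' u v huv ξ η
  have k1 := k fr gr fun y => (h0 y).imp (fun e => by rw [hfr, e]; rfl) fun e => by rw [hgr, e]; rfl
  have k2 := k fr gi fun y => (h0 y).imp (fun e => by rw [hfr, e]; rfl) fun e => by rw [hgi, e]; rfl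
  have k3 := k fi gr fun y => (h0 y).imp (fun e => by rw [hfi, e]; rfl) fun e => by rw [hgr, e]; rfl
  have k4 := k fi gi fun y => (h0 y).imp (fun e => by rw [hfi, e]; rfl) fun e => by rw [hgi, e]; rfl
  have k5 := ((k1.add (k2.const_mul Complex.I)).add (k3.const_mul (-Complex.I))).add k4
  simp only [mul_zero, add_zero] at k5
  refine k5.congr fun p => ?_
  have e1 : (fun y => (f y).re) = ⇑fr := funext fun y => (hfr y).symm
  have e2 : (fun y => (f y).im) = ⇑fi := funext fun y => (hfi y).symm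
  have e3 : (fun y => (g y).re) = ⇑gr := funext fun y => (hgr y).symm
  have e4 : (fun y => (g y).im) = ⇑gi := funext fun y => (hgi y).symm
  rw [net_split, net_split, e1, e2, e3, e4, add_apply, add_apply, smul_apply, smul_apply,
    inner_add_left, inner_add_right, inner_add_right, inner_smul_left, inner_smul_left,
    inner_smul_right, inner_smul_right, Complex.conj_I]
  have := Complex.I_mul_I
  linear_combination (⟪PF mp R p.1 (cf G1 G2 bp ⇑fi) ξ, PF mp R p.2 (cf G1 G2 bp ⇑gi) η⟫_ℂ) * this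

end sep

section pos

variable {Γ D K Y : Type} [Group Γ] [Group D] [NormedAddCommGroup K] [InnerProductSpace ℂ K]
  [CompleteSpace K] {mp : (Γ → ℝ) → (K →L[ℂ] K)} {m : Set Γ → (K →L[ℂ] K)}
  {R : D → (K →L[ℂ] K)} {Bd : Set K}
  {ms : D → Set Γ → ℝ} {A : Subgroup D} {Br : ℝ → Set Γ} {G1 G2 H1 H2 : Γ → ℝ} {bp : Γ → Y}
  {l l' : Filter D} {Ω : K}

/-- **(POS)**, the output of [N-GAP] (B): the large gap is the first or the last one. -/
def Pos (m : Set Γ → (K →L[ℂ] K)) (R : D → (K →L[ℂ] K)) (G2 H2 : Γ → ℝ) (l : Filter D) : Prop :=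
  ∀ ξ, ∀ ε : ℝ, 0 < ε → ∃ r, ∀ᶠ w in l, ‖m {g | r < G2 g ∧ r < H2 g} (R w ξ)‖ ≤ ε

/-- The relations between the gap functions of the two types. -/
structure Gaps (G1 G2 H1 H2 : Γ → ℝ) (C : ℝ) : Prop where
  nn : 0 ≤ C
  inv1 : ∀ g, |G1 g⁻¹ - H1 g| ≤ C
  inv2 : ∀ g, |G2 g⁻¹ - H2 g| ≤ C
  le1 : ∀ g, H1 g ≤ G2 g + C
  le2 : ∀ g, G1 g ≤ H2 g + C

theorem Gaps.fin {C : ℝ} (hC : Gaps G1 G2 H1 H2 C) (hf : ∀ r, (FF G1 G2 r).Finite) (r : ℝ) :
    (FF H1 H2 r).Finite := by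
  refine ((hf (r + C)).image (fun g => g⁻¹)).subset ?_
  intro g hg
  refine ⟨g⁻¹, ?_, inv_inv g⟩
  obtain ⟨h1, h2⟩ := hg
  have c1 := abs_le.1 (hC.inv1 g)
  have c2 := abs_le.1 (hC.inv2 g)
  exact ⟨by linarith, by linarith⟩

/-- The position condition is inherited by the inverse (with the two types exchanged). -/
theorem Gaps.symm {C : ℝ} (hC : Gaps G1 G2 H1 H2 C) : Gaps H1 H2 G1 G2 C where
  nn := hC.nn
  inv1 g := by
    have := hC.inv1 g⁻¹
    rw [inv_inv] at this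
    rwa [abs_sub_comm]
  inv2 g := by
    have := hC.inv2 g⁻¹
    rw [inv_inv] at this
    rwa [abs_sub_comm]
  le1 := hC.le2
  le2 := hC.le1

/-- Negligible sets. -/
theorem negl_pos (h : Sys m R Bd ms A Br G1 G2) (he : Esc m R Bd A l) (hp : Pos m R G2 H2 l)
    {N : Set Γ} (hN : ∀ r, ∃ F : Set Γ, F.Finite ∧ N ⊆ F ∪ {g | r < G2 g ∧ r < H2 g}) (ξ : K) :
    Tendsto (fun w => ‖m N (R w ξ)‖) l (𝓝 0) := by
  rw [Metric.tendsto_nhds]
  intro ε hε
  obtain ⟨r, hr⟩ := hp ξ (ε / 3) (by positivity)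
  obtain ⟨F, hF, hT⟩ := hN r
  have h1 := h.prj.tendsto_finite (f := fun w => R w ξ) (l := l)
    (fun g => esc2 h he g ξ) hF
  filter_upwards [hr, (Metric.tendsto_nhds.mp h1) (ε / 3) (by positivity)] with w h2 h3
  rw [dist_zero_right, norm_norm] at h3 ⊢
  have h4 := (h.prj.mono hT (R w ξ)).trans (h.prj.norm_union_le _ _ _)
  linarith

/-- The band of `G`. -/
theorem band_G {C c : ℝ} (hC : Gaps G1 G2 H1 H2 C) (hf : ∀ r, (FF G1 G2 r).Finite) (hc : 0 ≤ c)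
    (r : ℝ) : ∃ F : Set Γ, F.Finite ∧ {g | |G1 g - G2 g| ≤ c} ⊆ F ∪ {g | r < G2 g ∧ r < H2 g} := by
  refine ⟨FF G1 G2 (r + C + c), hf _, fun g hg => ?_⟩
  have h1 := abs_le.1 (show |G1 g - G2 g| ≤ c from hg)
  have h2 := hC.le2 g
  have h3 := hC.nn
  by_cases h4 : G2 g ≤ r
  · left; exact ⟨by linarith, by linarith⟩
  · by_cases h5 : H2 g ≤ r
    · left; exact ⟨by linarith, by linarith⟩
    · right; exact ⟨not_le.1 h4, not_le.1 h5⟩

/-- The complement of the two cones. -/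
theorem cones_cover {C c : ℝ} (hC : Gaps G1 G2 H1 H2 C) (hf : ∀ r, (FF G1 G2 r).Finite)
    (hc : 0 ≤ c) (r : ℝ) :
    ∃ F : Set Γ, F.Finite ∧ {g | G1 g < G2 g ∧ H1 g < H2 g + c} ⊆
      F ∪ {g | r < G2 g ∧ r < H2 g} := by
  refine ⟨FF G1 G2 r ∪ FF H1 H2 (r + c), (hf _).union (hC.fin hf _), fun g hg => ?_⟩
  obtain ⟨h1, h2⟩ := hg
  by_cases h4 : G2 g ≤ r
  · left; left; exact ⟨by linarith, by linarith⟩
  · by_cases h5 : H2 g ≤ r
    · left; right; exact ⟨by linarith, by linarith⟩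
    · right; exact ⟨not_le.1 h4, not_le.1 h5⟩

/-- The symmetry under inversion: the two masses add up to `1`. -/
theorem sym_lim [TopologicalSpace Y] [CompactSpace Y] (h : SysF mp R Bd ms A Br G1 G2)
    (hfin : ∀ r, (FF G1 G2 r).Finite) (he : Esc (st mp) R Bd A l)
    (hp : Pos (st mp) R G2 H2 l) (hsy : Sym mp R Ω) {C : ℝ}
    (hC : Gaps G1 G2 H1 H2 C) (h1 : R 1 = 1) (hΩ : ‖Ω‖ = 1) :
    Tendsto (fun w => ⟪Ω, net h.fn R G1 G2 bp w 1 Ω⟫_ℂ +
      ⟪Ω, net h.fn R G1 G2 bp w⁻¹ 1 Ω⟫_ℂ) l (𝓝 1) := by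
  obtain ⟨S, hS⟩ : ∃ S : Set Γ, S = {g | G2 g ≤ G1 g} := ⟨_, rfl⟩
  obtain ⟨S', hS'⟩ : ∃ S' : Set Γ, S' = {g | G2 g⁻¹ ≤ G1 g⁻¹} := ⟨_, rfl⟩
  obtain ⟨N, hN⟩ : ∃ N : Set Γ, N = {g | |G1 g - G2 g| ≤ 4 * C} ∪
    {g | G1 g < G2 g ∧ H1 g < H2 g + 2 * C} := ⟨_, rfl⟩
  have hC0 := hC.nn
  have hneg := negl_pos h.sys he hp (N := N) (fun r => by
    obtain ⟨F1, f1, hF1⟩ := band_G hC hfin (c := 4 * C) (by positivity) r
    obtain ⟨F2, f2, hF2⟩ := cones_cover hC hfin (c := 2 * C) (by positivity) r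
    refine ⟨F1 ∪ F2, f1.union f2, ?_⟩
    rw [hN]
    refine Set.union_subset (hF1.trans ?_) (hF2.trans ?_)
    · exact Set.union_subset_union_left _ Set.subset_union_left
    · exact Set.union_subset_union_left _ Set.subset_union_right) Ω
  have hprj := h.fn.prj
  have k1 : ∀ w, ⟪Ω, net h.fn R G1 G2 bp w 1 Ω⟫_ℂ + ⟪Ω, net h.fn R G1 G2 bp w⁻¹ 1 Ω⟫_ℂ =
      ((‖st mp S (R w Ω)‖ ^ 2 + ‖st mp S' (R w Ω)‖ ^ 2 : ℝ) : ℂ) := by
    intro w
    rw [net_inner h.fn h.sys.rep, net_inner h.fn h.sys.rep, ← hS]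
    have k2 := hsy w S'
    have e : {g : Γ | g⁻¹ ∈ S'} = S := by
      ext g
      rw [hS', hS]
      simp only [Set.mem_setOf_eq, inv_inv]
    rw [e] at k2
    rw [k2]
    push_cast
    rfl
  have k3 : ∀ w, ‖st mp S (R w Ω)‖ ^ 2 + ‖st mp Sᶜ (R w Ω)‖ ^ 2 = 1 := by
    intro w
    rw [hprj.norm_sq_add, h.sys.rep.norm_eq, h1]
    change ‖Ω‖ ^ 2 = 1
    rw [hΩ, one_pow]
  have k4 : ∀ w, |‖st mp S (R w Ω)‖ ^ 2 + ‖st mp S' (R w Ω)‖ ^ 2 - 1| ≤
      4 * ‖st mp N (R w Ω)‖ := by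
    intro w
    have e1 : ‖st mp S (R w Ω)‖ ^ 2 + ‖st mp S' (R w Ω)‖ ^ 2 - 1 =
        (‖st mp S' (R w Ω)‖ - ‖st mp Sᶜ (R w Ω)‖) * (‖st mp S' (R w Ω)‖ + ‖st mp Sᶜ (R w Ω)‖) := by
      linear_combination k3 w
    have e2 : ‖st mp S' (R w Ω) - st mp Sᶜ (R w Ω)‖ ≤ 2 * ‖st mp N (R w Ω)‖ := by
      refine hprj.sub_le (fun g hg => ?_) _
      rw [hN, Set.mem_union, not_or] at hg
      obtain ⟨hg1, hg2⟩ := hg
      have hg1' : ¬ |G1 g - G2 g| ≤ 4 * C := hg1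
      have hg2' : ¬ (G1 g < G2 g ∧ H1 g < H2 g + 2 * C) := hg2
      rw [hS', hS]
      simp only [Set.mem_setOf_eq, Set.mem_compl_iff, not_le]
      have c1 := abs_le.1 (hC.inv1 g)
      have c2 := abs_le.1 (hC.inv2 g)
      have d1 := hC.le1 g
      have d2 := hC.le2 g
      constructor
      · intro h3
        by_contra h4
        push Not at h4
        exact hg1' (abs_le.2 ⟨by linarith, by linarith⟩)
      · intro h3
        by_contra h4
        push Not at h4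
        exact hg2' ⟨h3, by linarith⟩
    have e3 : ∀ T : Set Γ, ‖st mp T (R w Ω)‖ ≤ 1 := fun T => by
      have := (hprj.norm_le T (R w Ω)).trans (h.sys.rep.norm_le w Ω)
      rwa [hΩ] at this
    have e4 := (abs_norm_sub_norm_le (st mp S' (R w Ω)) (st mp Sᶜ (R w Ω))).trans e2
    rw [e1, abs_mul]
    have e5 : |‖st mp S' (R w Ω)‖ + ‖st mp Sᶜ (R w Ω)‖| ≤ 2 := by
      rw [abs_of_nonneg (by positivity)]
      linarith [e3 S', e3 Sᶜ]
    calc _ ≤ (2 * ‖st mp N (R w Ω)‖) * 2 := mul_le_mul e4 e5 (abs_nonneg _) (by positivity)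
      _ = _ := by ring
  have k5 : Tendsto (fun w => ‖st mp S (R w Ω)‖ ^ 2 + ‖st mp S' (R w Ω)‖ ^ 2 - 1) l (𝓝 0) := by
    have h4 := hneg.const_mul 4
    rw [mul_zero] at h4
    exact squeeze_zero_norm (fun w => k4 w) h4
  have k6 := k5.add_const 1
  rw [zero_add] at k6
  have k7 := (Complex.continuous_ofReal.tendsto _).comp k6
  rw [Complex.ofReal_one] at k7
  refine k7.congr fun w => ?_
  rw [k1 w]
  simp only [Function.comp_apply, sub_add_cancel]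

/-- If the masses of the first type tend to zero, the type is the last one. -/
theorem full_of_zero [TopologicalSpace Y] [CompactSpace Y] (h : SysF mp R Bd ms A Br G1 G2)
    (hfin : ∀ r, (FF G1 G2 r).Finite) (he : Esc (st mp) R Bd A l)
    (hp : Pos (st mp) R G2 H2 l) {C : ℝ} (hC : Gaps G1 G2 H1 H2 C)
    (h0 : ∀ ξ, Tendsto (fun w => net h.fn R G1 G2 bp w 1 ξ) l (𝓝 0)) :
    Full (st mp) R H1 H2 l := by
  intro ξ
  obtain ⟨N, hN⟩ : ∃ N : Set Γ, N = {g | |G1 g - G2 g| ≤ 2 * C} ∪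
    {g | G1 g < G2 g ∧ H1 g < H2 g + 0} := ⟨_, rfl⟩
  have hC0 := hC.nn
  have hneg := negl_pos h.sys he hp (N := N) (fun r => by
    obtain ⟨F1, f1, hF1⟩ := band_G hC hfin (c := 2 * C) (by positivity) r
    obtain ⟨F2, f2, hF2⟩ := cones_cover hC hfin (c := 0) le_rfl r
    refine ⟨F1 ∪ F2, f1.union f2, ?_⟩
    rw [hN]
    refine Set.union_subset (hF1.trans ?_) (hF2.trans ?_)
    · exact Set.union_subset_union_left _ Set.subset_union_left
    · exact Set.union_subset_union_left _ Set.subset_union_right) ξ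
  have h1 : Tendsto (fun w => P (st mp) R w {g | H2 g ≤ H1 g} ξ -
      P (st mp) R w {g | G2 g ≤ G1 g}ᶜ ξ) l (𝓝 0) := by
    have h4 := hneg.const_mul 2
    rw [mul_zero] at h4
    refine squeeze_zero_norm (fun w => P_sub_le h.fn.prj h.sys.rep w (fun g hg => ?_) ξ) h4
    rw [hN, Set.mem_union, not_or] at hg
    obtain ⟨hg1, hg2⟩ := hg
    have hg1' : ¬ |G1 g - G2 g| ≤ 2 * C := hg1
    have hg2' : ¬ (G1 g < G2 g ∧ H1 g < H2 g + 0) := hg2
    simp only [Set.mem_setOf_eq, Set.mem_compl_iff, not_le]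
    have d1 := hC.le1 g
    have d2 := hC.le2 g
    constructor
    · intro h3
      by_contra h4
      push Not at h4
      exact hg1' (abs_le.2 ⟨by linarith, by linarith⟩)
    · intro h3
      by_contra h4
      push Not at h4
      exact hg2' ⟨h3, by linarith⟩
  have h2 := (h0 ξ).const_sub (R 1 ξ)
  rw [sub_zero] at h2
  have h3 := h1.add h2
  rw [zero_add] at h3
  refine h3.congr fun w => ?_
  rw [net_one, P_compl h.fn.prj h.sys.rep, sub_apply]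
  abel

end pos

section dicho

variable {Γ D K Y : Type} [Group Γ] [Group D] [NormedAddCommGroup K] [InnerProductSpace ℂ K]
  [CompleteSpace K] {mp : (Γ → ℝ) → (K →L[ℂ] K)} {Bd : Set K}
  {ms : D → Set Γ → ℝ} {A : Subgroup D} {Br : ℝ → Set Γ} {G1 G2 H1 H2 : Γ → ℝ} {bp : Γ → Y}
  {l : Filter D} {W : Set (K →L[ℂ] K)} {Q Q' : Set D} {Ω : K}
  [TopologicalSpace Y] [CompactSpace Y] [MulAction Γ Y]
  {π : D →* (K →L[ℂ] K)} {lam : Γ →* (K →L[ℂ] K)}

/-- **The type dichotomy**, from the asymptotic statements. -/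
theorem dicho_asy (h : SysF mp π Bd ms A Br G1 G2) (hG : GeoF Br G1 G2 bp)
    (he : Esc (st mp) π Bd A l) (he' : Esc (st mp) π Bd A (l.map (·⁻¹)))
    (hp : Pos (st mp) π G2 H2 l) (hp' : Pos (st mp) π G2 H2 (l.map (·⁻¹)))
    (hsy : Sym mp π Ω) {C : ℝ} (hC : Gaps G1 G2 H1 H2 C)
    (hΩ : ‖Ω‖ = 1) (hNI : NIS (fun (γ : Γ) (y : Y) => γ • y)) (hinv : Inv π lam W Ω)
    (hQ : Subgroup.closure (Q ∪ Q') = ⊤) (herg : Erg π lam W Q) (herg' : Erg π lam W Q')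
    (hcov : ∀ l' : Filter D, Esc (st mp) π Bd A l' → ∀ (s : Γ) (f f' : C(Y, ℂ)),
      (∀ y, f' (s • y) = f y) → ∀ ξ : K, Tendsto (fun w =>
        (lam s * PC mp π w (H859.CL.cfc G1 G2 bp f) * lam s⁻¹ -
          PC mp π w (H859.CL.cfc G1 G2 bp f')) ξ) l' (𝓝 0))
    (hcm : ∀ a ∈ W, ∀ w (f : C(Y, ℂ)), a * PC mp π w (H859.CL.cfc G1 G2 bp f) =
      PC mp π w (H859.CL.cfc G1 G2 bp f) * a)
    (hpar : ∀ n ∈ Q, ∀ (f : C(Y, ℂ)) (ξ η : K), Tendsto (fun w =>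
      ⟪η, (PC mp π w (H859.CL.cfc G1 G2 bp f) * π n -
        π n * PC mp π w (H859.CL.cfc G1 G2 bp f)) ξ⟫_ℂ) l (𝓝 0))
    (hpar' : ∀ n ∈ Q', ∀ (f : C(Y, ℂ)) (ξ η : K), Tendsto (fun w =>
      ⟪η, (PC mp π w (H859.CL.cfc G1 G2 bp f) * π n -
        π n * PC mp π w (H859.CL.cfc G1 G2 bp f)) ξ⟫_ℂ) (l.map (·⁻¹)) (𝓝 0)) :
    (Full (st mp) π G1 G2 l ∧ Full (st mp) π H1 H2 (l.map (·⁻¹))) ∨
      (Full (st mp) π H1 H2 l ∧ Full (st mp) π G1 G2 (l.map (·⁻¹))) := by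
  have h1 : π 1 = 1 := map_one π
  have hi : Tendsto (fun w : D => w⁻¹) l (l.map (·⁻¹)) := tendsto_map
  have hsym := sym_lim (bp := bp) h hG.fin he hp hsy hC h1 hΩ
  have hL : ∀ U : Ultrafilter D, (U : Filter D) ≤ l → ∀ E, WLim (net h.fn π G1 G2 bp) U E →
      LimF (fun (γ : Γ) (y : Y) => γ • y) π lam W Q E := fun U hU E hE =>
    limF_of (P := net h.fn π G1 G2 bp) (l := l) (fun s f f' hff ξ η => by
      have h3 := (tendsto_const_nhds (x := η)).inner (𝕜 := ℂ) (hcov l he s f f' hff ξ)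
      rw [inner_zero_right] at h3
      exact h3) (fun a ha i f => hcm a ha i f) (fun n hn f ξ η => hpar n hn f ξ η) hU hE
  have hL' : ∀ U : Ultrafilter D, (U : Filter D) ≤ l → ∀ E,
      WLim (fun w => net h.fn π G1 G2 bp w⁻¹) U E →
      LimF (fun (γ : Γ) (y : Y) => γ • y) π lam W Q' E := fun U hU E hE =>
    limF_of (P := fun w => net h.fn π G1 G2 bp w⁻¹) (l := l) (fun s f f' hff ξ η => by
      have h3 := (tendsto_const_nhds (x := η)).inner (𝕜 := ℂ)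
        ((hcov _ he' s f f' hff ξ).comp hi)
      rw [inner_zero_right] at h3
      exact h3) (fun a ha i f => hcm a ha i⁻¹ f)
      (fun n hn f ξ η => (hpar' n hn f ξ η).comp hi) hU hE
  have hP : ∀ w, UCP (net h.fn π G1 G2 bp w) := fun w => net_ucp h.fn h.sys.rep w
  have hsep : ∀ f g : C(Y, ℂ), Disjoint (tsupport f) (tsupport g) → ∀ ξ η,
      Tendsto (fun p : D × D => ⟪net h.fn π G1 G2 bp p.1 f ξ,
        net h.fn π G1 G2 bp p.2⁻¹ g η⟫_ℂ) (l ×ˢ l) (𝓝 0) := fun f g hfg ξ η =>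
    (sep_cplx h hG he he' f g hfg ξ η).comp (tendsto_fst.prodMk (hi.comp tendsto_snd))
  have fin1 : ∀ l' : Filter D, (∀ ξ, Tendsto (fun w => net h.fn π G1 G2 bp w 1 ξ) l' (𝓝 ξ)) →
      Full (st mp) π G1 G2 l' := fun l' hl ξ => by
    rw [h1]
    exact (hl ξ).congr fun w => by rw [net_one]
  rcases half hNI hΩ hinv hQ herg herg' (P := net h.fn π G1 G2 bp)
    (P' := fun w => net h.fn π G1 G2 bp w⁻¹) hP (fun w => hP w⁻¹) hL hL' hsep hsym with hh | hh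
  · refine Or.inl ⟨fin1 l hh, full_of_zero (bp := bp) h hG.fin he' hp' hC fun ξ => ?_⟩
    rw [tendsto_map'_iff]
    refine zero_of (P := fun w => net h.fn π G1 G2 bp w⁻¹) (fun w => hP w⁻¹) hΩ herg' hL' ?_ ξ
    have h3 := (tendsto_const_nhds (x := Ω)).inner (𝕜 := ℂ) (hh Ω)
    have h4 := hsym.sub h3
    have hΩ1 : ⟪Ω, Ω⟫_ℂ = 1 := by rw [inner_self_eq_norm_sq_to_K, hΩ]; simp
    rw [hΩ1, sub_self] at h4
    exact h4.congr fun w => by ring
  · refine Or.inr ⟨full_of_zero (bp := bp) h hG.fin he hp hC fun ξ => ?_, fin1 _ fun ξ => ?_⟩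
    · refine zero_of (P := net h.fn π G1 G2 bp) hP hΩ herg hL ?_ ξ
      have h3 := (tendsto_const_nhds (x := Ω)).inner (𝕜 := ℂ) (hh Ω)
      have h4 := hsym.sub h3
      have hΩ1 : ⟪Ω, Ω⟫_ℂ = 1 := by rw [inner_self_eq_norm_sq_to_K, hΩ]; simp
      rw [hΩ1, sub_self] at h4
      exact h4.congr fun w => by ring
    · rw [tendsto_map'_iff]
      exact hh ξ

variable [TopologicalSpace D]

/-- Commutation with the elements commuting with the wall element. -/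
theorem asy_comm {R : D → (K →L[ℂ] K)} (h : SysF mp R Bd ms A Br G1 G2) (hG : GeoF Br G1 G2 bp)
    (hLU : LU1 mp R G1 G2 l) {v : D} (hv : ∀ᶠ w in l, Commute w v) (f : C(Y, ℂ)) (ξ η : K) :
    Tendsto (fun w => ⟪η, (PC mp R w (H859.CL.cfc G1 G2 bp f) * R v -
      R v * PC mp R w (H859.CL.cfc G1 G2 bp f)) ξ⟫_ℂ) l (𝓝 0) := by
  have h1 := (hLU (H859.CL.cfc G1 G2 bp f) ‖f‖ (CL.cfc_norm fun y => f.norm_coe_le_norm y)
    (fun u => neg_right hG u f) v ξ η).neg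
  rw [neg_zero] at h1
  refine h1.congr' ?_
  filter_upwards [hv] with w hw
  have a1 : ∀ x, R v (R w x) = R w (R v x) := fun x => by
    rw [← mul_ap', ← mul_ap', ← h.sys.rep.mul, ← h.sys.rep.mul, hw.eq]
  have a2 : ∀ x, R v (R w⁻¹ x) = R w⁻¹ (R v x) := fun x => by
    rw [← mul_ap', ← mul_ap', ← h.sys.rep.mul, ← h.sys.rep.mul, hw.inv_left.eq]
  rw [sub_apply, sub_apply, mul_ap', mul_ap', mul_ap', mul_ap', PC_ap, PC_ap, a1, a2,
    inner_sub_right, inner_sub_right, h.sys.rep.inner_left, h.sys.rep.inner_left, neg_sub]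

/-- Commutation with `Q`. -/
theorem asy_par {R : D → (K →L[ℂ] K)} (h : SysF mp R Bd ms A Br G1 G2) (hG : GeoF Br G1 G2 bp)
    (hS : Slow mp R Bd) (hLU : LU1 mp R G1 G2 l) {n : D}
    (hn : Tendsto (fun w => w * n * w⁻¹) l (𝓝 1) ∨ ∀ᶠ w in l, Commute w n) (f : C(Y, ℂ))
    (ξ η : K) :
    Tendsto (fun w => ⟪η, (PC mp R w (H859.CL.cfc G1 G2 bp f) * R n -
      R n * PC mp R w (H859.CL.cfc G1 G2 bp f)) ξ⟫_ℂ) l (𝓝 0) := by
  rcases hn with hn | hn
  · have h1 := asy_slow h hS hn (F := H859.CL.cfc G1 G2 bp f)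
      (CL.cfc_norm fun y => f.norm_coe_le_norm y) ξ
    have h3 := (tendsto_const_nhds (x := η)).inner (𝕜 := ℂ) h1
    rw [inner_zero_right] at h3
    exact h3
  · exact asy_comm h hG hLU hn f ξ η

/-- **[N-DICHO]: the type dichotomy.** Along `l` the type is the first one and along the inverse
it is the last one, or the other way round. -/
theorem dicho (h : SysF mp π Bd ms A Br G1 G2) (hG : GeoF Br G1 G2 bp) (hL : Leg mp π lam W)
    (hS : Slow mp π Bd) (he : Esc (st mp) π Bd A l) (he' : Esc (st mp) π Bd A (l.map (·⁻¹)))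
    (hLU : LU1 mp π G1 G2 l) (hLU' : LU1 mp π G1 G2 (l.map (·⁻¹)))
    (hp : Pos (st mp) π G2 H2 l) (hp' : Pos (st mp) π G2 H2 (l.map (·⁻¹)))
    (hsy : Sym mp π Ω) {C : ℝ} (hC : Gaps G1 G2 H1 H2 C)
    (hΩ : ‖Ω‖ = 1) (hNI : NIS (fun (γ : Γ) (y : Y) => γ • y)) (hinv : Inv π lam W Ω)
    (hQ : ∀ n ∈ Q, Tendsto (fun w => w * n * w⁻¹) l (𝓝 1) ∨ ∀ᶠ w in l, Commute w n)
    (hQ' : ∀ n ∈ Q', Tendsto (fun w => w⁻¹ * n * w) l (𝓝 1) ∨ ∀ᶠ w in l, Commute w n)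
    (hcl : Subgroup.closure (Q ∪ Q') = ⊤) (herg : Erg π lam W Q) (herg' : Erg π lam W Q') :
    (Full (st mp) π G1 G2 l ∧ Full (st mp) π H1 H2 (l.map (·⁻¹))) ∨
      (Full (st mp) π H1 H2 l ∧ Full (st mp) π G1 G2 (l.map (·⁻¹))) := by
  refine dicho_asy h hG he he' hp hp' hsy hC hΩ hNI hinv hcl herg herg'
    (fun l' hl' s f f' hff ξ => asy_cov h hG hL hl' s hff ξ)
    (fun a ha w f => PC_W hL h.fn h.sys.rep ha (CL.cfc_norm fun y => f.norm_coe_le_norm y) w)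
    (fun n hn f ξ η => asy_par h hG hS hLU (hQ n hn) f ξ η)
    (fun n hn f ξ η => asy_par h hG hS hLU' ?_ f ξ η)
  rcases hQ' n hn with h1 | h1
  · left
    rw [tendsto_map'_iff]
    refine h1.congr fun w => ?_
    simp only [Function.comp_apply, inv_inv]
  · right
    rw [eventually_map]
    filter_upwards [h1] with w hw
    exact hw.inv_left

theorem pw_map_inv (b : D) : (pw b).map (·⁻¹) = pw b⁻¹ := by
  rw [pw, pw, Filter.map_map]
  congr 1
  funext n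
  simp only [Function.comp_apply, inv_pow]

/-- **[N-DICHO] for a picture**, along the powers of `b`. `N`, `N'` are subsets contracted
by `b`, `b⁻¹` with the Moore property, `L` commutes with `b`. -/
theorem dicho_pic (hP : Pic π lam W Ω) {b : D} (h : SysF mp π Bd ms A Br G1 G2)
    (hG : GeoF Br G1 G2 bp)
    (hcov : ∀ γ (F : Γ → ℝ), (∀ g, |F g| ≤ 1) → lam γ * mp F * lam γ⁻¹ = mp (fun g => F (γ⁻¹ * g)))
    (hWm : ∀ w ∈ W, ∀ F : Γ → ℝ, (∀ g, |F g| ≤ 1) → w * mp F = mp F * w) (hS : Slow mp π Bd)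
    (he : Esc (st mp) π Bd A (pw b)) (he' : Esc (st mp) π Bd A (pw b⁻¹))
    (hLU : LU1 mp π G1 G2 (pw b)) (hLU' : LU1 mp π G1 G2 (pw b⁻¹))
    (hp : Pos (st mp) π G2 H2 (pw b)) (hp' : Pos (st mp) π G2 H2 (pw b⁻¹))
    (hsy : Sym mp π Ω) {C : ℝ} (hC : Gaps G1 G2 H1 H2 C)
    (hNI : NIS (fun (γ : Γ) (y : Y) => γ • y)) {N N' L : Set D}
    (hN : ∀ n ∈ N, Tendsto (fun i : ℕ => b ^ i * n * (b ^ i)⁻¹) atTop (𝓝 1))
    (hN' : ∀ n ∈ N', Tendsto (fun i : ℕ => (b ^ i)⁻¹ * n * b ^ i) atTop (𝓝 1))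
    (hLb : ∀ n ∈ L, Commute b n) (hM : Moore N) (hM' : Moore N')
    (hcl : Subgroup.closure (N ∪ N' ∪ L) = ⊤) :
    (Full (st mp) π G1 G2 (pw b) ∧ Full (st mp) π H1 H2 (pw b⁻¹)) ∨
      (Full (st mp) π H1 H2 (pw b) ∧ Full (st mp) π G1 G2 (pw b⁻¹)) := by
  have e := pw_map_inv b
  have h1 := dicho (l := pw b) (Q := N ∪ L) (Q' := N' ∪ L) h hG (leg_of_pic hP hcov hWm) hS he
    (by rw [e]; exact he') hLU (by rw [e]; exact hLU') hp (by rw [e]; exact hp') hsy hC hP.nΩ hNI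
    (inv_of_pic hP) (fun n hn => ?_) (fun n hn => ?_) ?_
    (erg_of_pic hP (Moore.mono hM Set.subset_union_left))
    (erg_of_pic hP (Moore.mono hM' Set.subset_union_left))
  · rw [e] at h1
    exact h1
  · rcases hn with h2 | h2
    · exact Or.inl (tendsto_pw.2 (hN n h2))
    · refine Or.inr ?_
      rw [pw, eventually_map]
      exact Eventually.of_forall fun i => (hLb n h2).pow_left i
  · rcases hn with h2 | h2
    · exact Or.inl (tendsto_pw.2 (hN' n h2))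
    · refine Or.inr ?_
      rw [pw, eventually_map]
      exact Eventually.of_forall fun i => (hLb n h2).pow_left i
  · rw [eq_top_iff, ← hcl]
    refine Subgroup.closure_mono ?_
    intro x hx
    simp only [Set.mem_union] at hx ⊢
    tauto

end dicho

end Vale.Agent.P092.H859.CN
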