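import Vale.Agent.P092.H859.Main

/-!
P092 (helper859): the invariant mean.
-/

set_option linter.all false

open scoped InnerProductSpace
open Filter Topology ContinuousLinearMap

namespace Vale.Agent.P092.H859

open Vale.Agent.P092.H160 Vale.Agent.P092.H553

variable {Γ Λ : Type} [Group Γ] [Group Λ] {V : Λ →* (Ell2 Γ →L[ℂ] Ell2 Γ)}

/-- The midpoint of two families. -/
noncomputable def mid (P Q : ℕ → Γ → (Ell2 Γ →L[ℂ] Ell2 Γ)) : ℕ → Γ → (Ell2 Γ →L[ℂ] Ell2 Γ) :=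
  fun n b => (1 / 2 : ℂ) • (P n b + Q n b)

theorem mid_apply (P Q : ℕ → Γ → (Ell2 Γ →L[ℂ] Ell2 Γ)) (n : ℕ) (b : Γ) (ξ : Ell2 Γ) :
    mid P Q n b ξ = (1 / 2 : ℂ) • (P n b ξ + Q n b ξ) := rfl

/-- Conjugation by the right multiplications. -/
noncomputable def act (V : Λ →* (Ell2 Γ →L[ℂ] Ell2 Γ)) (u : Λ)
    (P : ℕ → Γ → (Ell2 Γ →L[ℂ] Ell2 Γ)) : ℕ → Γ → (Ell2 Γ →L[ℂ] Ell2 Γ) :=
  fun n b => (Wr V u⁻¹).comp ((P n b).comp (Wr V u))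

theorem act_apply (u : Λ) (P : ℕ → Γ → (Ell2 Γ →L[ℂ] Ell2 Γ)) (n : ℕ) (b : Γ) (ξ : Ell2 Γ) :
    act V u P n b ξ = Wr V u⁻¹ (P n b (Wr V u ξ)) := rfl

/-- The lower bound. -/
def Low (V : Λ →* (Ell2 Γ →L[ℂ] Ell2 Γ)) (K : Subgroup Λ) (U : Ultrafilter ℕ)
    (B : ℕ → Finset Γ) (Y P : ℕ → Γ → (Ell2 Γ →L[ℂ] Ell2 Γ)) (c : ℝ) : Prop :=
  ∀ u ∈ K, ∀ᶠ n in U, c ≤ (∑ b ∈ B n, ⟪Y n b (Wr V u (dl 1)), P n b (Wr V u (dl 1))⟫_ℂ).re

variable {B : ℕ → Finset Γ} {P Q Y : ℕ → Γ → (Ell2 Γ →L[ℂ] Ell2 Γ)} {U : Ultrafilter ℕ}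

theorem Fam.mid (hP : Fam B P) (hQ : Fam B Q) : Fam B (mid P Q) where
  off n b hb := by rw [H859.mid, hP.off n b hb, hQ.off n b hb, add_zero, smul_zero]
  bdd n ξ := by
    have h1 : ∑ b ∈ B n, ‖H859.mid P Q n b ξ‖ ^ 2 ≤
        ∑ b ∈ B n, (‖P n b ξ‖ ^ 2 + ‖Q n b ξ‖ ^ 2) / 2 :=
      Finset.sum_le_sum fun b _ => half_sq_le _ _
    rw [← Finset.sum_div, Finset.sum_add_distrib] at h1
    have := hP.bdd n ξ
    have := hQ.bdd n ξ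
    linarith

theorem Cov.mid (hP : Cov U B P) (hQ : Cov U B Q) : Cov U B (mid P Q) := by
  intro s ξ
  have h1 := ((hP s ξ).add (hQ s ξ)).div_const 2
  rw [add_zero, zero_div] at h1
  refine squeeze_zero (fun n => Finset.sum_nonneg fun b _ => by positivity) (fun n => ?_) h1
  rw [← Finset.sum_add_distrib, Finset.sum_div]
  refine Finset.sum_le_sum fun b _ => ?_
  have e1 : H859.mid P Q n (s * b) ξ - lam s (H859.mid P Q n b (lam s⁻¹ ξ)) =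
      (1 / 2 : ℂ) • ((P n (s * b) ξ - lam s (P n b (lam s⁻¹ ξ))) +
        (Q n (s * b) ξ - lam s (Q n b (lam s⁻¹ ξ)))) := by
    rw [mid_apply, mid_apply, map_smul, ← smul_sub, map_add]
    congr 1
    abel
  rw [e1]
  exact half_sq_le _ _

theorem Low.mid {K : Subgroup Λ} {c : ℝ} (hP : Low V K U B Y P c) (hQ : Low V K U B Y Q c) :
    Low V K U B Y (mid P Q) c := by
  intro u hu
  filter_upwards [hP u hu, hQ u hu] with n h1 h2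
  have e1 : ∑ b ∈ B n, ⟪Y n b (Wr V u (dl 1)), H859.mid P Q n b (Wr V u (dl 1))⟫_ℂ =
      (1 / 2 : ℂ) * (∑ b ∈ B n, ⟪Y n b (Wr V u (dl 1)), P n b (Wr V u (dl 1))⟫_ℂ +
        ∑ b ∈ B n, ⟪Y n b (Wr V u (dl 1)), Q n b (Wr V u (dl 1))⟫_ℂ) := by
    rw [← Finset.sum_add_distrib, Finset.mul_sum]
    refine Finset.sum_congr rfl fun b _ => ?_
    rw [mid_apply, inner_smul_right, inner_add_right]
  rw [e1]
  have e2 : (1 / 2 : ℂ) = ((1 / 2 : ℝ) : ℂ) := by norm_num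
  rw [e2, Complex.re_ofReal_mul, Complex.add_re]
  linarith

section act

variable (hV : Frame V)

include hV

theorem Fam.act (hP : Fam B P) (u : Λ) : Fam B (act V u P) where
  off n b hb := by rw [H859.act, hP.off n b hb, zero_comp, comp_zero]
  bdd n ξ := by
    have h1 := hP.bdd n (Wr V u ξ)
    rw [norm_W hV] at h1
    refine le_trans (le_of_eq ?_) h1
    refine Finset.sum_congr rfl fun b _ => ?_
    rw [act_apply, norm_W hV]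

theorem Cov.act (hP : Cov U B P) (u : Λ) : Cov U B (act V u P) := by
  intro s ξ
  refine (hP s (Wr V u ξ)).congr fun n => ?_
  refine Finset.sum_congr rfl fun b _ => ?_
  rw [act_apply, act_apply, ← Wr_lam hV u⁻¹ s, ← map_sub, norm_W hV, Wr_lam hV u s⁻¹]

theorem Low.act {K : Subgroup Λ} {c : ℝ} (hP : Low V K U B Y P c)
    (hYW : ∀ u ∈ K, ∀ n b, Y n b * Wr V u = Wr V u * Y n b) (v : Λ) (hv : v ∈ K) :
    Low V K U B Y (act V v P) c := by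
  intro u hu
  filter_upwards [hP (v * u) (K.mul_mem hv hu)] with n h1
  refine h1.trans (le_of_eq ?_)
  congr 1
  refine Finset.sum_congr rfl fun b _ => ?_
  rw [act_apply, (regRep_W hV).inner_right, inv_inv]
  have e1 : Wr V v (Y n b (Wr V u (dl 1))) = Y n b (Wr V v (Wr V u (dl 1))) :=
    congrArg (fun T : Ell2 Γ →L[ℂ] Ell2 Γ => T (Wr V u (dl 1))) (hYW v hv n b).symm
  have e2 : Wr V (v * u) (dl 1) = Wr V v (Wr V u (dl 1)) := by rw [map_mul]; rfl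
  rw [e1, e2]

end act

/-- The mass functional. -/
noncomputable def NN' (hV : Frame V) (U : Ultrafilter ℕ) (B : ℕ → Finset Γ) (A : Set Λ)
    (P : ℕ → Γ → (Ell2 Γ →L[ℂ] Ell2 Γ)) : ℝ :=
  ul U (fun n => ∑ b ∈ B n, ‖eA hV A (lam b⁻¹ (P n b (dl 1)))‖ ^ 2)

theorem mean_of_maps (hV : Frame V) (K : Subgroup Λ) (U : Ultrafilter ℕ) (B : ℕ → Finset Γ)
    (P0 Y : ℕ → Γ → (Ell2 Γ →L[ℂ] Ell2 Γ)) (hP0 : Fam B P0) (hc0 : Cov U B P0)
    (hY : Fam B Y) (hYW : ∀ u ∈ K, ∀ n b, Y n b * Wr V u = Wr V u * Y n b)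
    {c : ℝ} (hc : 0 < c) (h3 : Low V K U B Y P0 c) :
    ∃ m : Set Λ → ℝ, H200.IsInvMean K m := by
  have hn1 : ‖(dl 1 : Ell2 Γ)‖ = 1 := norm_dl 1
  have hle : ∀ (A : Set Λ) (P : ℕ → Γ → (Ell2 Γ →L[ℂ] Ell2 Γ)), Fam B P → ∀ n,
      |∑ b ∈ B n, ‖eA hV A (lam b⁻¹ (P n b (dl 1)))‖ ^ 2| ≤ 1 := by
    intro A P hP n
    rw [abs_of_nonneg (Finset.sum_nonneg fun b _ => by positivity)]
    have h1 := hP.bdd n (dl 1)
    rw [hn1, one_pow] at h1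
    refine le_trans (Finset.sum_le_sum fun b _ => ?_) h1
    have h2 : ‖eA hV A (lam b⁻¹ (P n b (dl 1)))‖ ≤ ‖P n b (dl 1)‖ := by
      refine (norm_eA_le hV A _).trans ?_
      rw [norm_lam]
    have h4 := norm_nonneg (eA hV A (lam b⁻¹ (P n b (dl 1))))
    gcongr
  have hNs : ∀ (A : Set Λ) (P : ℕ → Γ → (Ell2 Γ →L[ℂ] Ell2 Γ)), Fam B P →
      Tendsto (fun n => ∑ b ∈ B n, ‖eA hV A (lam b⁻¹ (P n b (dl 1)))‖ ^ 2) U
        (𝓝 (NN' hV U B A P)) := fun A P hP => ul_spec U (hle A P hP)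
  have hDle : ∀ (P Q : ℕ → Γ → (Ell2 Γ →L[ℂ] Ell2 Γ)), Fam B P → Fam B Q → ∀ n,
      |∑ b ∈ B n, ‖P n b (dl 1) - Q n b (dl 1)‖ ^ 2| ≤ 4 := by
    intro P Q hP hQ n
    rw [abs_of_nonneg (Finset.sum_nonneg fun b _ => by positivity)]
    have h1 := hP.bdd n (dl 1)
    have h2 := hQ.bdd n (dl 1)
    rw [hn1, one_pow] at h1 h2
    have h4 : ∑ b ∈ B n, ‖P n b (dl 1) - Q n b (dl 1)‖ ^ 2 ≤
        ∑ b ∈ B n, (2 * ‖P n b (dl 1)‖ ^ 2 + 2 * ‖Q n b (dl 1)‖ ^ 2) := by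
      refine Finset.sum_le_sum fun b _ => ?_
      have := sq_add_le (P n b (dl 1)) (-Q n b (dl 1))
      rwa [norm_neg, ← sub_eq_add_neg] at this
    rw [Finset.sum_add_distrib, ← Finset.mul_sum, ← Finset.mul_sum] at h4
    linarith
  have hDs : ∀ (P Q : ℕ → Γ → (Ell2 Γ →L[ℂ] Ell2 Γ)), Fam B P → Fam B Q →
      Tendsto (fun n => ∑ b ∈ B n, ‖P n b (dl 1) - Q n b (dl 1)‖ ^ 2) U
        (𝓝 (ul U (fun n => ∑ b ∈ B n, ‖P n b (dl 1) - Q n b (dl 1)‖ ^ 2))) :=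
    fun P Q hP hQ => ul_spec U (hDle P Q hP hQ)
  have huniv : ∀ (P : ℕ → Γ → (Ell2 Γ →L[ℂ] Ell2 Γ)) n,
      ∑ b ∈ B n, ‖eA hV Set.univ (lam b⁻¹ (P n b (dl 1)))‖ ^ 2 =
        ∑ b ∈ B n, ‖P n b (dl 1)‖ ^ 2 := by
    intro P n
    refine Finset.sum_congr rfl fun b _ => ?_
    rw [norm_eA_univ, norm_lam]
  refine mean_of_convex K mid {P | Fam B P ∧ Cov U B P ∧ Low V K U B Y P c} ?_ ⟨P0, hP0, hc0, h3⟩
    (act V) ?_ (NN' hV U B)
    (fun P Q => ul U (fun n => ∑ b ∈ B n, ‖P n b (dl 1) - Q n b (dl 1)‖ ^ 2)) ?_ ?_ ?_ ?_ ?_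
    (c := c ^ 2) (by positivity) ?_
  · rintro P ⟨p1, p2, p3⟩ Q ⟨q1, q2, q3⟩
    exact ⟨p1.mid q1, p2.mid q2, p3.mid q3⟩
  · rintro u hu P ⟨p1, p2, p3⟩
    exact ⟨Fam.act hV p1 u, Cov.act hV p2 u, Low.act hV p3 hYW u hu⟩
  · rintro A P ⟨p1, p2, p3⟩
    exact ge_of_tendsto (hNs A P p1) (Eventually.of_forall fun n =>
      Finset.sum_nonneg fun b _ => by positivity)
  · rintro A A' hAA P ⟨p1, p2, p3⟩
    refine ul_eq U (((hNs A P p1).add (hNs A' P p1)).congr fun n => ?_)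
    rw [← Finset.sum_add_distrib]
    refine Finset.sum_congr rfl fun b _ => ?_
    rw [norm_eA_union hV A A' hAA]
  · rintro P ⟨p1, p2, p3⟩ Q ⟨q1, q2, q3⟩
    refine ul_eq U ?_
    have h1 := ((((hNs Set.univ P p1).add (hNs Set.univ Q q1)).div_const 2).sub
      ((hDs P Q p1 q1).div_const 4))
    refine h1.congr fun n => ?_
    rw [huniv, huniv, huniv, ← Finset.sum_add_distrib, Finset.sum_div, Finset.sum_div,
      ← Finset.sum_sub_distrib]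
    refine Finset.sum_congr rfl fun b _ => ?_
    rw [mid_apply, half_par]
  · rintro A P ⟨p1, p2, p3⟩ Q ⟨q1, q2, q3⟩
    have h1 := (Real.continuous_sqrt.tendsto _).comp (hNs A P p1)
    have h2 := (Real.continuous_sqrt.tendsto _).comp (hNs A Q q1)
    have h4 := (Real.continuous_sqrt.tendsto _).comp (hDs P Q p1 q1)
    refine le_of_tendsto_of_tendsto (h1.sub h2).abs h4 (Eventually.of_forall fun n => ?_)
    change |Real.sqrt (∑ b ∈ B n, ‖eA hV A (lam b⁻¹ (P n b (dl 1)))‖ ^ 2) -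
      Real.sqrt (∑ b ∈ B n, ‖eA hV A (lam b⁻¹ (Q n b (dl 1)))‖ ^ 2)| ≤
      Real.sqrt (∑ b ∈ B n, ‖P n b (dl 1) - Q n b (dl 1)‖ ^ 2)
    refine (sqrt_sum_sub_le _ _ _).trans (Real.sqrt_le_sqrt (Finset.sum_le_sum fun b _ => ?_))
    have h5 : ‖eA hV A (lam b⁻¹ (P n b (dl 1))) - eA hV A (lam b⁻¹ (Q n b (dl 1)))‖ ≤
        ‖P n b (dl 1) - Q n b (dl 1)‖ := by
      rw [← eA_sub, ← map_sub]
      refine (norm_eA_le hV A _).trans ?_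
      rw [norm_lam]
    have h6 := norm_nonneg (eA hV A (lam b⁻¹ (P n b (dl 1))) - eA hV A (lam b⁻¹ (Q n b (dl 1))))
    gcongr
  · rintro A u hu P ⟨p1, p2, p3⟩
    have q1 := Fam.act hV p1 u
    have q2 := Cov.act hV p2 u
    change ul U (fun n => ∑ b ∈ B n, ‖eA hV {w | w * u ∈ A} (lam b⁻¹ (P n b (dl 1)))‖ ^ 2) =
      ul U (fun n => ∑ b ∈ B n, ‖eA hV A (lam b⁻¹ (act V u P n b (dl 1)))‖ ^ 2)
    rw [← inv_limit hV q1 q2 A u]
    congr 1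
    funext n
    refine Finset.sum_congr rfl fun b _ => ?_
    have e1 : act V u P n b (V u (dl 1)) = Wr V u⁻¹ (P n b (dl 1)) := by
      rw [act_apply, ← VW_apply hV, Wr_xi hV, ← mul_ap (V u), ← map_mul, mul_inv_cancel, map_one]
      rfl
    rw [e1, norm_eA_W hV, Wr_lam hV]
  · rintro P ⟨p1, p2, p3⟩
    have h1 := p3 1 K.one_mem
    refine ge_of_tendsto (hNs Set.univ P p1) ?_
    filter_upwards [h1] with n hn
    rw [huniv]
    rw [map_one] at hn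
    change c ≤ (∑ b ∈ B n, ⟪Y n b (dl 1), P n b (dl 1)⟫_ℂ).re at hn
    have h2 := hn.trans ((Complex.re_le_norm _).trans (sum_inner_le (B n)
      (fun b => Y n b (dl 1)) (fun b => P n b (dl 1))))
    have h4 : Real.sqrt (∑ b ∈ B n, ‖Y n b (dl 1)‖ ^ 2) ≤ 1 := by
      have := hY.bdd n (dl 1)
      rw [hn1] at this
      exact Real.sqrt_le_iff.mpr ⟨zero_le_one, this⟩
    have h5 := Real.sqrt_nonneg (∑ b ∈ B n, ‖P n b (dl 1)‖ ^ 2)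
    have h6 : c ≤ Real.sqrt (∑ b ∈ B n, ‖P n b (dl 1)‖ ^ 2) := by nlinarith
    calc c ^ 2 ≤ Real.sqrt (∑ b ∈ B n, ‖P n b (dl 1)‖ ^ 2) ^ 2 := by gcongr
      _ = _ := Real.sq_sqrt (Finset.sum_nonneg fun b _ => by positivity)

end Vale.Agent.P092.H859
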