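import Vale.Agent.P092.H918.WallFun
import Vale.Agent.P092.H859.Mean
import Vale.Agent.P092.H553.Asm

/-!
P092 (helper859): assembly of the wall functions and the operator families.
-/

set_option linter.all false

open scoped InnerProductSpace
open Filter Topology ContinuousLinearMap

namespace Vale.Agent.P092.H859

open Vale.Agent.P092.H160 Vale.Agent.P092.H132 Vale.Agent.P092.H732 Vale.Agent.P092.H553

theorem BB_eq {Γ : Type} [Group Γ] [DecidableEq Γ] (B : Finset Γ) (s : Γ) :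
    BB B s = B ∪ B.image (fun b => s⁻¹ * b) := by
  ext x
  simp only [BB, Finset.mem_union, Finset.mem_image]

variable {Γ : Subgroup G3} {Λ : Type} [Group Λ] {V : Λ →* (Ell2 Γ →L[ℂ] Ell2 Γ)}

/-- The wall region. -/
def Wall (Γ : Subgroup G3) (R M : ℝ) : Γ → Prop := fun h => G12 (h : G3) ≤ R ∧ M ≤ G23 (h : G3)

/-- Lipschitz functions of `N*`. -/
def LipN (H : Γ → ℝ) (L : ℝ) : Prop :=
  ∀ g h : Γ, |H g - H h| ≤ L * Real.sqrt (hs (NS (g : G3) - NS (h : G3)))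

/-- A positive map with the properties of the limit. -/
structure Good (V : Λ →* (Ell2 Γ →L[ℂ] Ell2 Γ)) (K : Subgroup Λ)
    (PT : (Γ → ℝ) → (Ell2 Γ →L[ℂ] Ell2 Γ)) : Prop where
  one : PT (fun _ => 1) = 1
  sum : ∀ (s : Finset Γ) (F : Γ → Γ → ℝ) (C : ℝ), (∀ b g, |F b g| ≤ C) →
    PT (fun g => ∑ b ∈ s, F b g) = ∑ b ∈ s, PT (F b)
  lin : ∀ (c d : ℝ) (F G : Γ → ℝ) (C : ℝ), (∀ g, |F g| ≤ C) → (∀ g, |G g| ≤ C) →
    PT (fun g => c * F g + d * G g) = (c : ℂ) • PT F + (d : ℂ) • PT G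
  mono : ∀ (F G : Γ → ℝ) (C D : ℝ), (∀ g, |F g| ≤ C) → (∀ g, |G g| ≤ D) → (∀ g, F g ≤ G g) →
    ∀ ξ : Ell2 Γ, (⟪ξ, PT F ξ⟫_ℂ).re ≤ (⟪ξ, PT G ξ⟫_ℂ).re
  sym : ∀ (F : Γ → ℝ), (∀ g, |F g| ≤ 1) → ∀ ξ η : Ell2 Γ, ⟪PT F ξ, η⟫_ℂ = ⟪ξ, PT F η⟫_ℂ
  ks : ∀ (F : Γ → ℝ), (∀ g, |F g| ≤ 1) → ∀ ξ : Ell2 Γ,
    ‖PT F ξ‖ ^ 2 ≤ (⟪ξ, PT (fun g => F g ^ 2) ξ⟫_ℂ).re
  cov : ∀ (F : Γ → ℝ), (∀ g, |F g| ≤ 1) → ∀ (s : Γ) (ξ : Ell2 Γ),
    PT F (lam s ξ) = lam s (PT (fun g => F (s * g)) ξ)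
  mul : ∀ (H f : Γ → ℝ) (L : ℝ), (∀ g, 0 ≤ H g ∧ H g ≤ 1) → (∀ g, |f g| ≤ 1) → LipN H L →
    PT H * PT f = PT (fun g => f g * H g)
  comm : ∀ (H : Γ → ℝ) (L : ℝ), (∀ g, 0 ≤ H g ∧ H g ≤ 1) → LipN H L →
    ∀ u ∈ K, PT H * Wr V u = Wr V u * PT H
  mass : ∀ (s : Γ) (ε : ℝ), 0 < ε → ∃ R0 : ℝ, ∀ R, R0 ≤ R → ∀ (M : ℝ), ∀ u ∈ K,
    (⟪lam s (Wr V u (dl 1)), PT (ind fun h : Γ => ¬ Wall Γ R M h)
      (lam s (Wr V u (dl 1)))⟫_ℂ).re ≤ ε

theorem mean_of_good (hV : Frame V) (K : Subgroup Λ) (PT : (Γ → ℝ) → (Ell2 Γ →L[ℂ] Ell2 Γ))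
    (h : Good V K PT) : ∃ m : Set Λ → ℝ, H200.IsInvMean K m := by
  classical
  -- exhaustion of `Γ`
  haveI hG3 : Countable G3 := by
    refine Function.Injective.countable
      (f := fun (g : G3) (i j : Fin 3) => (g : Matrix (Fin 3) (Fin 3) ℤ) i j) ?_
    intro g g' hg
    exact Subtype.ext hg
  haveI : Countable Γ := Subtype.val_injective.countable
  obtain ⟨e, he⟩ := exists_surjective_nat Γ
  obtain ⟨S, hS⟩ : ∃ S : ℕ → Finset Γ, S = fun n => (Finset.range n).image e := ⟨_, rfl⟩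
  have hmemS : ∀ s : Γ, ∃ n0, ∀ n ≥ n0, s ∈ S n := by
    intro s
    obtain ⟨k, hk⟩ := he s
    refine ⟨k + 1, fun n hn => ?_⟩
    rw [hS, Finset.mem_image]
    exact ⟨k, Finset.mem_range.mpr (by omega), hk⟩
  obtain ⟨R1, hR1⟩ := h.mass 1 (1 / 2) (by norm_num)
  obtain ⟨c, hc, hw⟩ := H918.wall_fun R1
  choose B α β M L hα0 hαB hα1 hαE hβ0 hβB hβ1 hβL hαβ using
    fun n : ℕ => hw Γ (S n) (1 / ((n : ℝ) + 1)) (by positivity) (n : ℝ)
  have le1 : ∀ (B : Finset Γ) (x : Γ → ℝ), (∀ b ∉ B, x b = 0) →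
      ∑ b ∈ B, x b ^ 2 ≤ 1 → ∀ b, |x b| ≤ 1 := by
    intro B x hB h1 b
    by_cases hb : b ∈ B
    · have h2 : x b ^ 2 ≤ 1 :=
        (Finset.single_le_sum (f := fun b => x b ^ 2) (fun i _ => sq_nonneg _) hb).trans h1
      exact abs_le_one_iff_mul_self_le_one.mpr (by rw [← sq]; exact h2)
    · rw [hB b hb, abs_zero]; exact zero_le_one
  have hαa : ∀ n b g, |α n b g| ≤ 1 := fun n b g =>
    le1 (B n) (fun b => α n b g) (fun b hb => hαB n b hb g) (hα1 n g) b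
  have hβa : ∀ n b g, |β n b g| ≤ 1 := fun n b g =>
    le1 (B n) (fun b => β n b g) (fun b hb => hβB n b hb g) (hβ1 n g) b
  have hsq : ∀ x : ℝ, |x| ≤ 1 → |x ^ 2| ≤ 1 := by
    intro x hx
    rw [abs_pow]
    exact pow_le_one₀ (abs_nonneg _) hx
  have hone : ∀ ξ : Ell2 Γ, (⟪ξ, PT (fun _ => 1) ξ⟫_ℂ).re = ‖ξ‖ ^ 2 := by
    intro ξ
    rw [h.one]
    change (⟪ξ, ξ⟫_ℂ).re = _
    rw [inner_self_eq_norm_sq_to_K]
    norm_cast
  have hsumb : ∀ (T : Finset Γ) (F : Γ → Γ → ℝ) (C : ℝ), (∀ b g, |F b g| ≤ C) → ∀ g,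
      |∑ b ∈ T, F b g| ≤ T.card * C := by
    intro T F C hF g
    refine (Finset.abs_sum_le_sum_abs _ _).trans ?_
    rw [← nsmul_eq_mul]
    exact Finset.sum_le_card_nsmul _ _ _ fun j _ => hF j g
  have hfam : ∀ γ : ℕ → Γ → Γ → ℝ, (∀ n b, b ∉ B n → ∀ g, γ n b g = 0) →
      (∀ n b g, |γ n b g| ≤ 1) → (∀ n g, ∑ b ∈ B n, γ n b g ^ 2 ≤ 1) →
      Fam B (fun n b => PT (γ n b)) := by
    intro γ g1 g2 g3
    refine ⟨fun n b hb => ?_, fun n ξ => ?_⟩
    · have e0 : γ n b = fun g => ∑ b ∈ (∅ : Finset Γ), (fun _ _ => (0 : ℝ)) b g := by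
        funext g
        rw [g1 n b hb g, Finset.sum_empty]
      change PT (γ n b) = 0
      rw [e0, h.sum ∅ (fun _ _ => (0 : ℝ)) 1 (fun _ _ => by simp), Finset.sum_empty]
    · have h1 : ∀ b ∈ B n, ‖PT (γ n b) ξ‖ ^ 2 ≤ (⟪ξ, PT (fun g => γ n b g ^ 2) ξ⟫_ℂ).re :=
        fun b _ => h.ks (γ n b) (g2 n b) ξ
      refine (Finset.sum_le_sum h1).trans ?_
      rw [← Complex.re_sum, ← inner_sum, ← ContinuousLinearMap.sum_apply,
        ← h.sum (B n) (fun b g => γ n b g ^ 2) 1 (fun b g => hsq _ (g2 n b g)), ← hone ξ]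
      exact h.mono _ _ ((B n).card * 1) 1
        (hsumb (B n) (fun b g => γ n b g ^ 2) 1 (fun b g => hsq _ (g2 n b g)))
        (fun g => by simp) (fun g => g3 n g) ξ
  have hP0 : Fam B (fun n b => PT (α n b)) :=
    hfam α (fun n b hb g => hαB n b hb g) hαa (fun n g => hα1 n g)
  have hY : Fam B (fun n b => PT (β n b)) :=
    hfam β (fun n b hb g => hβB n b hb g) hβa (fun n g => hβ1 n g)
  have hYW : ∀ u ∈ K, ∀ n b, PT (β n b) * Wr V u = Wr V u * PT (β n b) := by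
    intro u hu n b
    refine h.comm (β n b) (L n) (fun g => ⟨hβ0 n b g, (le_abs_self _).trans (hβa n b g)⟩) ?_ u hu
    exact fun g g' => hβL n b g g'
  -- expectations of functions which are small on the wall region
  have hexp : ∀ (F : Γ → ℝ) (R M a b C : ℝ), (∀ g, |F g| ≤ C) → 0 ≤ b →
      (∀ g, F g ≤ a + b * ind (fun h : Γ => ¬ Wall Γ R M h) g) → ∀ ξ : Ell2 Γ,
      (⟪ξ, PT F ξ⟫_ℂ).re ≤ a * ‖ξ‖ ^ 2 +
        b * (⟪ξ, PT (ind fun h : Γ => ¬ Wall Γ R M h) ξ⟫_ℂ).re := by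
    intro F R M a b C hF hb hle ξ
    have h1 : ∀ g, |a * 1 + b * ind (fun h : Γ => ¬ Wall Γ R M h) g| ≤ |a| + b := by
      intro g
      refine (abs_add_le _ _).trans (add_le_add (by rw [mul_one]) ?_)
      rw [abs_mul, abs_of_nonneg hb]
      exact mul_le_of_le_one_right hb (abs_ind_le _ _)
    refine (h.mono F (fun g => a * 1 + b * ind (fun h : Γ => ¬ Wall Γ R M h) g) C (|a| + b) hF h1
      (fun g => by rw [mul_one]; exact hle g) ξ).trans (le_of_eq ?_)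
    rw [h.lin a b (fun _ => 1) (ind fun h : Γ => ¬ Wall Γ R M h) 1 (fun _ => by simp)
      (abs_ind_le _), add_apply, smul_apply, smul_apply, inner_add_right, inner_smul_right,
      inner_smul_right, Complex.add_re, Complex.re_ofReal_mul, Complex.re_ofReal_mul, hone]
  -- asymptotic covariance
  have hcov : Cov Uf B (fun n b => PT (α n b)) := by
    refine cov_of_dl hP0 fun s g => ?_
    have hda : ∀ n b k, |α n (s * b) k - α n b (s⁻¹ * k)| ≤ 1 := by
      intro n b k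
      have h1 := hα0 n (s * b) k
      have h2 := hα0 n b (s⁻¹ * k)
      have h3 := (le_abs_self _).trans (hαa n (s * b) k)
      have h4 := (le_abs_self _).trans (hαa n b (s⁻¹ * k))
      rw [abs_le]
      constructor <;> linarith
    have hdiff : ∀ n b, PT (α n (s * b)) (dl g) - lam s (PT (α n b) (lam s⁻¹ (dl g))) =
        PT (fun k => α n (s * b) k - α n b (s⁻¹ * k)) (dl g) := by
      intro n b
      have e1 : lam s (PT (α n b) (lam s⁻¹ (dl g : Ell2 Γ))) =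
          PT (fun k => α n b (s⁻¹ * k)) (dl g) := by
        have e2 := h.cov (fun k => α n b (s⁻¹ * k)) (fun k => hαa n b _) s (lam s⁻¹ (dl g))
        have e3 : lam s (lam s⁻¹ (dl g : Ell2 Γ)) = dl g := by
          rw [← lamH_apply, ← lamH_apply]
          have := regRep_lam.inv_apply s⁻¹ (dl g : Ell2 Γ)
          rwa [inv_inv] at this
        rw [e3] at e2
        rw [e2]
        simp only [inv_mul_cancel_left]
      rw [e1]
      have e4 : PT (fun k => α n (s * b) k - α n b (s⁻¹ * k)) =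
          PT (α n (s * b)) - PT (fun k => α n b (s⁻¹ * k)) := by
        have e5 := h.lin 1 (-1) (α n (s * b)) (fun k => α n b (s⁻¹ * k)) 1 (hαa n _)
          (fun k => hαa n b _)
        have e6 : (fun k => α n (s * b) k - α n b (s⁻¹ * k)) =
            fun k => 1 * α n (s * b) k + -1 * α n b (s⁻¹ * k) := by
          funext k; ring
        rw [e6, e5]
        push_cast
        rw [one_smul, neg_one_smul, sub_eq_add_neg]
      rw [e4, ContinuousLinearMap.sub_apply]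
    obtain ⟨D, hD⟩ : ∃ D : ℕ → Γ → ℝ, D = fun n k => ∑ b ∈ BB (B n) s,
      (α n (s * b) k - α n b (s⁻¹ * k)) ^ 2 := ⟨_, rfl⟩
    have hb1 : ∀ n, ∑ b ∈ BB (B n) s,
        ‖PT (α n (s * b)) (dl g) - lam s (PT (α n b) (lam s⁻¹ (dl g)))‖ ^ 2 ≤
        (⟪(dl g : Ell2 Γ), PT (D n) (dl g)⟫_ℂ).re := by
      intro n
      have h1 : ∀ b ∈ BB (B n) s,
          ‖PT (α n (s * b)) (dl g) - lam s (PT (α n b) (lam s⁻¹ (dl g)))‖ ^ 2 ≤
          (⟪(dl g : Ell2 Γ), PT (fun k => (α n (s * b) k - α n b (s⁻¹ * k)) ^ 2) (dl g)⟫_ℂ).re := by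
        intro b _
        rw [hdiff]
        exact h.ks _ (hda n b) _
      refine (Finset.sum_le_sum h1).trans (le_of_eq ?_)
      rw [hD, ← Complex.re_sum, ← inner_sum, ← ContinuousLinearMap.sum_apply,
        ← h.sum (BB (B n) s) (fun b k => (α n (s * b) k - α n b (s⁻¹ * k)) ^ 2) 1
          (fun b k => hsq _ (hda n b k))]
    have hDb : ∀ n k, |D n k| ≤ (BB (B n) s).card * 1 := by
      intro n k
      rw [hD]
      exact hsumb _ (fun b k => (α n (s * b) k - α n b (s⁻¹ * k)) ^ 2) 1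
        (fun b k => hsq _ (hda n b k)) k
    -- the bound `4`
    have hD4 : ∀ n k, D n k ≤ 4 := by
      intro n k
      rw [hD]
      have h1 : ∀ b ∈ BB (B n) s, (α n (s * b) k - α n b (s⁻¹ * k)) ^ 2 ≤
          2 * α n (s * b) k ^ 2 + 2 * α n b (s⁻¹ * k) ^ 2 := by
        intro b _
        nlinarith [sq_nonneg (α n (s * b) k + α n b (s⁻¹ * k))]
      refine (Finset.sum_le_sum h1).trans ?_
      rw [Finset.sum_add_distrib, ← Finset.mul_sum, ← Finset.mul_sum,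
        sum_BB_right s (fun b => α n b k ^ 2) (fun b hb => by rw [hαB n b hb k]; simp),
        sum_BB_left s (fun b => α n b (s⁻¹ * k) ^ 2) (fun b hb => by rw [hαB n b hb]; simp)]
      have h2 := hα1 n k
      have h3 := hα1 n (s⁻¹ * k)
      linarith
    -- translation of the argument
    obtain ⟨ζ, hζ⟩ : ∃ ζ : Ell2 Γ, ζ = lam (s⁻¹ * g) (Wr V 1 (dl 1)) := ⟨_, rfl⟩
    have hζg : (dl g : Ell2 Γ) = lam s ζ := by
      rw [hζ, map_one]
      change dl g = lam s (lam (s⁻¹ * g) (dl 1))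
      have e1 : lam s (lam (s⁻¹ * g) (dl 1 : Ell2 Γ)) = lam (s * (s⁻¹ * g)) (dl 1) :=
        (congrArg (fun T : Ell2 Γ →L[ℂ] Ell2 Γ => T (dl 1)) (map_mul (lamH (G := Γ)) s _)).symm
      rw [e1, mul_inv_cancel_left]
      exact dl_eq_lam g
    have hζn : ‖ζ‖ = 1 := by rw [hζ, norm_lam, norm_W hV, norm_dl]
    have hb2 : ∀ n, (⟪(dl g : Ell2 Γ), PT (D n) (dl g)⟫_ℂ).re =
        (⟪ζ, PT (fun k => D n (s * k)) ζ⟫_ℂ).re := by
      intro n
      have e2 : PT (D n) (lam s ζ) = lam s (PT (fun k => D n (s * k)) ζ) := by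
        have e3 := h.cov (fun k => 4⁻¹ * D n k + 0 * 0) (fun k => by
          have h4 := hD4 n k
          have h0 : 0 ≤ D n k := by
            rw [hD]; exact Finset.sum_nonneg fun b _ => sq_nonneg _
          rw [abs_le]; constructor <;> linarith) s ζ
        rw [h.lin 4⁻¹ 0 (D n) (fun _ => 0) ((BB (B n) s).card * 1) (hDb n)
          (fun _ => by rw [abs_zero]; positivity),
          h.lin 4⁻¹ 0 (fun k => D n (s * k)) (fun _ => 0) ((BB (B n) s).card * 1)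
            (fun k => hDb n _) (fun _ => by rw [abs_zero]; positivity)] at e3
        simp only [Complex.ofReal_zero, zero_smul, add_zero, smul_apply, map_smul] at e3
        have h5 : ((4⁻¹ : ℝ) : ℂ) ≠ 0 := by norm_num
        exact smul_right_injective _ h5 e3
      rw [hζg, e2]
      congr 1
      have := (regRep_lam (G := Γ)).inner_map s ζ (PT (fun k => D n (s * k)) ζ)
      simpa only [lamH_apply] using this
    -- the final bound
    have hb3 : ∀ n, s ∈ S n → (⟪ζ, PT (fun k => D n (s * k)) ζ⟫_ℂ).re ≤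
        1 / ((n : ℝ) + 1) + 4 * (⟪ζ, PT (ind fun h : Γ => ¬ Wall Γ (n : ℝ) (M n) h) ζ⟫_ℂ).re := by
      intro n hn
      have h1 := hexp (fun k => D n (s * k)) (n : ℝ) (M n) (1 / ((n : ℝ) + 1)) 4
        ((BB (B n) s).card * 1) (fun k => hDb n _) (by norm_num) (fun k => ?_) ζ
      · rw [hζn] at h1
        linarith
      · by_cases hk : Wall Γ (n : ℝ) (M n) k
        · rw [ind_neg (P := fun h : Γ => ¬ Wall Γ (n : ℝ) (M n) h) (fun h0 => h0 hk), mul_zero,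
            add_zero, hD]
          have h2 := hαE n s hn k hk.1 hk.2
          rw [← BB_eq] at h2
          simpa only [inv_mul_cancel_left] using h2
        · rw [ind_pos (P := fun h : Γ => ¬ Wall Γ (n : ℝ) (M n) h) hk, mul_one]
          have h2 := hD4 n (s * k)
          have h3 : (0 : ℝ) ≤ 1 / ((n : ℝ) + 1) := by positivity
          linarith
    rw [Metric.tendsto_nhds]
    intro ε hε
    obtain ⟨R0, hR0⟩ := h.mass (s⁻¹ * g) (ε / 16) (by positivity)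
    obtain ⟨n0, hn0⟩ := hmemS s
    obtain ⟨n1, hn1⟩ := exists_nat_gt (max R0 (2 / ε))
    have hev : ∀ᶠ n : ℕ in Uf, n0 + n1 ≤ n := hyperfilter_le_cofinite (by
      rw [Nat.cofinite_eq_atTop]; exact eventually_ge_atTop _)
    filter_upwards [hev] with n hn
    rw [dist_zero_right, Real.norm_of_nonneg (Finset.sum_nonneg fun b _ => by positivity)]
    have hn' : (n1 : ℝ) ≤ n := by exact_mod_cast (show n1 ≤ n by omega)
    have a1 : R0 ≤ (n : ℝ) := ((le_max_left _ _).trans hn1.le).trans hn'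
    have a2 : 2 / ε ≤ (n : ℝ) := ((le_max_right _ _).trans hn1.le).trans hn'
    have a3 := hR0 (n : ℝ) a1 (M n) 1 K.one_mem
    rw [← hζ] at a3
    have a4 := hb3 n (hn0 n (by omega))
    have a5 := hb1 n
    rw [hb2 n] at a5
    have a6 : 1 / ((n : ℝ) + 1) ≤ ε / 2 := by
      rw [div_le_iff₀ hε] at a2
      rw [div_le_iff₀ (by positivity)]
      nlinarith
    linarith
  -- the lower bound
  have hlow : Low V K Uf B (fun n b => PT (β n b)) (fun n b => PT (α n b)) (c / 2) := by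
    intro u hu
    refine Eventually.of_forall fun n => ?_
    obtain ⟨ζ, hζ⟩ : ∃ ζ : Ell2 Γ, ζ = Wr V u (dl 1) := ⟨_, rfl⟩
    have hζn : ‖ζ‖ = 1 := by rw [hζ, norm_W hV, norm_dl]
    rw [← hζ]
    have hαβa : ∀ b g, |α n b g * β n b g| ≤ 1 := fun b g => by
      rw [abs_mul]; exact mul_le_one₀ (hαa n b g) (abs_nonneg _) (hβa n b g)
    have e1 : ∀ b ∈ B n, ⟪PT (β n b) ζ, PT (α n b) ζ⟫_ℂ =
        ⟪ζ, PT (fun g => α n b g * β n b g) ζ⟫_ℂ := by
      intro b _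
      rw [h.sym (β n b) (hβa n b), ← h.mul (β n b) (α n b) (L n)
        (fun g => ⟨hβ0 n b g, (le_abs_self _).trans (hβa n b g)⟩) (hαa n b)
        (fun g g' => hβL n b g g')]
      rfl
    rw [Finset.sum_congr rfl e1, ← inner_sum, ← ContinuousLinearMap.sum_apply,
      ← h.sum (B n) (fun b g => α n b g * β n b g) 1 hαβa]
    have hm := hR1 R1 le_rfl (M n) u hu
    have e2 : lam (1 : Γ) (Wr V u (dl 1)) = ζ := by rw [hζ, lam_one]; rfl
    rw [e2] at hm
    have hsb := hsumb (B n) (fun b g => α n b g * β n b g) 1 hαβa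
    have h2 := hexp (fun g => -1 * ∑ b ∈ B n, α n b g * β n b g + 0 * 0) R1 (M n) (-c) c
      ((B n).card * 1) (fun g => by
        rw [zero_mul, add_zero, neg_one_mul, abs_neg]; exact hsb g) hc.le (fun g => ?_) ζ
    · rw [h.lin (-1) 0 (fun g => ∑ b ∈ B n, α n b g * β n b g) (fun _ => 0) ((B n).card * 1) hsb
        (fun _ => by rw [abs_zero]; positivity), hζn] at h2
      simp only [Complex.ofReal_zero, zero_smul, add_zero, smul_apply, inner_smul_right,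
        Complex.re_ofReal_mul] at h2
      nlinarith
    · rw [zero_mul, add_zero]
      by_cases hk : Wall Γ R1 (M n) g
      · rw [ind_neg (P := fun h : Γ => ¬ Wall Γ R1 (M n) h) (fun h0 => h0 hk), mul_zero, add_zero]
        have := hαβ n g hk.1 hk.2
        linarith
      · rw [ind_pos (P := fun h : Γ => ¬ Wall Γ R1 (M n) h) hk, mul_one]
        have : 0 ≤ ∑ b ∈ B n, α n b g * β n b g :=
          Finset.sum_nonneg fun b _ => mul_nonneg (hα0 n b g) (hβ0 n b g)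
        linarith
  exact mean_of_maps hV K Uf B _ _ hP0 hcov hY hYW (by positivity) hlow

end Vale.Agent.P092.H859
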