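import Vale.Agent.P092.H859.Far
import Vale.Agent.P092.H859.Good

/-!
P092 (helper859): the limit of a Lipschitz function of `N*` commutes with the right multiplications
by the elements commuting with `K`.
-/

set_option linter.all false

open scoped InnerProductSpace
open Filter Topology ContinuousLinearMap

namespace Vale.Agent.P092.H859

open Vale.Agent.P092.H160 Vale.Agent.P092.H132 Vale.Agent.P092.H732 Vale.Agent.P092.H553

theorem sqrt_hs_le (M : Matrix (Fin 3) (Fin 3) ℝ) : Real.sqrt (hs M) ≤ ∑ i, ∑ j, |M i j| := by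
  have h0 : 0 ≤ ∑ i, ∑ j, |M i j| :=
    Finset.sum_nonneg fun i _ => Finset.sum_nonneg fun j _ => abs_nonneg _
  rw [Real.sqrt_le_left h0]
  unfold hs
  have h1 : ∀ i : Fin 3, ∑ j, M i j ^ 2 ≤ (∑ j, |M i j|) ^ 2 := by
    intro i
    calc ∑ j, M i j ^ 2 = ∑ j, |M i j| ^ 2 := by simp only [sq_abs]
      _ ≤ _ := Finset.sum_sq_le_sq_sum_of_nonneg fun j _ => abs_nonneg _
  calc ∑ i, ∑ j, M i j ^ 2 ≤ ∑ i, (∑ j, |M i j|) ^ 2 := Finset.sum_le_sum fun i _ => h1 i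
    _ ≤ _ := Finset.sum_sq_le_sq_sum_of_nonneg fun i _ =>
      Finset.sum_nonneg fun j _ => abs_nonneg _

theorem q1_hs_tendsto (t : G3) :
    Tendsto (fun g => q1 g * Real.sqrt (hs (NS (g * t) - NS g))) cofinite (𝓝 0) := by
  have h1 : Tendsto (fun g => ∑ i : Fin 3, ∑ j : Fin 3, q1 g * |NS (g * t) i j - NS g i j|)
      cofinite (𝓝 (∑ i : Fin 3, ∑ j : Fin 3, 0)) :=
    tendsto_finsetSum _ fun i _ => tendsto_finsetSum _ fun j _ => q1_NS_tendsto t i j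
  simp only [Finset.sum_const_zero] at h1
  refine squeeze_zero (fun g => mul_nonneg (q1_nonneg g) (Real.sqrt_nonneg _)) (fun g => ?_) h1
  have h2 := sqrt_hs_le (NS (g * t) - NS g)
  have h3 := mul_le_mul_of_nonneg_left h2 (q1_nonneg g)
  refine h3.trans (le_of_eq ?_)
  simp only [Finset.mul_sum, Matrix.sub_apply]

variable {Γ : Subgroup G3} {Λ : Type} [Group Λ] {V : Λ →* (Ell2 Γ →L[ℂ] Ell2 Γ)}

theorem qH_tendsto {H : Γ → ℝ} (hH : ∀ g, |H g| ≤ 1) {L : ℝ} (hL : LipN H L) (t : Γ) :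
    Tendsto (fun g : Γ => qq Γ (g * t) * H (g * t) - qq Γ g * H g) cofinite (𝓝 0) := by
  have h1 := tendsto_sub (Γ := Γ) (q1_tendsto 1 (t : G3))
  have h2 := (tendsto_sub (Γ := Γ) (q1_hs_tendsto (t : G3))).const_mul |L|
  have h3 := h1.abs.add h2
  rw [abs_zero, mul_zero, add_zero] at h3
  refine squeeze_zero_norm (fun g => ?_) h3
  rw [Real.norm_eq_abs, one_mul]
  have e : qq Γ (g * t) * H (g * t) - qq Γ g * H g =
      (qq Γ (g * t) - qq Γ g) * H (g * t) + qq Γ g * (H (g * t) - H g) := by ring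
  rw [e]
  refine (abs_add_le _ _).trans (add_le_add ?_ ?_)
  · rw [abs_mul]
    exact mul_le_of_le_one_right (abs_nonneg _) (hH _)
  · rw [abs_mul, abs_of_nonneg (qq_mem g).1]
    have h4 := hL (g * t) g
    have h5 : 0 ≤ Real.sqrt (hs (NS ((g * t : Γ) : G3) - NS (g : G3))) := Real.sqrt_nonneg _
    have h6 : |H (g * t) - H g| ≤ |L| * Real.sqrt (hs (NS ((g * t : Γ) : G3) - NS (g : G3))) :=
      h4.trans (mul_le_mul_of_nonneg_right (le_abs_self _) h5)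
    have h7 := mul_le_mul_of_nonneg_left h6 (qq_mem g).1
    refine h7.trans (le_of_eq ?_)
    change qq Γ g * (|L| * Real.sqrt (hs (NS ((g : G3) * (t : G3)) - NS (g : G3)))) =
      |L| * (qq Γ g * Real.sqrt (hs (NS ((g : G3) * (t : G3)) - NS (g : G3))))
    ring

theorem small_qH (hV : Frame V) {H : Γ → ℝ} (hH : ∀ g, |H g| ≤ 1) {L : ℝ} (hL : LipN H L)
    {z : ℕ → Λ} (hz : ∀ v : Λ, ∀ᶠ k in Uf, z k ≠ v) (t : Γ) :
    Small Uf V z (fun _ g => qq Γ (g * t) * H (g * t) - qq Γ g * H g) := by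
  refine smallOf hV z _ (1 + 1) (fun g => ?_) (qH_tendsto hH hL t) hz
  exact (abs_sub _ _).trans (add_le_add (abs_mul_le_one (abs_qq _) (hH _))
    (abs_mul_le_one (abs_qq _) (hH _)))

/-- Conjugation. -/
theorem pi2_conj (hV : Frame V) {z : ℕ → Λ} (hU : ∀ v : Λ, ∀ᶠ k in Uf, z k ≠ v)
    {H : Γ → ℝ} (hH : ∀ g, |H g| ≤ 1) {L : ℝ} (hL : LipN H L) (u : Λ) :
    Pi2 Uf V (fun k => u * z k * u⁻¹) (qq Γ) H * Wr V u = Wr V u * Pi2 Uf V z (qq Γ) H := by
  have hU' : ∀ v : Λ, ∀ᶠ k in Uf, (z k)⁻¹ ≠ v := by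
    intro v
    filter_upwards [hU v⁻¹] with k hk h
    exact hk (by rw [← h, inv_inv])
  have hb : ∀ (k : ℕ) (g : Γ), |qq Γ g * H g| ≤ 1 := fun _ g =>
    abs_mul_le_one (abs_qq g) (hH g)
  have e1 := pl_conj (U := Uf) hV (F := fun _ g => qq Γ g * H g) hb u z
    (fun t => small_qH hV hH hL hU t)
  have e2 := pl_conj (U := Uf) hV (F := fun _ g => qq Γ g * H g) hb u (fun k => (z k)⁻¹)
    (fun t => small_qH hV hH hL hU' t)
  have e3 : (fun k => (u * z k * u⁻¹)⁻¹) = fun k => u * (z k)⁻¹ * u⁻¹ := by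
    funext k; group
  unfold Pi2
  rw [e3, add_mul, mul_add, e1, e2]

theorem comm_lip (hV : Frame V) {K : Subgroup Λ} (hc : Conf V K) {z : ℕ → Λ}
    (hz : ∀ k, ∀ v ∈ K, z k * v = v * z k) (hU : ∀ v : Λ, ∀ᶠ k in Uf, z k ≠ v)
    (h1 : Pi2 Uf V z (qq Γ) (fun _ => 1) = 1) {H : Γ → ℝ} (hH : ∀ g, 0 ≤ H g ∧ H g ≤ 1) {L : ℝ}
    (hL : LipN H L) (u : Λ) (hu : ∀ v ∈ K, u * v = v * u) :
    Pi2 Uf V z (qq Γ) H * Wr V u = Wr V u * Pi2 Uf V z (qq Γ) H := by
  have hH' : ∀ g, |H g| ≤ 1 := fun g => by rw [abs_of_nonneg (hH g).1]; exact (hH g).2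
  have hz' : ∀ k, ∀ v ∈ K, (u * z k * u⁻¹) * v = v * (u * z k * u⁻¹) := by
    intro k v hv
    have a1 := hz k v hv
    have a2 := hu v hv
    have a3 : u⁻¹ * v = v * u⁻¹ := by
      rw [inv_mul_eq_iff_eq_mul, ← mul_assoc, a2, mul_assoc, mul_inv_cancel, mul_one]
    calc u * z k * u⁻¹ * v = u * (z k * (u⁻¹ * v)) := by group
      _ = u * (z k * v) * u⁻¹ := by rw [a3]; group
      _ = u * v * z k * u⁻¹ := by rw [a1]; group
      _ = _ := by rw [a2]; group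
  have hU' : ∀ v : Λ, ∀ᶠ k in Uf, u * z k * u⁻¹ ≠ v := by
    intro w
    filter_upwards [hU (u⁻¹ * w * u)] with k hk he
    exact hk (by rw [← he]; group)
  have hone : Pi2 Uf V (fun k => u * z k * u⁻¹) (qq Γ) (fun _ => 1) = 1 := by
    have e1 := pi2_conj (Γ := Γ) hV hU (H := fun _ => 1) (fun g => by simp) (L := 0)
      (fun g h => by simp) u
    rw [h1, mul_one] at e1
    have e4 : Wr V u * Wr V u⁻¹ = 1 := by rw [← map_mul, mul_inv_cancel, map_one]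
    calc Pi2 Uf V (fun k => u * z k * u⁻¹) (qq Γ) (fun _ => 1) =
        Pi2 Uf V (fun k => u * z k * u⁻¹) (qq Γ) (fun _ => 1) * (Wr V u * Wr V u⁻¹) := by
          rw [e4, mul_one]
      _ = Pi2 Uf V (fun k => u * z k * u⁻¹) (qq Γ) (fun _ => 1) * Wr V u * Wr V u⁻¹ := by
          rw [mul_assoc]
      _ = 1 := by rw [e1, e4]
  have hbal : Pi2 Uf V z (qq Γ) H = Pi2 Uf V (fun k => u * z k * u⁻¹) (qq Γ) H := by
    apply op_ext
    intro a
    refine ext_inner_dl fun b => ?_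
    rw [← inner_dl, ← inner_dl]
    exact balance hV (sepEst hV) Uf z _ qq_mem hH h1 hone a b
      (far_of_lip hV (smallOf hV) hc hz hz' hU hU' hL a b)
  rw [hbal, pi2_conj hV hU hH' hL u, ← hbal]

end Vale.Agent.P092.H859
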