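import Vale.Agent.P092.H859.CLN
import Vale.Agent.P092.H142.Asm
import Vale.Agent.P092.H43.LocUse
import Vale.Agent.P092.H142.Shf

/-!
P092 (helper859), Team D: from the inputs of the engine (letters of CLN) to helper142's `EOut`
(letters of SD/Defs), any local field.
-/

set_option linter.all false

open scoped InnerProductSpace LinearAlgebra.Projectivization
open Filter Topology ContinuousLinearMap TopologicalSpace

namespace Vale.Agent.P092.H859.CL

open Vale.Agent.P092.SD Vale.Agent.P092.RC Vale.Agent.P092.H142 Vale.Agent.P092.H43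

variable {k : Type} [NontriviallyNormedField k] [ProperSpace k] {Γ K : Type}
  [Group Γ] [NormedAddCommGroup K] [InnerProductSpace ℂ K] [CompleteSpace K]

/-- The inverse powers of the wall element. -/
theorem pw_bw {k : Type} [Field k] (w : kˣ) :
    pw (bw w)⁻¹ = map (fun N : ℕ => (bw w ^ N)⁻¹) atTop := by
  rw [pw]
  congr 1
  funext N
  exact inv_pow _ _

theorem zpowers_inv' {k : Type} [Field k] (w : kˣ) :
    Subgroup.zpowers (bw w)⁻¹ = Subgroup.zpowers (bw w) := Subgroup.zpowers_inv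

/-- **The engine at `b = (bw w)⁻¹` gives `EOut`.** -/
theorem eout_row {w : kˣ} {π : G3 k →* (K →L[ℂ] K)} {lam : Γ →* (K →L[ℂ] K)}
    {W : Set (K →L[ℂ] K)} {mp : (Γ → ℝ) → (K →L[ℂ] K)} (q : Γ →* G3 k) {G1 G2 : Γ → ℝ}
    {bp : Γ → PP k} {Bd Bf : Set K} {ms : G3 k → Set Γ → ℝ}
    (h : SysF mp (fun g => π g) Bd ms (Subgroup.zpowers (bw w)) G1 G2)
    (hL : Leg mp (fun g => π g) (fun γ => lam γ) W)
    (hG : @GeoF Γ (PP k) _ _ (MulAction.compHom (PP k) q) G1 G2 bp)
    (hS : Slow mp (fun g => π g) Bd) (hloc : Loc2 mp (fun g => π g) Bd Bf)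
    (he : Esc (st mp) (fun g => π g) Bd (Subgroup.zpowers (bw w))
      (map (fun N : ℕ => (bw w ^ N)⁻¹) atTop))
    (hfu : Full (st mp) (fun g => π g) G1 G2 (map (fun N : ℕ => (bw w ^ N)⁻¹) atTop)) :
    ∃ E : CP k →⋆ₐ[ℂ] (K →L[ℂ] K), EOut w π lam W mp q G1 G2 bp E := by
  letI := MulAction.compHom (PP k) q
  have h' : SysF mp (fun g => π g) Bd ms (Subgroup.zpowers (bw w)⁻¹) G1 G2 := by
    rw [zpowers_inv']; exact h
  have hgap : ∀ u : Γ, ∃ C, ∀ x, |G1 (x * u) - G1 x| ≤ C ∧ |G2 (x * u) - G2 x| ≤ C := by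
    intro u
    obtain ⟨C, hC⟩ := hG.gap 1 u
    exact ⟨C, fun x => by simpa using hC x⟩
  rw [← pw_bw] at he hfu
  obtain ⟨β, hβ⟩ := engine h' hL hG hS (fun g ξ hξ => tendsto_pw.mp (he.esc g ξ hξ))
    (fun F C hF hN v ξ η => lu1 h hloc hG.fin he F C hF hN v ξ η) hfu
  refine ⟨β, ?_, ?_, ?_, ?_, ?_, ?_, ?_⟩
  · intro f ξ
    have h1 := tendsto_pw.mp (hβ.lim f ξ)
    refine h1.congr fun N => ?_
    rw [inv_pow]
  · exact fun f a ha => (hβ.cm a ha f).symm
  · intro γ f
    refine hβ.cov γ f (act (q γ) f) fun y => ?_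
    change f ((q γ)⁻¹ • q γ • y) = f y
    rw [inv_smul_smul]
  · intro n hn f
    refine hβ.contr n ?_ f
    refine hn.congr fun N => ?_
    rw [inv_pow, inv_inv]
  · intro v hv f
    refine hβ.cent v ?_ f
    rw [inv_mul_eq_iff_eq_mul, ← mul_assoc, eq_mul_inv_iff_mul_eq]
    exact hv
  · intro f v ξ
    have h1 := lu2 h hloc hG.fin he (F := cfc G1 G2 bp f) (C := ‖f‖)
      (cfc_norm fun y => f.norm_coe_le_norm y) (fun u => neg_right hG u f) v ξ ξ
    refine (tendsto_pw.mp h1).congr fun N => ?_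
    simp only [inv_pow]
  · intro v ξ ε hε
    obtain ⟨r, hr⟩ := ngl_shift h.sys hG.fin he hloc.sub hloc.dense hloc.map
      (fun v => loc_at hloc v) hgap v ξ hε
    refine ⟨r, fun T => ?_⟩
    have h1 := hr T
    rw [pw, Filter.eventually_map] at h1
    filter_upwards [h1] with N hN
    rw [inv_pow] at hN
    exact hN

end Vale.Agent.P092.H859.CL
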