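import Vale.Agent.P092.H553.Asm
import Vale.Agent.P092.H553.Contra
import Vale.Agent.P092.H859.Mean

/-!
P092 (helper859): far pairs for Lipschitz functions of `N*`.
-/

set_option linter.all false

open scoped InnerProductSpace
open Filter Topology ContinuousLinearMap

namespace Vale.Agent.P092.H859

open Vale.Agent.P092.H160 Vale.Agent.P092.H132 Vale.Agent.P092.H732 Vale.Agent.P092.H553

variable {Γ : Subgroup G3} {Λ : Type} [Group Λ] {V : Λ →* (Ell2 Γ →L[ℂ] Ell2 Γ)}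

theorem far_of_lip (hV : Frame V) {U : Ultrafilter ℕ} (hsm : SmallOf U V) {K : Subgroup Λ}
    (hc : Conf V K) {z z' : ℕ → Λ} (hz : ∀ k, ∀ v ∈ K, z k * v = v * z k)
    (hz' : ∀ k, ∀ v ∈ K, z' k * v = v * z' k) (hU : ∀ v : Λ, ∀ᶠ k in U, z k ≠ v)
    (hU' : ∀ v : Λ, ∀ᶠ k in U, z' k ≠ v) {H : Γ → ℝ} {L : ℝ}
    (hL : ∀ g h : Γ, |H g - H h| ≤ L * Real.sqrt (hs (NS (g : G3) - NS (h : G3)))) (a b : Γ) :
    Far U V z z' (fun g : Γ => q1 (g : G3)) H a b := by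
  intro δ0 hδ0 ε hε
  obtain ⟨L1, hL1, hLL⟩ : ∃ L1 : ℝ, 0 < L1 ∧ L ≤ L1 := ⟨max L 1, by positivity, le_max_left _ _⟩
  obtain ⟨δ, hδe⟩ : ∃ δ : ℝ, δ = δ0 / L1 := ⟨_, rfl⟩
  have hδ : 0 < δ := by rw [hδe]; positivity
  have hkey : ∀ k h : Γ, δ0 ≤ |H k - H h| → δ ^ 2 ≤ hs (NS (k : G3) - NS (h : G3)) := by
    intro k h hd
    have h1 := hd.trans (hL k h)
    have h2 : 0 ≤ Real.sqrt (hs (NS (k : G3) - NS (h : G3))) := Real.sqrt_nonneg _
    have h3 : δ ≤ Real.sqrt (hs (NS (k : G3) - NS (h : G3))) := by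
      rw [hδe, div_le_iff₀ hL1]
      nlinarith
    have h4 : 0 ≤ hs (NS (k : G3) - NS (h : G3)) := by
      unfold hs
      exact Finset.sum_nonneg fun i _ => Finset.sum_nonneg fun j _ => sq_nonneg _
    calc δ ^ 2 ≤ Real.sqrt (hs (NS (k : G3) - NS (h : G3))) ^ 2 := by gcongr
      _ = _ := Real.sq_sqrt h4
  have hinv : ∀ (y : ℕ → Λ), (∀ k, ∀ v ∈ K, y k * v = v * y k) →
      ∀ k w, (w = y k ∨ w = (y k)⁻¹) → (∀ v ∈ K, w * v = v * w) ∧ (∀ v ∈ K, w⁻¹ * v = v * w⁻¹) := by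
    intro y hy k w hw
    have key : ∀ v ∈ K, (y k)⁻¹ * v = v * (y k)⁻¹ := by
      intro v hv
      have := hy k v hv
      rw [inv_mul_eq_iff_eq_mul, ← mul_assoc, this, mul_assoc, mul_inv_cancel, mul_one]
    rcases hw with rfl | rfl
    · exact ⟨hy k, key⟩
    · rw [inv_inv]; exact ⟨key, hy k⟩
  obtain ⟨Ra, hRa3, hRa⟩ := conf_shift hV hc a (show 0 < ε / 2 by positivity)
  obtain ⟨Rb, hRb3, hRb⟩ := conf_shift hV hc b (show 0 < ε / 2 by positivity)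
  obtain ⟨R0, hR0⟩ : ∃ R0 : ℝ, R0 = max Ra Rb := ⟨_, rfl⟩
  have hR03 : 3 ≤ R0 := by rw [hR0]; exact hRa3.trans (le_max_left _ _)
  obtain ⟨hT1, F, hF⟩ := T1 (R0 := R0) (δ := δ) (by linarith) hδ
  obtain ⟨T, hT⟩ : ∃ T : Finset Γ, ∀ x : Γ, (x : G3) ∈ F → x ∈ T := by
    classical
    refine ⟨F.subtype (fun x => x ∈ Γ), fun x hx => ?_⟩
    rw [Finset.mem_subtype]; exact hx
  obtain ⟨R1, hR1⟩ := hc (ε / (Real.sqrt T.card + 1)) (by positivity)
  obtain ⟨κ, hκ⟩ : ∃ κ : ℝ, κ = (δ ^ 2 / (2 * R0)) ^ 2 := ⟨_, rfl⟩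
  have hκ0 : 0 < κ := by rw [hκ]; positivity
  obtain ⟨M, hM⟩ : ∃ M : ℝ, M = max R0 (R1 / κ) := ⟨_, rfl⟩
  have hMR : R0 ≤ M := by rw [hM]; exact le_max_left _ _
  have hMκ : R1 ≤ κ * M := by
    have : R1 / κ ≤ M := by rw [hM]; exact le_max_right _ _
    rw [div_le_iff₀ hκ0] at this
    linarith
  -- the mass outside of `E`
  have hmass : ∀ (y : ℕ → Λ), (∀ k, ∀ v ∈ K, y k * v = v * y k) → (∀ v : Λ, ∀ᶠ k in U, y k ≠ v) →
      ∀ (a : Γ) (Ra : ℝ), Ra ≤ R0 → (∀ w : Λ, (∀ v ∈ K, w * v = v * w) →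
        ‖mo (ind fun g : Γ => Reg Ra (g : G3)) (lam a (V w (dl 1)))‖ ≤ ε / 2) →
      ∀ᶠ k in U, ∀ w, (w = y k ∨ w = (y k)⁻¹) →
        ‖mo (fun g : Γ => q1 (g : G3) *
          ind (fun g : Γ => ¬ (G12 (g : G3) ≤ R0 ∧ M ≤ G23 (g : G3))) g) (Wr V w (dl a))‖ ≤ ε := by
    intro y hy hyU a Ra hRaR0 hRa
    have hlow : Tendsto (fun g : Γ => q1 (g : G3) * ind (fun g : G3 => G23 g < M) (g : G3))
        cofinite (𝓝 0) := tendsto_sub (q1_low M)
    have hlowb : ∀ g : Γ, |q1 (g : G3) * ind (fun g : G3 => G23 g < M) (g : G3)| ≤ 1 := by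
      intro g
      rw [abs_mul, abs_of_nonneg (q1_nonneg _)]
      exact mul_le_one₀ (q1_le_one _) (abs_nonneg _) (abs_ind_le _ _)
    have hy' : ∀ v : Λ, ∀ᶠ k in U, (y k)⁻¹ ≠ v := by
      intro v
      filter_upwards [hyU v⁻¹] with k hk h
      exact hk (by rw [← h, inv_inv])
    have s1 := hsm y _ 1 hlowb hlow hyU (dl a)
    have s2 := hsm (fun k => (y k)⁻¹) _ 1 hlowb hlow hy' (dl a)
    filter_upwards [(Metric.tendsto_nhds.mp s1) (ε / 2) (by positivity),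
      (Metric.tendsto_nhds.mp s2) (ε / 2) (by positivity)] with k hk1 hk2 w hw
    rw [dist_zero_right, norm_norm] at hk1 hk2
    have hlow2 : ‖mo (fun g : Γ => q1 (g : G3) * ind (fun g : G3 => G23 g < M) (g : G3))
        (Wr V w (dl a))‖ < ε / 2 := by
      rcases hw with rfl | rfl
      · exact hk1
      · exact hk2
    have hreg : ‖mo (ind fun g : Γ => Reg R0 (g : G3)) (Wr V w (dl a))‖ ≤ ε / 2 := by
      have e1 : Wr V w (dl a : Ell2 Γ) = lam a (V w⁻¹ (dl 1)) := by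
        rw [dl_eq_lam a, Wr_lam hV, Wr_xi hV]
      rw [e1]
      refine le_trans (norm_mo_ind_mono (fun g hg => Reg.mono hRaR0 hg) _) (hRa w⁻¹ ?_)
      exact (hinv y hy k w hw).2
    have hsplit : ‖mo (fun g : Γ => q1 (g : G3) *
          ind (fun g : Γ => ¬ (G12 (g : G3) ≤ R0 ∧ M ≤ G23 (g : G3))) g) (Wr V w (dl a))‖ ≤
        ‖mo (fun g : Γ => ind (fun g : Γ => Reg R0 (g : G3)) g +
          q1 (g : G3) * ind (fun g : G3 => G23 g < M) (g : G3)) (Wr V w (dl a))‖ := by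
      refine norm_mo_le_mo (C := 1) (D := 1 + 1) (fun g => ?_) (fun g => ?_) (fun g => ?_) _
      · rw [abs_mul, abs_of_nonneg (q1_nonneg _)]
        exact mul_le_one₀ (q1_le_one _) (abs_nonneg _) (abs_ind_le _ _)
      · exact (abs_add_le _ _).trans (add_le_add (abs_ind_le _ _) (hlowb g))
      · have hq0 := q1_nonneg (g : G3)
        have hq1 := q1_le_one (g : G3)
        have hpos : 0 ≤ ind (fun g : Γ => Reg R0 (g : G3)) g +
            q1 (g : G3) * ind (fun g : G3 => G23 g < M) (g : G3) :=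
          add_nonneg (ind_nonneg _ _) (mul_nonneg hq0 (ind_nonneg _ _))
        rw [abs_of_nonneg hpos, abs_of_nonneg (mul_nonneg hq0 (ind_nonneg _ _))]
        by_cases hE : G12 (g : G3) ≤ R0 ∧ M ≤ G23 (g : G3)
        · rw [ind_neg (P := fun g : Γ => ¬ (G12 (g : G3) ≤ R0 ∧ M ≤ G23 (g : G3)))
            (fun h => h hE), mul_zero]
          exact hpos
        · rw [ind_pos (P := fun g : Γ => ¬ (G12 (g : G3) ≤ R0 ∧ M ≤ G23 (g : G3))) hE, mul_one]
          by_cases h23 : G23 (g : G3) < M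
          · rw [ind_pos (P := fun g : G3 => G23 g < M) h23, mul_one]
            linarith [ind_nonneg (fun g : Γ => Reg R0 (g : G3)) g]
          · rw [not_lt] at h23
            have h12 : R0 < G12 (g : G3) := by
              by_contra h
              exact hE ⟨not_lt.mp h, h23⟩
            have hReg : Reg R0 (g : G3) := ⟨h12.le, hMR.trans h23⟩
            rw [ind_pos (P := fun g : Γ => Reg R0 (g : G3)) hReg]
            have := mul_nonneg hq0 (ind_nonneg (fun g : G3 => G23 g < M) (g : G3))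
            linarith
    refine hsplit.trans ?_
    rw [mo_add (abs_ind_le _) hlowb]
    refine (norm_add_le _ _).trans ?_
    linarith
  refine ⟨fun g : Γ => G12 (g : G3) ≤ R0 ∧ M ≤ G23 (g : G3), fun g : Γ => Reg R1 (g : G3), T,
    hmass z hz hU a Ra (by rw [hR0]; exact le_max_left _ _) hRa,
    hmass z' hz' hU' b Rb (by rw [hR0]; exact le_max_right _ _) hRb, ?_, ?_, ?_⟩
  · intro k h hk hh hd
    have hd' : δ ^ 2 ≤ hs (NS (k : G3) - NS (h : G3)) := hkey k h hd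
    have h1 := hT1 (k : G3) (h : G3) hk.1 hh.1 hd'
    rw [← hκ] at h1
    refine ⟨hMκ.trans (le_trans ?_ h1.1), hMκ.trans (le_trans ?_ h1.2)⟩
    · exact mul_le_mul_of_nonneg_left hk.2 hκ0.le
    · exact mul_le_mul_of_nonneg_left hh.2 hκ0.le
  · intro k₁ h₁ k₂ h₂ e1 e2 e3 e4 d1 d2 he
    have hd' := hkey
    refine hT _ ?_
    have he' : (k₁ : G3)⁻¹ * (h₁ : G3) = (k₂ : G3)⁻¹ * (h₂ : G3) := congrArg Subtype.val he
    exact hF _ _ _ _ e1.1 e2.1 e3.1 e4.1 (hd' _ _ d1) (hd' _ _ d2) he'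
  · intro k l w v hw hv
    have hwv : ∀ x ∈ K, (w * v⁻¹) * x = x * (w * v⁻¹) := by
      intro x hx
      have h1 := (hinv z hz k w hw).1 x hx
      have h2 := (hinv z' hz' l v hv).2 x hx
      rw [mul_assoc, h2, ← mul_assoc, h1, mul_assoc]
    have h3 := hR1 _ hwv
    calc Real.sqrt T.card * _ ≤ Real.sqrt T.card * (ε / (Real.sqrt T.card + 1)) := by gcongr
      _ ≤ ε := by
        rw [mul_div_assoc', div_le_iff₀ (by positivity)]
        nlinarith [Real.sqrt_nonneg (T.card : ℝ)]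

end Vale.Agent.P092.H859
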