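import Vale.Agent.P092.H200.InvMean

/-!
P092 (helper859): limits of bounded real sequences along an ultrafilter; an abstract minimal norm
argument producing invariant means.
-/

set_option linter.all false

open Filter Topology

namespace Vale.Agent.P092.H859

section ul

open Classical in
/-- The limit of a bounded real sequence along an ultrafilter. -/
noncomputable def ul (U : Ultrafilter ℕ) (x : ℕ → ℝ) : ℝ :=
  if h : ∃ l, Tendsto x U (𝓝 l) then h.choose else 0

theorem ul_spec (U : Ultrafilter ℕ) {x : ℕ → ℝ} {C : ℝ} (hx : ∀ n, |x n| ≤ C) :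
    Tendsto x U (𝓝 (ul U x)) := by
  have hc : IsCompact (Set.Icc (-C) C) := isCompact_Icc
  have h1 : ((U.map x : Ultrafilter ℝ) : Filter ℝ) ≤ 𝓟 (Set.Icc (-C) C) := by
    rw [le_principal_iff]
    exact Filter.mem_map.mpr (Filter.univ_mem' fun n => abs_le.mp (hx n))
  obtain ⟨l, _, hl⟩ := hc.ultrafilter_le_nhds (U.map x) h1
  have h : ∃ l, Tendsto x U (𝓝 l) := ⟨l, hl⟩
  rw [ul, dif_pos h]
  exact h.choose_spec

theorem ul_eq (U : Ultrafilter ℕ) {x : ℕ → ℝ} {l : ℝ} (hx : Tendsto x U (𝓝 l)) :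
    ul U x = l := by
  have h : ∃ l, Tendsto x U (𝓝 l) := ⟨l, hx⟩
  rw [ul, dif_pos h]
  exact tendsto_nhds_unique h.choose_spec hx

end ul

/-- The minimal norm argument: almost minimal points of a convex set are almost invariant. -/
theorem mean_of_convex {Λ : Type} [Group Λ] (K : Subgroup Λ) {X : Type} (mid : X → X → X)
    (C : Set X) (hC : ∀ x ∈ C, ∀ y ∈ C, mid x y ∈ C)
    (hne : C.Nonempty) (act : Λ → X → X) (hact : ∀ u ∈ K, ∀ x ∈ C, act u x ∈ C)
    (N : Set Λ → X → ℝ) (D : X → X → ℝ) (hN : ∀ A, ∀ x ∈ C, 0 ≤ N A x)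
    (hadd : ∀ A B, Disjoint A B → ∀ x ∈ C, N (A ∪ B) x = N A x + N B x)
    (hpar : ∀ x ∈ C, ∀ y ∈ C, N Set.univ (mid x y) =
      (N Set.univ x + N Set.univ y) / 2 - D x y / 4)
    (htri : ∀ A, ∀ x ∈ C, ∀ y ∈ C, |Real.sqrt (N A x) - Real.sqrt (N A y)| ≤ Real.sqrt (D x y))
    (hinv : ∀ A, ∀ u ∈ K, ∀ x ∈ C, N {w | w * u ∈ A} x = N A (act u x))
    {c : ℝ} (hc : 0 < c) (hlow : ∀ x ∈ C, c ≤ N Set.univ x) :
    ∃ m : Set Λ → ℝ, H200.IsInvMean K m := by
  have hmono : ∀ A, ∀ x ∈ C, N A x ≤ N Set.univ x := by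
    intro A x hx
    have h1 := hadd A Aᶜ disjoint_compl_right x hx
    rw [Set.union_compl_self] at h1
    have := hN Aᶜ x hx
    linarith
  have hbdd : BddBelow (N Set.univ '' C) := ⟨c, by rintro _ ⟨x, hx, rfl⟩; exact hlow x hx⟩
  obtain ⟨m0, hm0⟩ : ∃ m0, m0 = sInf (N Set.univ '' C) := ⟨_, rfl⟩
  have hm0le : ∀ x ∈ C, m0 ≤ N Set.univ x := by
    intro x hx
    rw [hm0]
    exact csInf_le hbdd ⟨x, hx, rfl⟩
  have hex : ∀ j : ℕ, ∃ x ∈ C, N Set.univ x < m0 + 1 / (j + 1 : ℝ) := by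
    intro j
    have h1 : sInf (N Set.univ '' C) < m0 + 1 / (j + 1 : ℝ) := by
      rw [← hm0]
      have : (0 : ℝ) < 1 / (j + 1 : ℝ) := by positivity
      linarith
    obtain ⟨_, ⟨x, hx, rfl⟩, h2⟩ := exists_lt_of_csInf_lt (hne.image _) h1
    exact ⟨x, hx, h2⟩
  choose x hxC hx using hex
  have hpos : ∀ j, 0 < N Set.univ (x j) := fun j => lt_of_lt_of_le hc (hlow _ (hxC j))
  have hD : ∀ j, ∀ u ∈ K, D (act u (x j)) (x j) ≤ 4 / (j + 1 : ℝ) := by
    intro j u hu
    have hux := hact u hu _ (hxC j)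
    have h1 := hpar _ hux _ (hxC j)
    have h2 := hm0le _ (hC _ hux _ (hxC j))
    have h3 : N Set.univ (act u (x j)) = N Set.univ (x j) := by
      rw [← hinv Set.univ u hu _ (hxC j)]
      congr 1
    have h4 := hx j
    rw [h3] at h1
    have h5 : 4 / (j + 1 : ℝ) = 4 * (1 / (j + 1 : ℝ)) := by ring
    rw [h5]
    linarith
  have hb : ∀ A j, |N A (x j) / N Set.univ (x j)| ≤ 1 := by
    intro A j
    rw [abs_of_nonneg (div_nonneg (hN _ _ (hxC j)) (hpos j).le), div_le_one (hpos j)]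
    exact hmono A _ (hxC j)
  obtain ⟨U, hU⟩ : ∃ U : Ultrafilter ℕ, U = Filter.hyperfilter ℕ := ⟨_, rfl⟩
  have hUat : (U : Filter ℕ) ≤ atTop := by
    rw [hU, ← Nat.cofinite_eq_atTop]
    exact Filter.hyperfilter_le_cofinite
  refine ⟨fun A => ul U (fun j => N A (x j) / N Set.univ (x j)), ?_⟩
  have hspec : ∀ A, Tendsto (fun j => N A (x j) / N Set.univ (x j)) U
      (𝓝 (ul U (fun j => N A (x j) / N Set.univ (x j)))) := fun A => ul_spec U (hb A)
  refine ⟨fun A => ?_, ?_, fun A B hAB => ?_, fun A v hv => ?_⟩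
  · exact ge_of_tendsto (hspec A) (Eventually.of_forall fun j =>
      div_nonneg (hN _ _ (hxC j)) (hpos j).le)
  · refine ul_eq U ?_
    have : (fun j => N Set.univ (x j) / N Set.univ (x j)) = fun _ => (1 : ℝ) := by
      funext j
      exact div_self (hpos j).ne'
    rw [this]
    exact tendsto_const_nhds
  · refine ul_eq U ?_
    refine ((hspec A).add (hspec B)).congr fun j => ?_
    rw [hadd A B hAB _ (hxC j), add_div]
  · refine ul_eq U ?_
    have h1 : Tendsto (fun j => N {w | w * v ∈ A} (x j) / N Set.univ (x j) -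
        N A (x j) / N Set.univ (x j)) U (𝓝 0) := by
      have h2 : Tendsto (fun j : ℕ => 4 / Real.sqrt c * Real.sqrt (1 / ((j : ℝ) + 1))) U
          (𝓝 0) := by
        have h3 : Tendsto (fun j : ℕ => 1 / ((j : ℝ) + 1)) U (𝓝 0) :=
          tendsto_one_div_add_atTop_nhds_zero_nat.mono_left hUat
        have h4 := (Real.continuous_sqrt.tendsto 0).comp h3
        rw [Real.sqrt_zero] at h4
        have h5 := h4.const_mul (4 / Real.sqrt c)
        rw [mul_zero] at h5
        exact h5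
      refine squeeze_zero_norm (fun j => ?_) h2
      have hvx := hact v hv _ (hxC j)
      rw [hinv A v hv _ (hxC j), ← sub_div, Real.norm_eq_abs, abs_div, abs_of_pos (hpos j),
        div_le_iff₀ (hpos j)]
      have a1 := htri A _ hvx _ (hxC j)
      have a2 : Real.sqrt (D (act v (x j)) (x j)) ≤ 2 * Real.sqrt (1 / ((j : ℝ) + 1)) := by
        have e1 : (2 : ℝ) * Real.sqrt (1 / ((j : ℝ) + 1)) = Real.sqrt (4 / ((j : ℝ) + 1)) := by
          have e2 : (4 : ℝ) / ((j : ℝ) + 1) = 2 ^ 2 * (1 / ((j : ℝ) + 1)) := by ring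
          rw [e2, Real.sqrt_mul (by norm_num), Real.sqrt_sq (by norm_num)]
        rw [e1]
        exact Real.sqrt_le_sqrt (hD j v hv)
      have n1 : 0 ≤ N A (act v (x j)) := hN _ _ hvx
      have n2 : 0 ≤ N A (x j) := hN _ _ (hxC j)
      have e3 : N A (act v (x j)) - N A (x j) =
          (Real.sqrt (N A (act v (x j))) - Real.sqrt (N A (x j))) *
          (Real.sqrt (N A (act v (x j))) + Real.sqrt (N A (x j))) := by
        have q1 := Real.mul_self_sqrt n1
        have q2 := Real.mul_self_sqrt n2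
        nlinarith
      have h3 : N Set.univ (act v (x j)) = N Set.univ (x j) := by
        rw [← hinv Set.univ v hv _ (hxC j)]
        congr 1
      have a3 : Real.sqrt (N A (act v (x j))) ≤ Real.sqrt (N Set.univ (x j)) := by
        rw [← h3]
        exact Real.sqrt_le_sqrt (hmono A _ hvx)
      have a4 : Real.sqrt (N A (x j)) ≤ Real.sqrt (N Set.univ (x j)) :=
        Real.sqrt_le_sqrt (hmono A _ (hxC j))
      rw [e3, abs_mul, abs_of_nonneg (add_nonneg (Real.sqrt_nonneg _) (Real.sqrt_nonneg _))]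
      have hsc : 0 < Real.sqrt c := Real.sqrt_pos.mpr hc
      have a5 : Real.sqrt c ≤ Real.sqrt (N Set.univ (x j)) :=
        Real.sqrt_le_sqrt (hlow _ (hxC j))
      have a6 : Real.sqrt (N Set.univ (x j)) ≤ N Set.univ (x j) / Real.sqrt c := by
        rw [le_div_iff₀ hsc]
        calc Real.sqrt (N Set.univ (x j)) * Real.sqrt c ≤
              Real.sqrt (N Set.univ (x j)) * Real.sqrt (N Set.univ (x j)) := by gcongr
          _ = _ := Real.mul_self_sqrt (hpos j).le
      have s0 := Real.sqrt_nonneg (1 / ((j : ℝ) + 1))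
      calc |Real.sqrt (N A (act v (x j))) - Real.sqrt (N A (x j))| *
            (Real.sqrt (N A (act v (x j))) + Real.sqrt (N A (x j))) ≤
            (2 * Real.sqrt (1 / ((j : ℝ) + 1))) *
              (Real.sqrt (N Set.univ (x j)) + Real.sqrt (N Set.univ (x j))) := by
            gcongr
            · exact a1.trans a2
        _ ≤ (2 * Real.sqrt (1 / ((j : ℝ) + 1))) * (N Set.univ (x j) / Real.sqrt c +
              N Set.univ (x j) / Real.sqrt c) := by gcongr
        _ = 4 / Real.sqrt c * Real.sqrt (1 / ((j : ℝ) + 1)) * N Set.univ (x j) := by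
            field_simp
            ring
    have h2 := h1.add (hspec A)
    rw [zero_add] at h2
    refine h2.congr fun j => ?_
    ring

end Vale.Agent.P092.H859
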