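import Vale.Agent.P092.H859.BalMul
import Vale.Agent.P092.H553.Asm

/-!
P092 (helper859): Kadison-Schwarz inequality and left covariance for the limit.
-/

set_option linter.all false

open scoped InnerProductSpace
open Filter Topology ContinuousLinearMap

namespace Vale.Agent.P092.H859

open Vale.Agent.P092.H160 Vale.Agent.P092.H553

section gen

variable {Γ Λ : Type} [Group Γ] [Group Λ] {V : Λ →* (Ell2 Γ →L[ℂ] Ell2 Γ)}
  {U : Ultrafilter ℕ} {z : ℕ → Λ} {q F : Γ → ℝ}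

/-- Cauchy-Schwarz with weight. -/
theorem cs_mo (hq : ∀ g, 0 ≤ q g ∧ q g ≤ 1) (hF : ∀ g, |F g| ≤ 1) (η ξ : Ell2 Γ) :
    ‖⟪η, mo (fun g => q g * F g) ξ⟫_ℂ‖ ≤ Real.sqrt (⟪η, mo (fun g => q g * 1) η⟫_ℂ).re *
      Real.sqrt (⟪ξ, mo (fun g => q g * F g ^ 2) ξ⟫_ℂ).re := by
  have hs0 : ∀ g, 0 ≤ Real.sqrt (q g) := fun g => Real.sqrt_nonneg _
  have hs1 : ∀ g, |Real.sqrt (q g)| ≤ 1 := fun g => by
    rw [abs_of_nonneg (hs0 g)]
    exact Real.sqrt_le_one.mpr (hq g).2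
  have hsF : ∀ g, |Real.sqrt (q g) * F g| ≤ 1 := fun g => by
    rw [abs_mul]; exact mul_le_one₀ (hs1 g) (abs_nonneg _) (hF g)
  have hss : ∀ g, Real.sqrt (q g) * Real.sqrt (q g) = q g := fun g => Real.mul_self_sqrt (hq g).1
  have e1 : mo (fun g => q g * F g) ξ =
      mo (fun g => Real.sqrt (q g)) (mo (fun g => Real.sqrt (q g) * F g) ξ) := by
    rw [← mo_mul hs1 hsF]
    congr 2
    funext g
    rw [← mul_assoc, hss]
  have hqa : ∀ g, |q g * 1| ≤ 1 := fun g => by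
    rw [mul_one, abs_of_nonneg (hq g).1]; exact (hq g).2
  have hqF2 : ∀ g, |q g * F g ^ 2| ≤ 1 := fun g => by
    rw [abs_mul, abs_of_nonneg (hq g).1, abs_pow]
    exact mul_le_one₀ (hq g).2 (by positivity) (pow_le_one₀ (abs_nonneg _) (hF g))
  have e2 : ‖mo (fun g => Real.sqrt (q g)) η‖ = Real.sqrt (⟪η, mo (fun g => q g * 1) η⟫_ℂ).re := by
    rw [inner_mo hqa, Complex.ofReal_re, eq_comm, Real.sqrt_eq_iff_mul_self_eq ?_ (norm_nonneg _)]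
    · rw [← sq, norm_mo_sq hs1]
      refine tsum_congr fun g => ?_
      rw [mul_one, Real.sq_sqrt (hq g).1]
    · exact tsum_nonneg fun g => mul_nonneg (by rw [mul_one]; exact (hq g).1) (by positivity)
  have e3 : ‖mo (fun g => Real.sqrt (q g) * F g) ξ‖ =
      Real.sqrt (⟪ξ, mo (fun g => q g * F g ^ 2) ξ⟫_ℂ).re := by
    rw [inner_mo hqF2, Complex.ofReal_re, eq_comm, Real.sqrt_eq_iff_mul_self_eq ?_ (norm_nonneg _)]
    · rw [← sq, norm_mo_sq hsF]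
      refine tsum_congr fun g => ?_
      rw [mul_pow, Real.sq_sqrt (hq g).1]
    · exact tsum_nonneg fun g => mul_nonneg (mul_nonneg (hq g).1 (by positivity)) (by positivity)
  rw [e1, ← inner_mo_left hs1, ← e2, ← e3]
  exact norm_inner_le_norm _ _

theorem cs_two {a b c d : ℝ} (ha : 0 ≤ a) (hb : 0 ≤ b) (hc : 0 ≤ c) (hd : 0 ≤ d) :
    Real.sqrt a * Real.sqrt b + Real.sqrt c * Real.sqrt d ≤
      Real.sqrt (a + c) * Real.sqrt (b + d) := by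
  rw [← Real.sqrt_mul (add_nonneg ha hc)]
  refine Real.le_sqrt_of_sq_le ?_
  have h1 := Real.sq_sqrt ha
  have h2 := Real.sq_sqrt hb
  have h3 := Real.sq_sqrt hc
  have h4 := Real.sq_sqrt hd
  nlinarith [sq_nonneg (Real.sqrt a * Real.sqrt d - Real.sqrt c * Real.sqrt b)]

theorem pi2_spec (hV : Frame V) {C : ℝ} (hF : ∀ g, |q g * F g| ≤ C) (η ξ : Ell2 Γ) :
    Tendsto (fun k => ⟪Wr V (z k) η, mo (fun g => q g * F g) (Wr V (z k) ξ)⟫_ℂ +
      ⟪Wr V (z k)⁻¹ η, mo (fun g => q g * F g) (Wr V (z k)⁻¹ ξ)⟫_ℂ) U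
      (𝓝 ⟪η, Pi2 U V z q F ξ⟫_ℂ) := by
  have h1 := (pl_spec (U := U) (z := z) (F := fun _ g => q g * F g) hV (fun _ => hF) η ξ).add
    (pl_spec (U := U) (z := fun k => (z k)⁻¹) (F := fun _ g => q g * F g) hV (fun _ => hF) η ξ)
  rw [Pi2, add_apply, inner_add_right]
  exact h1

/-- Kadison-Schwarz. -/
theorem pi2_ks (hV : Frame V) (hq : ∀ g, 0 ≤ q g ∧ q g ≤ 1)
    (h1 : Pi2 U V z q (fun _ => 1) = 1) (hF : ∀ g, |F g| ≤ 1) (ξ : Ell2 Γ) :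
    ‖Pi2 U V z q F ξ‖ ^ 2 ≤ (⟪ξ, Pi2 U V z q (fun g => F g ^ 2) ξ⟫_ℂ).re := by
  have hqF : ∀ g, |q g * F g| ≤ 1 := fun g => by
    rw [abs_mul, abs_of_nonneg (hq g).1]; exact mul_le_one₀ (hq g).2 (abs_nonneg _) (hF g)
  have hqF2 : ∀ g, |q g * F g ^ 2| ≤ 1 := fun g => by
    rw [abs_mul, abs_of_nonneg (hq g).1, abs_pow]
    exact mul_le_one₀ (hq g).2 (by positivity) (pow_le_one₀ (abs_nonneg _) (hF g))
  have hqa : ∀ g, |q g * 1| ≤ 1 := fun g => by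
    rw [mul_one, abs_of_nonneg (hq g).1]; exact (hq g).2
  have hpos1 : ∀ ζ : Ell2 Γ, 0 ≤ (⟪ζ, mo (fun g => q g * 1) ζ⟫_ℂ).re := by
    intro ζ
    rw [inner_mo hqa, Complex.ofReal_re]
    exact tsum_nonneg fun g => mul_nonneg (by rw [mul_one]; exact (hq g).1) (by positivity)
  have hpos2 : ∀ ζ : Ell2 Γ, 0 ≤ (⟪ζ, mo (fun g => q g * F g ^ 2) ζ⟫_ℂ).re := by
    intro ζ
    rw [inner_mo hqF2, Complex.ofReal_re]
    exact tsum_nonneg fun g => mul_nonneg (mul_nonneg (hq g).1 (by positivity)) (by positivity)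
  obtain ⟨η, hη⟩ : ∃ η, η = Pi2 U V z q F ξ := ⟨_, rfl⟩
  obtain ⟨b, hb⟩ : ∃ b, b = (⟪ξ, Pi2 U V z q (fun g => F g ^ 2) ξ⟫_ℂ).re := ⟨_, rfl⟩
  have l1 := (pi2_spec (U := U) (z := z) hV hqF η ξ).norm
  have l2 := (Complex.continuous_re.tendsto _).comp (pi2_spec (U := U) (z := z)
    (F := fun _ => 1) hV hqa η η)
  have l3 := (Complex.continuous_re.tendsto _).comp (pi2_spec (U := U) (z := z)
    (F := fun g => F g ^ 2) hV hqF2 ξ ξ)
  have l4 := ((Real.continuous_sqrt.tendsto _).comp l2).mul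
    ((Real.continuous_sqrt.tendsto _).comp l3)
  have h2 : ‖⟪η, Pi2 U V z q F ξ⟫_ℂ‖ ≤ Real.sqrt (⟪η, Pi2 U V z q (fun _ => 1) η⟫_ℂ).re *
      Real.sqrt (⟪ξ, Pi2 U V z q (fun g => F g ^ 2) ξ⟫_ℂ).re := by
    refine le_of_tendsto_of_tendsto l1 l4 (Eventually.of_forall fun k => ?_)
    simp only [Function.comp_apply, Complex.add_re]
    refine (norm_add_le _ _).trans ?_
    refine le_trans (add_le_add (cs_mo hq hF _ _) (cs_mo hq hF _ _)) ?_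
    exact cs_two (hpos1 _) (hpos2 _) (hpos1 _) (hpos2 _)
  have h3 : (⟪η, Pi2 U V z q (fun _ => 1) η⟫_ℂ).re = ‖η‖ ^ 2 := by
    rw [h1]
    change (⟪η, η⟫_ℂ).re = _
    rw [inner_self_eq_norm_sq_to_K]
    norm_cast
  rw [h3, ← hη, ← hb, Real.sqrt_sq (norm_nonneg _), inner_self_eq_norm_sq_to_K, norm_pow] at h2
  have h4 : ‖η‖ ^ 2 ≤ ‖η‖ * Real.sqrt b := by
    simpa using h2
  rw [← hη, ← hb]
  have h5 := Real.sqrt_nonneg b
  have h6 : ‖η‖ ≤ Real.sqrt b := by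
    by_cases h0 : ‖η‖ = 0
    · rw [h0]; exact h5
    · have : 0 < ‖η‖ := lt_of_le_of_ne (norm_nonneg _) (Ne.symm h0)
      nlinarith
  have h7 : 0 ≤ b := by
    rw [hb]
    refine ge_of_tendsto l3 (Eventually.of_forall fun k => ?_)
    simp only [Function.comp_apply, Complex.add_re]
    exact add_nonneg (hpos2 _) (hpos2 _)
  calc ‖η‖ ^ 2 ≤ Real.sqrt b ^ 2 := by
        have := norm_nonneg η
        gcongr
    _ = b := Real.sq_sqrt h7

end gen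

theorem pi2_lam {Γ : Subgroup G3} {Λ : Type} [Group Λ] {V : Λ →* (Ell2 Γ →L[ℂ] Ell2 Γ)}
    (hV : Frame V) {z : ℕ → Λ} (hz : ∀ v : Λ, ∀ᶠ k in Uf, z k ≠ v)
    {F : Γ → ℝ} (hF : ∀ g, |F g| ≤ 1) (s : Γ) (ξ : Ell2 Γ) :
    Pi2 Uf V z (qq Γ) F (lam s ξ) = lam s (Pi2 Uf V z (qq Γ) (fun g => F (s * g)) ξ) := by
  have hz' : ∀ v : Λ, ∀ᶠ k in Uf, (z k)⁻¹ ≠ v := by
    intro v
    filter_upwards [hz v⁻¹] with k hk h
    exact hk (by rw [← h, inv_inv])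
  have hD : Tendsto (fun g : Γ => qq Γ (s⁻¹ * g) * F g - qq Γ g * F g) cofinite (𝓝 0) := by
    have h1 := (qq_tendsto (Γ := Γ) s⁻¹ 1).abs
    rw [abs_zero] at h1
    refine squeeze_zero_norm (fun g => ?_) h1
    rw [Real.norm_eq_abs, ← sub_mul, abs_mul, mul_one]
    exact mul_le_of_le_one_right (abs_nonneg _) (hF g)
  have hDb : ∀ g : Γ, |qq Γ (s⁻¹ * g) * F g - qq Γ g * F g| ≤ 1 + 1 := fun g =>
    (abs_sub _ _).trans (add_le_add (abs_mul_le_one (abs_qq _) (hF _))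
      (abs_mul_le_one (abs_qq _) (hF _)))
  have hb : ∀ (k : ℕ) (g : Γ), |qq Γ g * F (s * g)| ≤ 1 := fun _ g =>
    abs_mul_le_one (abs_qq _) (hF _)
  have hb' : ∀ (k : ℕ) (g : Γ), |qq Γ g * F g| ≤ 1 := fun _ g =>
    abs_mul_le_one (abs_qq _) (hF _)
  have s1 := smallOf hV z _ _ hDb hD hz
  have s2 := smallOf hV _ _ _ hDb hD hz'
  unfold Pi2
  rw [add_apply, add_apply, map_add,
    pl_lam hV (F' := fun _ g => qq Γ g * F g) hb hb' s (by simpa only [mul_inv_cancel_left] using s1),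
    pl_lam hV (F' := fun _ g => qq Γ g * F g) hb hb' s
      (by simpa only [mul_inv_cancel_left] using s2)]

end Vale.Agent.P092.H859
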