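import Vale.Agent.P092.H859.Good
import Vale.Agent.P092.H859.Far
import Vale.Agent.P092.H859.BalMul
import Vale.Agent.P092.H553.Final
import Vale.Agent.P092.H200.Split

/-!
P092 (helper859): linearity of the limit; infinite cyclic groups.
-/

set_option linter.all false

open scoped InnerProductSpace
open Filter Topology ContinuousLinearMap

namespace Vale.Agent.P092.H859

open Vale.Agent.P092.H160 Vale.Agent.P092.H132 Vale.Agent.P092.H732 Vale.Agent.P092.H553
  Vale.Agent.P092.H200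

theorem pi2_lin {Γ Λ : Type} [Group Γ] [Group Λ] {V : Λ →* (Ell2 Γ →L[ℂ] Ell2 Γ)}
    {U : Ultrafilter ℕ} (hV : Frame V) {z : ℕ → Λ} {q : Γ → ℝ} (hq : ∀ g, |q g| ≤ 1) (c d : ℝ)
    (F G : Γ → ℝ) (C : ℝ) (hF : ∀ g, |F g| ≤ C) (hG : ∀ g, |G g| ≤ C) :
    Pi2 U V z q (fun g => c * F g + d * G g) =
      (c : ℂ) • Pi2 U V z q F + (d : ℂ) • Pi2 U V z q G := by
  have hqF : ∀ (F : Γ → ℝ) (C : ℝ), (∀ g, |F g| ≤ C) → ∀ g, |q g * F g| ≤ C := by
    intro F C hF g
    rw [abs_mul]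
    exact (mul_le_of_le_one_left (abs_nonneg _) (hq g)).trans (hF g)
  have hcF : ∀ (c : ℝ) (F : Γ → ℝ) (C : ℝ), (∀ g, |F g| ≤ C) → ∀ g, |c * (q g * F g)| ≤ |c| * C := by
    intro c F C hF g
    rw [abs_mul]
    have := hqF F C hF g
    gcongr
  unfold Pi2
  have e : (fun (_ : ℕ) g => q g * (c * F g + d * G g)) =
      fun _ g => c * (q g * F g) + d * (q g * G g) := by
    funext _ g; ring
  rw [e, pl_add hV (fun _ => hcF c F C hF) (fun _ => hcF d G C hG),
    pl_add hV (fun _ => hcF c F C hF) (fun _ => hcF d G C hG),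
    pl_smul hV c (fun _ => hqF F C hF), pl_smul hV c (fun _ => hqF F C hF),
    pl_smul hV d (fun _ => hqF G C hG), pl_smul hV d (fun _ => hqF G C hG), smul_add, smul_add]
  abel

theorem vertex_zpowers {Λ : Type} [Group Λ] {y : Λ} (hy : ∀ k : ℕ, k ≠ 0 → y ^ k ≠ 1) :
    Vertex (Subgroup.zpowers y) := by
  constructor
  · refine Set.infinite_coe_iff.mpr (infinite_zpowers.mpr ?_)
    rw [isOfFinOrder_iff_pow_eq_one]
    rintro ⟨k, hk, e⟩
    exact hy k hk.ne' e
  · rintro _ ⟨m, rfl⟩ _ ⟨n, rfl⟩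
    exact (Commute.refl y).zpow_zpow m n

end Vale.Agent.P092.H859
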