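import Vale.Agent.P092.H859.Ks
import Vale.Agent.P092.H859.Good

/-!
P092 (helper859): the mass of the limit outside of the wall regions.
-/

set_option linter.all false

open scoped InnerProductSpace
open Filter Topology ContinuousLinearMap

namespace Vale.Agent.P092.H859

open Vale.Agent.P092.H160 Vale.Agent.P092.H132 Vale.Agent.P092.H732 Vale.Agent.P092.H553

variable {Γ : Subgroup G3} {Λ : Type} [Group Λ] {V : Λ →* (Ell2 Γ →L[ℂ] Ell2 Γ)}

theorem mass_le (hV : Frame V) {K : Subgroup Λ} (hc : Conf V K) (s : Γ) {ε : ℝ} (hε : 0 < ε) :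
    ∃ R0 : ℝ, ∀ R, R0 ≤ R → ∀ (M : ℝ) (z : ℕ → Λ), (∀ k, ∀ v ∈ K, z k * v = v * z k) →
      (∀ v : Λ, ∀ᶠ k in Uf, z k ≠ v) → ∀ u : Λ, (∀ v ∈ K, u * v = v * u) →
      (⟪lam s (Wr V u (dl 1)), Pi2 Uf V z (qq Γ) (ind fun h : Γ => ¬ Wall Γ R M h)
        (lam s (Wr V u (dl 1)))⟫_ℂ).re ≤ ε := by
  obtain ⟨δ, hδ0, hδ⟩ : ∃ δ : ℝ, 0 < δ ∧ δ ^ 2 = ε / 2 :=
    ⟨Real.sqrt (ε / 2), Real.sqrt_pos.mpr (by positivity), Real.sq_sqrt (by positivity)⟩
  obtain ⟨R0, hR03, hR0⟩ := conf_shift hV hc s hδ0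
  refine ⟨R0, fun R hR M z hz hU u hu => ?_⟩
  obtain ⟨M', hM'⟩ : ∃ M', M' = max M R := ⟨_, rfl⟩
  have hU' : ∀ v : Λ, ∀ᶠ k in Uf, (z k)⁻¹ ≠ v := by
    intro v
    filter_upwards [hU v⁻¹] with k hk h
    exact hk (by rw [← h, inv_inv])
  obtain ⟨ζ, hζ⟩ : ∃ ζ : Ell2 Γ, ζ = lam s (Wr V u (dl 1)) := ⟨_, rfl⟩
  have hζn : ‖ζ‖ = 1 := by rw [hζ, norm_lam, norm_W hV, norm_dl]
  rw [← hζ]
  have hlow : Tendsto (fun g : Γ => q1 (g : G3) * ind (fun g : G3 => G23 g < M') (g : G3))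
      cofinite (𝓝 0) := tendsto_sub (q1_low M')
  have hlowb : ∀ g : Γ, |q1 (g : G3) * ind (fun g : G3 => G23 g < M') (g : G3)| ≤ 1 := by
    intro g
    rw [abs_mul, abs_of_nonneg (q1_nonneg _)]
    exact mul_le_one₀ (q1_le_one _) (abs_nonneg _) (abs_ind_le _ _)
  have s1 := smallOf hV z _ 1 hlowb hlow hU ζ
  have s2 := smallOf hV (fun k => (z k)⁻¹) _ 1 hlowb hlow hU' ζ
  have hqF : ∀ g : Γ, |qq Γ g * ind (fun h : Γ => ¬ Wall Γ R M h) g| ≤ 1 := fun g =>
    abs_mul_le_one (abs_qq g) (abs_ind_le _ _)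
  -- the bound for one vector
  have hone : ∀ w : Λ, (∀ v ∈ K, w * v = v * w) →
      (⟪Wr V w ζ, mo (fun g => qq Γ g * ind (fun h : Γ => ¬ Wall Γ R M h) g) (Wr V w ζ)⟫_ℂ).re ≤
      δ ^ 2 + ‖mo (fun g : Γ => q1 (g : G3) * ind (fun g : G3 => G23 g < M') (g : G3))
        (Wr V w ζ)‖ := by
    intro w hw
    have hreg : ‖mo (ind fun g : Γ => Reg R (g : G3)) (Wr V w ζ)‖ ≤ δ := by
      have e1 : Wr V w ζ = lam s (V (w * u)⁻¹ (dl 1)) := by
        rw [hζ, Wr_lam hV, ← Wr_xi hV, map_mul]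
        rfl
      rw [e1]
      refine le_trans (norm_mo_ind_mono (fun g hg => Reg.mono hR hg) _) (hR0 _ ?_)
      intro v hv
      have h1 := hw v hv
      have h2 := hu v hv
      have h3 : (w * u) * v = v * (w * u) := by
        rw [mul_assoc, h2, ← mul_assoc, h1, mul_assoc]
      rw [inv_mul_eq_iff_eq_mul, ← mul_assoc, h3, mul_assoc, mul_inv_cancel, mul_one]
    have hb : ∀ g : Γ, |ind (fun g : Γ => Reg R (g : G3)) g +
        q1 (g : G3) * ind (fun g : G3 => G23 g < M') (g : G3)| ≤ 1 + 1 := fun g =>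
      (abs_add_le _ _).trans (add_le_add (abs_ind_le _ _) (hlowb g))
    refine (inner_mo_re_mono hqF hb (fun g => ?_) (Wr V w ζ)).trans ?_
    · have hq0 := q1_nonneg (g : G3)
      have hq1 := q1_le_one (g : G3)
      change q1 (g : G3) * _ ≤ _
      by_cases hE : Wall Γ R M g
      · rw [ind_neg (P := fun h : Γ => ¬ Wall Γ R M h) (fun h => h hE), mul_zero]
        exact add_nonneg (ind_nonneg _ _) (mul_nonneg hq0 (ind_nonneg _ _))
      · rw [ind_pos (P := fun h : Γ => ¬ Wall Γ R M h) hE, mul_one]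
        by_cases h23 : G23 (g : G3) < M'
        · rw [ind_pos (P := fun g : G3 => G23 g < M') h23, mul_one]
          linarith [ind_nonneg (fun g : Γ => Reg R (g : G3)) g]
        · rw [not_lt] at h23
          have h12 : R < G12 (g : G3) := by
            by_contra h
            exact hE ⟨not_lt.mp h, (by rw [hM']; exact le_max_left _ _ : M ≤ M').trans h23⟩
          have hReg : Reg R (g : G3) :=
            ⟨h12.le, (by rw [hM']; exact le_max_right _ _ : R ≤ M').trans h23⟩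
          rw [ind_pos (P := fun g : Γ => Reg R (g : G3)) hReg]
          have := mul_nonneg hq0 (ind_nonneg (fun g : G3 => G23 g < M') (g : G3))
          linarith
    · rw [mo_add (abs_ind_le _) hlowb, inner_add_right, Complex.add_re]
      refine add_le_add ?_ ?_
      · have e2 : (⟪Wr V w ζ, mo (ind fun g : Γ => Reg R (g : G3)) (Wr V w ζ)⟫_ℂ).re =
            ‖mo (ind fun g : Γ => Reg R (g : G3)) (Wr V w ζ)‖ ^ 2 := by
          rw [inner_mo (abs_ind_le _), Complex.ofReal_re, norm_mo_sq (abs_ind_le _)]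
          refine tsum_congr fun g => ?_
          congr 1
          unfold ind
          split_ifs <;> norm_num
        rw [e2]
        have := norm_nonneg (mo (ind fun g : Γ => Reg R (g : G3)) (Wr V w ζ))
        gcongr
      · refine (Complex.re_le_norm _).trans ((norm_inner_le_norm _ _).trans ?_)
        rw [norm_W hV, hζn, one_mul]
  have hzi : ∀ k, ∀ v ∈ K, (z k)⁻¹ * v = v * (z k)⁻¹ := by
    intro k v hv
    have := hz k v hv
    rw [inv_mul_eq_iff_eq_mul, ← mul_assoc, this, mul_assoc, mul_inv_cancel, mul_one]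
  have l1 := (Complex.continuous_re.tendsto _).comp (pi2_spec (U := Uf) (z := z) hV hqF ζ ζ)
  have l2 := (tendsto_const_nhds (x := δ ^ 2 + δ ^ 2) (f := (Uf : Filter ℕ))).add (s1.add s2)
  rw [add_zero, add_zero] at l2
  have hfin : δ ^ 2 + δ ^ 2 = ε := by rw [hδ]; ring
  rw [hfin] at l2
  refine le_of_tendsto_of_tendsto l1 l2 (Eventually.of_forall fun k => ?_)
  simp only [Function.comp_apply, Complex.add_re]
  have a1 := hone (z k) (hz k)
  have a2 := hone (z k)⁻¹ (hzi k)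
  linarith

end Vale.Agent.P092.H859
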