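import Vale.Agent.P092.H859.Good
import Vale.Agent.P092.H859.Far
import Vale.Agent.P092.H859.BalMul
import Vale.Agent.P092.H859.Ks
import Vale.Agent.P092.H859.CommH
import Vale.Agent.P092.H859.Mass
import Vale.Agent.P092.H859.Lin

/-!
P092 (helper859): for `Γ ≤ SL_3(ℤ)` and `L(Γ) ≅ L(Λ)`, of two commuting subgroups `K₀`, `K₁` of `Λ`
such that `K₁` has an infinite abelian subgroup, one is amenable.
-/

set_option linter.all false

open scoped InnerProductSpace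
open Filter Topology ContinuousLinearMap

namespace Vale.Agent.P092.H859

open Vale.Agent.P092.H160 Vale.Agent.P092.H132 Vale.Agent.P092.H732 Vale.Agent.P092.H553
  Vale.Agent.P092.H200

variable {Γ : Subgroup G3} {Λ : Type} [Group Λ] {V : Λ →* (Ell2 Γ →L[ℂ] Ell2 Γ)}

theorem good_pi2 (hV : Frame V) {K₀ K₁ : Subgroup Λ} (hc : Conf V K₀)
    (hK : ∀ v ∈ K₀, ∀ w ∈ K₁, v * w = w * v) {A : Subgroup Λ} (hA : Vertex A) (hAK : A ≤ K₁)
    {z : ℕ → Λ} (hz : SeqIn A z) : Good V K₁ (Pi2 Uf V z (qq Γ)) := by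
  have h1 := pi2_total (Γ := Γ) hV hA hz
  have hz0 : ∀ k, ∀ v ∈ K₀, z k * v = v * z k := fun k v hv => (hK v hv _ (hAK (hz.1 k))).symm
  have hfar : ∀ (H : Γ → ℝ) (L : ℝ), LipN H L → ∀ a b, Far Uf V z z (qq Γ) H a b := by
    intro H L hL a b
    exact far_of_lip hV (smallOf hV) hc hz0 hz0 hz.2 hz.2 hL a b
  have hqF : ∀ (F : Γ → ℝ) (C : ℝ), (∀ g, |F g| ≤ C) → ∀ g, |qq Γ g * F g| ≤ C := by
    intro F C hF g
    rw [abs_mul]
    exact (mul_le_of_le_one_left (abs_nonneg _) (abs_qq g)).trans (hF g)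
  refine ⟨h1, ?_, ?_, ?_, ?_, ?_, ?_, ?_, ?_, ?_⟩
  · intro s F C hF
    exact pi2_sum hV s F (fun b g => hqF (F b) C (hF b) g)
  · intro c d F G C hF hG
    exact pi2_lin hV abs_qq c d F G C hF hG
  · intro F G C D hF hG hle ξ
    exact pi2_mono hV (fun g => (qq_mem g).1) (hqF F C hF) (hqF G D hG) hle ξ
  · intro F hF ξ η
    exact pi2_symm' hV (hqF F 1 hF) ξ η
  · intro F hF ξ
    exact pi2_ks hV qq_mem h1 hF ξ
  · intro F hF s ξ
    exact pi2_lam hV hz.2 hF s ξ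
  · intro H f L hH hf hL
    exact bal_mul_comm hV (sepEst hV) Uf z qq_mem hH hf h1 (hfar H L hL)
  · intro H L hH hL u hu
    exact comm_lip hV hc hz0 hz.2 h1 hH hL u (fun v hv => (hK v hv u hu).symm)
  · intro s ε hε
    obtain ⟨R0, hR0⟩ := mass_le hV hc s hε
    exact ⟨R0, fun R hR M u hu => hR0 R hR M z hz0 hz.2 u (fun v hv => (hK v hv u hu).symm)⟩

/-- Theorem N. -/
theorem mean_N (Γ : Subgroup G3) {Λ : Type} [Group Λ] {V : Λ →* (Ell2 Γ →L[ℂ] Ell2 Γ)}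
    (hV : Frame V) (K₀ K₁ : Subgroup Λ) (hK₀ : NoMean K₀)
    (hK : ∀ v ∈ K₀, ∀ w ∈ K₁, v * w = w * v) (A : Subgroup Λ) (hA : Vertex A) (hAK : A ≤ K₁) :
    ∃ m : Set Λ → ℝ, IsInvMean K₁ m := by
  obtain ⟨z, hz⟩ := exists_seqIn hA.1
  exact mean_of_good hV K₁ _ (good_pi2 hV (conf_of_noMean Γ hV K₀ hK₀) hK hA hAK hz)

theorem not_split (Γ : Subgroup G3) {Λ : Type} [Group Λ] {V : Λ →* (Ell2 Γ →L[ℂ] Ell2 Γ)}
    (hV : Frame V) : ¬ Split Λ := by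
  rintro ⟨K₀, K₁, y, h0, h1, hc, hy, hy'⟩
  refine h1 (mean_N Γ hV K₀ K₁ h0 hc (Subgroup.zpowers y) (vertex_zpowers hy') ?_)
  rwa [Subgroup.zpowers_le]

end Vale.Agent.P092.H859
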