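import Vale.Agent.P092.H553.Balance
import Vale.Agent.P092.H859.Fin

/-!
P092 (helper859): from asymptotically covariant families of operators to invariant means.
-/

set_option linter.all false

open scoped InnerProductSpace
open Filter Topology ContinuousLinearMap

namespace Vale.Agent.P092.H859

open Vale.Agent.P092.H160 Vale.Agent.P092.H553

variable {Γ Λ : Type} [Group Γ] [Group Λ] {V : Λ →* (Ell2 Γ →L[ℂ] Ell2 Γ)}

section hat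

/-- The vector of the coordinates of `ξ` in the basis `V_w δ_e`, cut to `A`. -/
noncomputable def eA (hV : Frame V) (A : Set Λ) (ξ : Ell2 Γ) : Ell2 Λ :=
  mo (ind fun w => w ∈ A) (hV.reg.basis.repr ξ)

variable (hV : Frame V)

include hV

theorem repr_apply (ξ : Ell2 Γ) (w : Λ) :
    (hV.reg.basis.repr ξ : Ell2 Λ) w = ⟪V w (dl 1), ξ⟫_ℂ := by
  rw [HilbertBasis.repr_apply_apply, hV.reg.basis_apply]

theorem eA_apply (A : Set Λ) (ξ : Ell2 Γ) (w : Λ) :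
    eA hV A ξ w = (ind (fun w => w ∈ A) w : ℝ) * ⟪V w (dl 1), ξ⟫_ℂ := by
  rw [eA, mo_apply (abs_ind_le _), repr_apply hV]

theorem eA_sub (A : Set Λ) (ξ η : Ell2 Γ) : eA hV A (ξ - η) = eA hV A ξ - eA hV A η := by
  rw [eA, map_sub, map_sub]; rfl

theorem eA_add (A : Set Λ) (ξ η : Ell2 Γ) : eA hV A (ξ + η) = eA hV A ξ + eA hV A η := by
  rw [eA, map_add, map_add]; rfl

theorem norm_eA_le (A : Set Λ) (ξ : Ell2 Γ) : ‖eA hV A ξ‖ ≤ ‖ξ‖ := by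
  refine (norm_mo_le (abs_ind_le _) _).trans ?_
  rw [one_mul, LinearIsometryEquiv.norm_map]

theorem norm_eA_univ (ξ : Ell2 Γ) : ‖eA hV Set.univ ξ‖ = ‖ξ‖ := by
  have h1 : (ind fun w : Λ => w ∈ (Set.univ : Set Λ)) = fun _ => (1 : ℝ) := by
    funext w
    exact ind_pos (Set.mem_univ w)
  rw [eA, h1, mo_one, LinearIsometryEquiv.norm_map]

theorem norm_eA_sq (A : Set Λ) (ξ : Ell2 Γ) :
    ‖eA hV A ξ‖ ^ 2 = ∑' w, ind (fun w => w ∈ A) w * ‖⟪V w (dl 1), ξ⟫_ℂ‖ ^ 2 := by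
  rw [eA, norm_mo_sq (abs_ind_le _)]
  refine tsum_congr fun w => ?_
  rw [repr_apply hV]
  congr 1
  unfold ind; split_ifs <;> norm_num

theorem summable_eA (A : Set Λ) (ξ : Ell2 Γ) :
    Summable fun w => ind (fun w => w ∈ A) w * ‖⟪V w (dl 1), ξ⟫_ℂ‖ ^ 2 := by
  refine Summable.of_nonneg_of_le (fun w => mul_nonneg (ind_nonneg _ _) (by positivity))
    (fun w => ?_) (hV.reg.summable_coeff ξ)
  exact mul_le_of_le_one_left (by positivity) (ind_le_one _ _)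

theorem norm_eA_union (A B : Set Λ) (h : Disjoint A B) (ξ : Ell2 Γ) :
    ‖eA hV (A ∪ B) ξ‖ ^ 2 = ‖eA hV A ξ‖ ^ 2 + ‖eA hV B ξ‖ ^ 2 := by
  rw [norm_eA_sq, norm_eA_sq, norm_eA_sq, ← (summable_eA hV A ξ).tsum_add (summable_eA hV B ξ)]
  refine tsum_congr fun w => ?_
  rw [← add_mul]
  congr 1
  by_cases hA : w ∈ A
  · have hB : w ∉ B := fun hB => Set.disjoint_left.mp h hA hB
    rw [ind_pos (P := fun w => w ∈ A ∪ B) (Or.inl hA), ind_pos (P := fun w => w ∈ A) hA,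
      ind_neg (P := fun w => w ∈ B) hB, add_zero]
  · by_cases hB : w ∈ B
    · rw [ind_pos (P := fun w => w ∈ A ∪ B) (Or.inr hB), ind_neg (P := fun w => w ∈ A) hA,
        ind_pos (P := fun w => w ∈ B) hB, zero_add]
    · rw [ind_neg (P := fun w => w ∈ A ∪ B) (fun h => h.elim hA hB),
        ind_neg (P := fun w => w ∈ A) hA, ind_neg (P := fun w => w ∈ B) hB, zero_add]

/-- The coordinates of `W_u ξ`. -/
theorem inner_W_hat (u w : Λ) (ξ : Ell2 Γ) :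
    ⟪V w (dl 1), Wr V u ξ⟫_ℂ = ⟪V (w * u) (dl 1), ξ⟫_ℂ := by
  rw [(regRep_W hV).inner_right, ← VW_apply hV, Wr_xi hV, inv_inv, map_mul]
  rfl

theorem norm_eA_W (A : Set Λ) (u : Λ) (ξ : Ell2 Γ) :
    ‖eA hV {w | w * u ∈ A} ξ‖ = ‖eA hV A (Wr V u⁻¹ ξ)‖ := by
  refine (pow_left_inj₀ (norm_nonneg _) (norm_nonneg _) two_ne_zero).mp ?_
  rw [norm_eA_sq, norm_eA_sq, ← Equiv.tsum_eq (Equiv.mulRight u)
    (fun w => ind (fun w => w ∈ A) w * ‖⟪V w (dl 1), Wr V u⁻¹ ξ⟫_ℂ‖ ^ 2)]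
  refine tsum_congr fun w => ?_
  rw [inner_W_hat hV, Equiv.coe_mulRight, mul_inv_cancel_right]
  rfl

/-- `eA` as a bounded operator. -/
noncomputable def opA (A : Set Λ) : Ell2 Γ →L[ℂ] Ell2 Λ :=
  (mo (ind fun w => w ∈ A)).comp
    (hV.reg.basis.repr.toContinuousLinearEquiv : Ell2 Γ →L[ℂ] Ell2 Λ)

theorem opA_apply (A : Set Λ) (ξ : Ell2 Γ) : opA hV A ξ = eA hV A ξ := rfl

end hat

section sums

variable {E F : Type} [NormedAddCommGroup E] [InnerProductSpace ℂ E]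

theorem sum_inner_le {ι : Type} (s : Finset ι) (x y : ι → E) :
    ‖∑ i ∈ s, ⟪x i, y i⟫_ℂ‖ ≤
      Real.sqrt (∑ i ∈ s, ‖x i‖ ^ 2) * Real.sqrt (∑ i ∈ s, ‖y i‖ ^ 2) := by
  refine (norm_sum_le _ _).trans ?_
  refine (Finset.sum_le_sum fun i _ => norm_inner_le_norm (x i) (y i)).trans ?_
  exact Real.sum_mul_le_sqrt_mul_sqrt s (fun i => ‖x i‖) (fun i => ‖y i‖)

theorem sq_add_le (x y : E) : ‖x + y‖ ^ 2 ≤ 2 * ‖x‖ ^ 2 + 2 * ‖y‖ ^ 2 := by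
  have h1 := norm_add_le x y
  have h2 := norm_nonneg (x + y)
  nlinarith [sq_nonneg (‖x‖ - ‖y‖)]

theorem half_sq_le (x y : E) : ‖(1 / 2 : ℂ) • (x + y)‖ ^ 2 ≤ (‖x‖ ^ 2 + ‖y‖ ^ 2) / 2 := by
  rw [norm_smul, mul_pow]
  have h1 := sq_add_le x y
  have h2 : ‖(1 / 2 : ℂ)‖ ^ 2 = 1 / 4 := by norm_num
  rw [h2]
  linarith

theorem half_par (x y : E) : ‖(1 / 2 : ℂ) • (x + y)‖ ^ 2 =
    (‖x‖ ^ 2 + ‖y‖ ^ 2) / 2 - ‖x - y‖ ^ 2 / 4 := by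
  rw [norm_smul, mul_pow]
  have h1 := parallelogram_law_with_norm ℂ x y
  have h2 : ‖(1 / 2 : ℂ)‖ ^ 2 = 1 / 4 := by norm_num
  rw [h2]
  nlinarith

/-- The inverse triangle inequality for finite families. -/
theorem sqrt_sum_sub_le {ι : Type} (s : Finset ι) (x y : ι → E) :
    |Real.sqrt (∑ i ∈ s, ‖x i‖ ^ 2) - Real.sqrt (∑ i ∈ s, ‖y i‖ ^ 2)| ≤
      Real.sqrt (∑ i ∈ s, ‖x i - y i‖ ^ 2) := by
  have key : ∀ x y : ι → E, Real.sqrt (∑ i ∈ s, ‖x i‖ ^ 2) ≤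
      Real.sqrt (∑ i ∈ s, ‖y i‖ ^ 2) + Real.sqrt (∑ i ∈ s, ‖x i - y i‖ ^ 2) := by
    intro x y
    have h0 : 0 ≤ Real.sqrt (∑ i ∈ s, ‖y i‖ ^ 2) + Real.sqrt (∑ i ∈ s, ‖x i - y i‖ ^ 2) :=
      add_nonneg (Real.sqrt_nonneg _) (Real.sqrt_nonneg _)
    refine Real.sqrt_le_iff.mpr ⟨h0, ?_⟩
    have h1 : ∀ i ∈ s, ‖x i‖ ^ 2 ≤ ‖y i‖ ^ 2 + ‖x i - y i‖ ^ 2 + 2 * (‖y i‖ * ‖x i - y i‖) := by
      intro i _
      have h2 : ‖x i‖ ≤ ‖y i‖ + ‖x i - y i‖ := by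
        have := norm_add_le (y i) (x i - y i)
        rwa [add_sub_cancel] at this
      have h3 := norm_nonneg (x i)
      nlinarith
    have h4 := Real.sum_mul_le_sqrt_mul_sqrt s (fun i => ‖y i‖) (fun i => ‖x i - y i‖)
    calc ∑ i ∈ s, ‖x i‖ ^ 2 ≤ ∑ i ∈ s, (‖y i‖ ^ 2 + ‖x i - y i‖ ^ 2 +
          2 * (‖y i‖ * ‖x i - y i‖)) := Finset.sum_le_sum h1
      _ = ∑ i ∈ s, ‖y i‖ ^ 2 + ∑ i ∈ s, ‖x i - y i‖ ^ 2 +
          2 * ∑ i ∈ s, ‖y i‖ * ‖x i - y i‖ := by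
          rw [Finset.sum_add_distrib, Finset.sum_add_distrib, ← Finset.mul_sum]
      _ ≤ _ := by
          have e1 := Real.sq_sqrt (Finset.sum_nonneg fun i (_ : i ∈ s) => sq_nonneg ‖y i‖)
          have e2 := Real.sq_sqrt (Finset.sum_nonneg fun i (_ : i ∈ s) => sq_nonneg ‖x i - y i‖)
          nlinarith
  have h1 := key x y
  have h2 := key y x
  have h3 : ∑ i ∈ s, ‖y i - x i‖ ^ 2 = ∑ i ∈ s, ‖x i - y i‖ ^ 2 :=
    Finset.sum_congr rfl fun i _ => by rw [norm_sub_rev]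
  rw [h3] at h2
  rw [abs_le]
  constructor <;> linarith

end sums

end Vale.Agent.P092.H859
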