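import Vale.Agent.P092.H801.IJ
import Vale.Agent.P092.H776.Leg1
import Vale.Agent.P092.H43.Loc2
import Vale.Agent.P092.H43.Slow
import Vale.Agent.P092.H357.Sep3
import Vale.Agent.P092.H357.Sep2
import Vale.Agent.P092.H21.InstB
import Vale.Agent.P092.H541.EscA
import Vale.Agent.P092.H859.CNE
import Vale.Agent.P092.SD.Tw

/-!
P092 (helper859), Team N, block [N-EX]: the row model over a lattice `Γ` of an arbitrary locally
compact second countable group `E`, as a picture `RC.Pic`, with its multiplication operators: all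
the fields of `CN.Src` except the geometry.
-/

set_option linter.all false

open scoped InnerProductSpace ENNReal
open Filter Topology ContinuousLinearMap MeasureTheory TopologicalSpace

namespace Vale.Agent.P092.H859.RowE

open Vale.Agent.P092.SR Vale.Agent.P092.H160
open Vale.Agent.P092.H432 (lx ep mp ARep)
open Vale.Agent.P092.RC
open Vale.Agent.P092.H859.CL (Leg Slow Esc Full Sym st Fn pw)
open Vale.Agent.P092.H801 (K0 JP piV Vp JU arep_Vp EV covFam_EV EV_lx JP_pi JP_lx₁ JP_lx₂ JP_ind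
  JP_mp JP_om bas)

section tw

variable {G Γ K K' : Type} [Group G] [TopologicalSpace G] [Group Γ]
  [NormedAddCommGroup K] [InnerProductSpace ℂ K] [CompleteSpace K]
  [NormedAddCommGroup K'] [InnerProductSpace ℂ K'] [CompleteSpace K']
  {u : K ≃ₗᵢ[ℂ] K'} {π : G →* (K →L[ℂ] K)} {lam : Γ →* (K →L[ℂ] K)}
  {W : Set (K →L[ℂ] K)} {Ω : K} {π' : G →* (K' →L[ℂ] K')} {lam' : Γ →* (K' →L[ℂ] K')}
  {W' : Set (K' →L[ℂ] K')} {Ω' : K'}

theorem cj_symm_cj (u : K ≃ₗᵢ[ℂ] K') (T : K →L[ℂ] K) : RC.cj u.symm (RC.cj u T) = T := by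
  ext ξ
  rw [LinearIsometryEquiv.conjStarAlgEquiv_apply_apply,
    LinearIsometryEquiv.conjStarAlgEquiv_apply_apply]
  simp

theorem tw_symm (t : RC.Tw u π lam W Ω π' lam' W' Ω') :
    RC.Tw u.symm π' lam' W' Ω' π lam W Ω where
  pi g := by rw [t.pi, cj_symm_cj]
  lam γ := by rw [t.lam, cj_symm_cj]
  W := by
    rw [t.W, Set.image_image]
    ext T
    constructor
    · intro h
      exact ⟨T, h, cj_symm_cj u T⟩
    · rintro ⟨S, hS, rfl⟩
      change RC.cj u.symm (RC.cj u S) ∈ W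
      rw [cj_symm_cj]
      exact hS
  Om := by rw [t.Om, u.symm_apply_apply]

end tw

section con

variable {E : Type} [Group E] [TopologicalSpace E] [IsTopologicalGroup E] [LocallyCompactSpace E]
  [SecondCountableTopology E] [T2Space E] [MeasurableSpace E] [BorelSpace E]
  {Γ : Subgroup E} [DiscreteTopology Γ] [MeasurableSpace (E ⧸ Γ)] [BorelSpace (E ⧸ Γ)]
  {ν : Measure (E ⧸ Γ)} [IsProbabilityMeasure ν] [Countable Γ]
  (hν : ∀ g : E, ν.map (fun x => g • x) = ν)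
  {Λ : Type} [Group Λ] {α : Γ →* (Ell2 Λ →L[ℂ] Ell2 Λ)} (hα : Frame α)

theorem Vp_one : Vp hα 1 = 1 := by
  rw [Vp, map_one]
  exact H761.cj_one

/-- the source representation on the row model -/
noncomputable def piR : E →* (K0 ν →L[ℂ] K0 ν) where
  toFun g := piV hν hα g
  map_one' := H776.Leg1.ri_one' (H85.cdat ν hν) (arep_Vp hα) (Vp_one hα)
  map_mul' g h := (H21.rep_ri (H85.cdat ν hν) (arep_Vp hα)).mul g h

/-- the target, first leg, on the row model -/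
noncomputable def lamR (ν : Measure (E ⧸ Γ)) [IsProbabilityMeasure ν] :
    Γ →* (K0 ν →L[ℂ] K0 ν) where
  toFun γ := H790.lxt ν (γ, (1 : Γ))
  map_one' := H790.lxt_one
  map_mul' γ γ' := by rw [← H790.lxt_mul, Prod.mk_mul_mk, one_mul]

/-- the coefficients on the row model -/
def WR : Set (K0 ν →L[ℂ] K0 ν) := H776.Leg1.WL (H85.cdat ν hν) Γ Γ Unit

/-- the constant field -/
noncomputable def omR (ν : Measure (E ⧸ Γ)) [IsProbabilityMeasure ν] : K0 ν := H790.ept ν ()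

/-- the multiplication operators -/
noncomputable def mpR (ν : Measure (E ⧸ Γ)) [IsProbabilityMeasure ν] (F : Γ → ℝ) :
    K0 ν →L[ℂ] K0 ν := (H538.fst (H790.baseL ν (Γ × Γ) Unit)).mp F

theorem cj_JP_eq {S : K0 ν →L[ℂ] K0 ν} {T : KK ν Λ →L[ℂ] KK ν Λ}
    (h : ∀ ξ, JP ν hα (S ξ) = T (JP ν hα ξ)) : RC.cj (JP ν hα) S = T := by
  ext1 ξ
  obtain ⟨η, rfl⟩ := (JP ν hα).surjective ξ
  rw [cj_ap, h]

/-- **The row model and the picture.** -/
theorem twR : RC.Tw (JP ν hα) (piR hν hα) (lamR ν) (WR hν) (omR ν) (RC.pic hν hα) (lam₁ ν α)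
    (XX ν Λ ∪ Set.range (lam₂ ν α)) (Om ν Λ) where
  pi g := (cj_JP_eq hα (JP_pi hν hα g)).symm
  lam γ := (cj_JP_eq hα (JP_lx₁ hα γ)).symm
  W := by
    have h1 : ∀ S : Set (E ⧸ Γ), MeasurableSet S → RC.cj (JP ν hα) (H790.ind ν _ S) =
        H790.ind ν (Ell2 (Λ × Λ)) S := fun S hS => cj_JP_eq hα (JP_ind hα hS)
    have h2 : ∀ γ : Γ, RC.cj (JP ν hα) (H790.lxt ν ((1 : Γ), γ)) = lam₂ ν α γ := fun γ =>
      cj_JP_eq hα (JP_lx₂ hα γ)
    ext T
    constructor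
    · rintro (⟨S, hS, rfl⟩ | ⟨γ, rfl⟩)
      · exact ⟨_, Or.inl ⟨S, hS, rfl⟩, h1 S hS⟩
      · exact ⟨_, Or.inr ⟨γ, rfl⟩, h2 γ⟩
    · rintro ⟨_, (⟨S, hS, rfl⟩ | ⟨γ, rfl⟩), rfl⟩
      · exact Or.inl ⟨S, hS, h1 S hS⟩
      · exact Or.inr ⟨γ, (h2 γ).symm⟩
  Om := (JP_om hα ()).symm

/-- The masks of the picture. -/
theorem cj_st (S : Set Γ) : RC.cj (JP ν hα) (st (mpR ν) S) = H368.mm ν (bas hα) Prod.fst S :=
  cj_JP_eq hα (JP_mp hα S)

theorem picR (hP : Pic (RC.pic hν hα) (lam₁ ν α) (XX ν Λ ∪ Set.range (lam₂ ν α)) (Om ν Λ)) :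
    Pic (piR hν hα) (lamR ν) (WR hν) (omR ν) := SD.tw_pic (tw_symm (twR hν hα)) hP

theorem legR : Leg (mpR ν) (fun g => piR hν hα g) (fun γ => lamR ν γ) (WR hν) :=
  H776.Leg1.leg_row (H85.cdat ν hν) (arep_Vp hα) (Vp_one hα)

theorem bfl_sub : H43.BfL ν (Γ × Γ) Unit ⊆ H357.BdL2 ν Γ Γ Unit := by
  intro ζ hζ
  have h0 : ∀ᵐ x ∂ν, H43.LB (ζ x : Ell2 ((Γ × Γ) × Unit)) := hζ
  have h1 : ∀ᵐ x ∂ν, H357.B2 (ζ x : Ell2 ((Γ × Γ) × Unit)) := by
    filter_upwards [h0] with x hx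
    exact hx.b2
  exact h1

theorem slowR : Slow (mpR ν) (fun g => piR hν hα g) (H357.BdL2 ν Γ Γ Unit) :=
  H43.slow (H85.cdat ν hν) (H43.ccont_cdat ν hν) (fun v => (arep_Vp hα).opNorm_le v) (Vp_one hα)
    fun ζ hζ => by
      have h0 : ∀ᵐ x ∂ν, H357.B2 (ζ x : Ell2 ((Γ × Γ) × Unit)) := hζ
      filter_upwards [h0] with x hx
      exact H357.B2.norm_le hx

theorem locR : H43.Loc2 (mpR ν) (fun g => piR hν hα g) (H357.BdL2 ν Γ Γ Unit)
    (H43.BfL ν (Γ × Γ) Unit) := H43.loc2 (H85.cdat ν hν) (arep_Vp hα) (bfl_sub (ν := ν))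

theorem omR_bf : omR ν ∈ H43.BfL ν (Γ × Γ) Unit := H43.bfl_ept ()

theorem escR {b : E} (hb : Tendsto (fun n : ℕ => b ^ n) atTop (cocompact E))
    (Bd : Set (K0 ν)) : Esc (st (mpR ν)) (fun g => piR hν hα g) Bd (Subgroup.zpowers b) (pw b) :=
  H541.esc_pow Γ ν hν (arep_Vp hα) (covFam_EV hα) (fun A q => EV_lx hα A q) hb Bd

theorem escR' {b : E} (hb : Tendsto (fun n : ℕ => b ^ n) atTop (cocompact E))
    (Bd : Set (K0 ν)) : Esc (st (mpR ν)) (fun g => piR hν hα g) Bd (Subgroup.zpowers b) (pw b⁻¹) :=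
  H541.esc_pow_inv Γ ν hν (arep_Vp hα) (covFam_EV hα) (fun A q => EV_lx hα A q) hb Bd

theorem symR : Sym (mpR ν) (fun g => piR hν hα g) (omR ν) := fun u P =>
  H357.sym_one (H538.trep_fst (H790.trep (H85.cdat ν hν) (arep_Vp hα))) u P

end con

end Vale.Agent.P092.H859.RowE
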