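import Vale.Agent.P092.H859.SXT
import Vale.Agent.P092.H859.ExB
import Vale.Agent.P092.H725.SN.Leg2
import Vale.Agent.P092.H448.TF5

/-!
P092 (helper859), Team N with two fields (`SX`), block [SX-EX], `t = 1`: the first and the second
leg of the concrete picture over an admissible source group `E` over `kS`, target field `k`, in the
letters of `SX/Defs`; change of the family of sets; transport along a unitary.
-/

set_option linter.all false

open scoped InnerProductSpace ENNReal LinearAlgebra.Projectivization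
open Filter Topology ContinuousLinearMap MeasureTheory TopologicalSpace

namespace Vale.Agent.P092.H859.SXN

open Vale.Agent.P092.H160 Vale.Agent.P092.SR
open Vale.Agent.P092.H859.CL (Full pw st st)
open Vale.Agent.P092.H859.TgN
open Vale.Agent.P092.H859.ExN (PosO pos_of_om)
open Vale.Agent.P092.H859.ExB (tg_zero fin_ct inj_ct)
open Vale.Agent.P092.H859.SXT
open Vale.Agent.P092.RC (Cm TRN Moore GG PG YY y0 ct KK pic lam₁ lam₂ XX Om Tw cj cj_ap cm_cj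
  norm_cj)
open Vale.Agent.P092.SN (CY CG nm NW Att act PH UD NWA Adm bw un)
open Vale.Agent.P092.H100.Gr (Gr)
open Vale.Agent.P092.H76.Pur (NIS)
open Vale.Agent.P092.H368.SN (ZA z0 Cz GeoE pow_cocompact)
open Vale.Agent.P092.H368.SN.NT (SrcEF)
open Vale.Agent.P092.H805.Row (mpE JE)
open Vale.Agent.P092.H805.RowN
open Vale.Agent.P092.SD (cjH tw_pic tw_ms tw_uc surj_vec cj_surj cj_norm_ap)
open Vale.Agent.P092.H859.TwN (tw_orbg tw_sizeg cjN cjN_ap)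

theorem picX_of {G Γ K : Type} [Group G] [TopologicalSpace G] [Group Γ] [NormedAddCommGroup K]
    [InnerProductSpace ℂ K] [CompleteSpace K] {π : G →* (K →L[ℂ] K)} {lam : Γ →* (K →L[ℂ] K)}
    {W : Set (K →L[ℂ] K)} {Ω : K} (h : RC.Pic π lam W Ω) : RC.PicX π lam W Ω :=
  { h with inv := ⟨Ω, h.nΩ, h.inv⟩ }

/-! ### Change of the family of sets -/

section mono

variable {kS k : Type} [NontriviallyNormedField kS] [ProperSpace kS] [NontriviallyNormedField k]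
  [ProperSpace k] {N : ℕ} {E Γ K : Type} [Group E]
  [TopologicalSpace E] [Group Γ] [NormedAddCommGroup K] [InnerProductSpace ℂ K] [CompleteSpace K]
  {w : kSˣ} {ι : GG kS N →* E} {a a' : E →* PG kS (N + 1)} {π : E →* (K →L[ℂ] K)}
  {lam : Γ →* (K →L[ℂ] K)} {W : Set (K →L[ℂ] K)} {Ω : K} {m : Set Γ → (K →L[ℂ] K)}
  {q : Γ → GG k N} {Z Z' : ℝ → Set Γ}

/-- every set of the first family is contained in a set of the second one -/
def Dom (Z Z' : ℝ → Set Γ) : Prop := ∀ R : ℝ, ∃ R' : ℝ, Z R ⊆ Z' R'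

theorem nwr_mono {R R' : ℝ} (hR : R ≤ R') {h : GG k N} (hh : NW R h) : NW R' h :=
  hh.trans (mul_le_mul_of_nonneg_right hR (norm_nonneg _))

theorem nws_dom (hm : ∀ {S T : Set Γ}, S ⊆ T → ∀ x : K, ‖m S x‖ ≤ ‖m T x‖) (hmo : Monotone Z')
    (hZ : Dom Z Z') (h : SX.NWS w ι π Ω m q Z) : SX.NWS w ι π Ω m q Z' := by
  intro g ε hε
  obtain ⟨R, hR⟩ := h g ε hε
  obtain ⟨R', hR'⟩ := hZ R
  refine ⟨max R R', fun t => (hm ?_ _).trans (hR t)⟩
  intro γ hγ hc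
  exact hγ ⟨hmo (le_max_right _ _) (hR' hc.1), nwr_mono (le_max_left _ _) hc.2⟩

theorem efam_dom {Ec : YY kS N → (CY k N →⋆ₐ[ℂ] (K →L[ℂ] K))}
    (hm : ∀ {S T : Set Γ}, S ⊆ T → ∀ x : K, ‖m S x‖ ≤ ‖m T x‖) (hmo : Monotone Z')
    (hZ : Dom Z Z') (h : SX.EFam w ι a π lam W m q Z Ec) : SX.EFam w ι a π lam W m q Z' Ec where
  cm := h.cm
  cov := h.cov
  pcov := h.pcov
  dom := fun g u A hA hu ζ ε hε => by
    obtain ⟨R, hR⟩ := h.dom g u A hA hu ζ ε hε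
    obtain ⟨R', hR'⟩ := hZ R
    refine ⟨max R R', fun T hT => ?_⟩
    filter_upwards [hR T hT] with t ht
    refine ht.trans (add_le_add_left (mul_le_mul_of_nonneg_left ?_ (norm_nonneg _)) _)
    refine hm ?_ _
    exact fun γ hγ => ⟨hmo (le_max_right _ _) (hR' hγ.1), nwr_mono (le_max_left _ _) hγ.2.1,
      hγ.2.2⟩
  agr := h.agr

/-- **A leg for another family of sets.** -/
theorem legX_dom [MeasurableSpace kS] {μ : Measure kS}
    {Ec F : YY kS N → (CY k N →⋆ₐ[ℂ] (K →L[ℂ] K))} (hZ : Dom Z Z') (hmo : Monotone Z')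
    (hu : ∀ R, UD q (Z' R)) (h : SX.LegN μ w ι a a' π lam W Ω m q Z Ec F) :
    SX.LegN μ w ι a a' π lam W Ω m q Z' Ec F :=
  { h with
    zm := hmo
    ud := hu
    nws := nws_dom (fun hS x => H790.CT.ms_mono h.ms hS x) hmo hZ h.nws
    nws' := nws_dom (fun hS x => H790.CT.ms_mono h.ms hS x) hmo hZ h.nws'
    e := efam_dom (fun hS x => H790.CT.ms_mono h.ms hS x) hmo hZ h.e
    f := efam_dom (fun hS x => H790.CT.ms_mono h.ms hS x) hmo hZ h.f }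

/-- **A leg with a family of vectors, for another family of sets.** -/
theorem legXF_dom {κ : Type} [Fintype κ] {Ω : κ → K} [MeasurableSpace kS] {μ : Measure kS}
    {Ec F : YY kS N → (CY k N →⋆ₐ[ℂ] (K →L[ℂ] K))} (hZ : Dom Z Z') (hmo : Monotone Z')
    (hu : ∀ R, UD q (Z' R)) (h : SX.LegNF μ w ι a a' π lam W Ω m q Z Ec F) :
    SX.LegNF μ w ι a a' π lam W Ω m q Z' Ec F :=
  { h with
    zm := hmo
    ud := hu
    nws := fun i => nws_dom (fun hS x => h.ms.mono hS x) hmo hZ (h.nws i)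
    nws' := fun i => nws_dom (fun hS x => h.ms.mono hS x) hmo hZ (h.nws' i)
    e := efam_dom (fun hS x => h.ms.mono hS x) hmo hZ h.e
    f := efam_dom (fun hS x => h.ms.mono hS x) hmo hZ h.f }

end mono

/-! ### Transport along a unitary -/

section tw

variable {kS k : Type} [NontriviallyNormedField kS] [ProperSpace kS] [NontriviallyNormedField k]
  [ProperSpace k] {N : ℕ} {K K' : Type}
  [NormedAddCommGroup K] [InnerProductSpace ℂ K] [CompleteSpace K]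
  [NormedAddCommGroup K'] [InnerProductSpace ℂ K'] [CompleteSpace K'] {u : K ≃ₗᵢ[ℂ] K'}
  {E Γ : Type} [Group E] [TopologicalSpace E] [Group Γ]
  {π : E →* (K →L[ℂ] K)} {lam : Γ →* (K →L[ℂ] K)}
  {W : Set (K →L[ℂ] K)} {Ω : K} {π' : E →* (K' →L[ℂ] K')} {lam' : Γ →* (K' →L[ℂ] K')}
  {W' : Set (K' →L[ℂ] K')} {Ω' : K'} {w : kSˣ} {q : Γ → GG k N} {Z : ℝ → Set Γ}
  {m : Set Γ → (K →L[ℂ] K)} {ι : GG kS N →* E} {a a' : E →* PG kS (N + 1)}

theorem tw_nws (t : Tw u π lam W Ω π' lam' W' Ω') (h : SX.NWS w ι π Ω m q Z) :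
    SX.NWS w ι π' Ω' (fun S => cj u (m S)) q Z := by
  intro g ε hε
  obtain ⟨R, hR⟩ := h g ε hε
  refine ⟨R, fun N => ?_⟩
  rw [t.pi, t.Om, cj_ap, cj_norm_ap]
  exact hR N

theorem tw_efam {Ec : YY kS N → (CY k N →⋆ₐ[ℂ] (K →L[ℂ] K))}
    (t : Tw u π lam W Ω π' lam' W' Ω') (h : SX.EFam w ι a π lam W m q Z Ec) :
    SX.EFam w ι a π' lam' W' (fun S => cj u (m S)) q Z fun x => cjN u (Ec x) where
  cm x f := by
    rw [t.W, cjN_ap]
    exact (cm_cj u).2 (h.cm x f)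
  cov γ x f := by
    rw [cjN_ap, cjN_ap, t.lam, t.lam, ← map_mul, ← map_mul, h.cov]
  pcov g x f := by
    rw [cjN_ap, cjN_ap, t.pi, t.pi, ← map_mul, ← map_mul, h.pcov]
  dom g v A hA hv ζ ε hε := by
    obtain ⟨ζ, rfl⟩ := surj_vec u ζ
    obtain ⟨R, hR⟩ := h.dom g v A hA hv ζ ε hε
    refine ⟨R, fun T hT => ?_⟩
    filter_upwards [hR T hT] with N hN
    rw [cjN_ap, t.pi, cj_norm_ap, cj_ap, cj_norm_ap]
    exact hN
  agr x y hab ξ hξ := by
    obtain ⟨η, rfl⟩ := surj_vec u ξ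
    rw [h.agr x y hab η fun f => ?_, map_zero]
    have h1 := hξ f
    rw [cjN_ap, cjN_ap, cj_ap, cj_ap] at h1
    exact u.injective h1

/-- **Transport of a leg.** -/
theorem tw_legX [MeasurableSpace kS] {μ : Measure kS}
    {Ec F : YY kS N → (CY k N →⋆ₐ[ℂ] (K →L[ℂ] K))} (t : Tw u π lam W Ω π' lam' W' Ω')
    (hp : RC.PicX π' lam' W' Ω')
    (h : SX.LegN μ w ι a a' π lam W Ω m q Z Ec F) :
    SX.LegN μ w ι a a' π' lam' W' Ω' (fun S => cj u (m S)) q Z (fun x => cjN u (Ec x))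
      fun x => cjN u (F x) where
  adm := h.adm
  hw := h.hw
  pic := hp
  ms := tw_ms t h.ms
  uc := tw_uc t h.uc
  ph := h.ph
  zm := h.zm
  ud := h.ud
  orb hj := by
    obtain ⟨ρ, h1, h2, h3⟩ := h.orb hj
    exact ⟨ρ, h1, h2, tw_orbg t h3⟩
  orb' hj := by
    obtain ⟨ρ, h1, h2, h3⟩ := h.orb' hj
    exact ⟨ρ, h1, h2, tw_orbg t h3⟩
  size := tw_sizeg t h.size
  size' := tw_sizeg t h.size'
  nws := tw_nws t h.nws
  nws' := tw_nws t h.nws'
  e := tw_efam t h.e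
  f := tw_efam t h.f
  nis := h.nis

end tw

/-! ### The concrete picture -/

section leg

variable {kS k : Type} [NontriviallyNormedField kS] [ProperSpace kS] [NontriviallyNormedField k]
  [ProperSpace k] {N : ℕ}
  {E : Type} [Group E] [TopologicalSpace E] [IsTopologicalGroup E] [LocallyCompactSpace E]
  [SecondCountableTopology E] [T2Space E] [MeasurableSpace E] [BorelSpace E]
  {Γ : Subgroup E} [DiscreteTopology Γ] [Countable Γ] [MeasurableSpace (E ⧸ Γ)]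
  [BorelSpace (E ⧸ Γ)] {ν : Measure (E ⧸ Γ)} [IsProbabilityMeasure ν]
  (hν : ∀ g : E, ν.map (fun x => g • x) = ν)
  {Λ : Type} [Group Λ] [Countable Λ] {α : Γ →* (Ell2 Λ →L[ℂ] Ell2 Λ)} (hα : Frame α)
  {ι : GG kS N →* E} {a a' : E →* PG kS (N + 1)} {w : kSˣ} {q : Γ → GG k N} {ρ : Γ → ℝ}
  {Br : ℝ → Set Γ}

theorem noncptE (h : Adm ι a a') (hw : ‖(w : kS)‖ < 1) : NoncompactSpace E :=
  H859.ExB.noncpt h hw

/-- the source data of the frame picture -/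
theorem srcEF_frame [NoncompactSpace E]
    (hΛ : ∀ g : Λ, g ≠ 1 → Set.Infinite {y : Λ | ∃ h, y = h * g * h⁻¹})
    (had : Adm ι a a') (hw : ‖(w : kS)‖ < 1) :
    SrcEF (ι (bw w)) (pic hν hα) (lam₁ ν α) (XX ν Λ ∪ Set.range (lam₂ ν α))
      (fun _ : Unit => Om ν Λ) (mpE ν hα) (Bd ν hα) (Bf ν hα) where
  pic := H448.TF.picF_one (picE hν hα hΛ)
  mcov := mcovE hν hα
  mW := mWE hν hα
  slow := slowE hν hα
  loc := locE hν hα
  esc := fun g ξ hξ => H859.CL.tendsto_pw.1 ((escE hν hα (pow_cocompact had hw)).esc g ξ hξ)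
  esc' := fun g ξ hξ => H859.CL.tendsto_pw.1 ((escE' hν hα (pow_cocompact had hw)).esc g ξ hξ)
  sym := fun u P => by
    rw [Fintype.sum_unique, Fintype.sum_unique, symE hν hα u P]

/-- the input of the core, frame picture -/
theorem inp_frame [NoncompactSpace E]
    (hΛ : ∀ g : Λ, g ≠ 1 → Set.Infinite {y : Λ | ∃ h, y = h * g * h⁻¹})
    (had : Adm ι a a') (hw : ‖(w : kS)‖ < 1) (hz : Cz w ι a a') (hT : Tg q ρ)
    (hB₁ : ∀ r, ∃ r', CL.BB (g1 q) (g2 q ρ) r' ⊆ Br r)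
    (hB₂ : ∀ r, ∃ r', CL.BB (g1 fun γ => ct (q γ)) (g2 (fun γ => ct (q γ)) ρ) r' ⊆ Br r)
    (nrm : ∀ ε : ℝ, 0 < ε → ∃ r, ∀ u ∈ Subgroup.zpowers (ι (bw w)), msE hν hα u (Br r) ≤ ε)
    (nis : ∀ j, 1 ≤ j → j ≤ N → NIS fun (γ : Γ) (x : Gr k (Fin (N + 1)) j) => q γ • x)
    (nis' : ∀ j, 1 ≤ j → j ≤ N → NIS fun (γ : Γ) (x : Gr k (Fin (N + 1)) j) => ct (q γ) • x) :
    Inp w ι a a' (pic hν hα) (lam₁ ν α) (XX ν Λ ∪ Set.range (lam₂ ν α))
      (fun _ : Unit => Om ν Λ) (mpE ν hα) (Bd ν hα) (Bf ν hα) (msE hν hα) Br q ρ where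
  adm := had
  hw := hw
  hz := hz
  src := srcEF_frame hν hα hΛ had hw
  fin := fun ξ ε hε => finE hα ξ hε
  om := fun _ => ⟨1, _, om_Bf hα, (one_smul _ _).symm⟩
  tg := hT
  sys := sysNE hν hα (A := Subgroup.zpowers (ι (bw w))) (hT.gap2 had.hN) hB₁ nrm
  sys' := sysNE hν hα (A := Subgroup.zpowers (ι (bw w))) (hT.dual.gap2 had.hN) hB₂ nrm
  bb := hB₁
  bb' := hB₂
  nis := nis
  nis' := nis'

/-- **The first leg with two fields**, of one of the two types. -/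
theorem sx_leg_first [NoncompactSpace E] [MeasurableSpace kS] [BorelSpace kS] {μ : Measure kS}
    [μ.IsAddHaarMeasure]
    (hΛ : ∀ g : Λ, g ≠ 1 → Set.Infinite {y : Λ | ∃ h, y = h * g * h⁻¹})
    (had : Adm ι a a') (hw : ‖(w : kS)‖ < 1) (hz : Cz w ι a a') (hT : Tg q ρ)
    (hB₁ : ∀ r, ∃ r', CL.BB (g1 q) (g2 q ρ) r' ⊆ Br r)
    (hB₂ : ∀ r, ∃ r', CL.BB (g1 fun γ => ct (q γ)) (g2 (fun γ => ct (q γ)) ρ) r' ⊆ Br r)
    (nrm : ∀ ε : ℝ, 0 < ε → ∃ r, ∀ u ∈ Subgroup.zpowers (ι (bw w)), msE hν hα u (Br r) ≤ ε)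
    (hgap : H933.LeviGap (ι (bw w)))
    (nis : ∀ j, 1 ≤ j → j ≤ N → NIS fun (γ : Γ) (x : Gr k (Fin (N + 1)) j) => q γ • x)
    (nis' : ∀ j, 1 ≤ j → j ≤ N → NIS fun (γ : Γ) (x : Gr k (Fin (N + 1)) j) => ct (q γ) • x)
    (pos : PosO hν hα (g2 q ρ) (g2 (fun γ => ct (q γ)) ρ) (ι (bw w)))
    (pos' : PosO hν hα (g2 q ρ) (g2 (fun γ => ct (q γ)) ρ) (ι (bw w))⁻¹) :
    ∃ q' : Γ → GG k N, (q' = q ∨ q' = fun γ => ct (q γ)) ∧
      ∃ Ec F : YY kS N → (CY k N →⋆ₐ[ℂ] (KK ν Λ →L[ℂ] KK ν Λ)),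
      SX.LegN μ w ι a a' (pic hν hα) (lam₁ ν α) (XX ν Λ ∪ Set.range (lam₂ ν α)) (Om ν Λ)
        (H103.mS₁ ν hα) q' (ZZ ρ) Ec F := by
  have hN := had.hN
  have hI := inp_frame hν hα hΛ had hw hz hT hB₁ hB₂ nrm nis nis'
  have hgs : ∀ s : Γ, ∃ C, ∀ x, |g2 q ρ (s * x) - g2 q ρ x| ≤ C ∧
      |g2 (fun γ => ct (q γ)) ρ (s * x) - g2 (fun γ => ct (q γ)) ρ x| ≤ C := fun s => by
    obtain ⟨C, hC⟩ := hT.gap2 hN s 1
    obtain ⟨C', hC'⟩ := hT.dual.gap2 hN s 1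
    refine ⟨max C C', fun x => ⟨?_, ?_⟩⟩
    · have := (hC x).2
      rw [mul_one] at this
      exact this.trans (le_max_left _ _)
    · have := (hC' x).2
      rw [mul_one] at this
      exact this.trans (le_max_right _ _)
  obtain ⟨q', hq', Ec, F, ho⟩ := hI.first (pos_of_om hν hα hΛ hgs pos)
    (pos_of_om hν hα hΛ hgs pos')
  refine ⟨q', hq', Ec, F, ?_⟩
  have hT' : Tg q' ρ := by
    rcases hq' with rfl | rfl
    · exact hT
    · exact hT.dual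
  have hL := H725.SN.legB2₁ (μ := μ) hν hα hΛ had hw hT'.sn_ph hgap
  have nis'' : ∀ j, 1 ≤ j → j ≤ N → NIS fun (γ : Γ) (x : Gr k (Fin (N + 1)) j) => q' γ • x := by
    rcases hq' with rfl | rfl
    · exact nis
    · exact nis'
  rw [st_eq] at ho
  exact
    { adm := had
      hw := hw
      pic := picX_of (picE hν hα hΛ)
      ms := hL.ms
      uc := hL.uc
      ph := hT'.sn_ph
      zm := zz_mono ρ
      ud := fun R => hT'.ud R
      orb := hL.orb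
      orb' := hL.orb'
      size := hL.size
      size' := hL.size'
      nws := ho.nws ()
      nws' := ho.nws' ()
      e := ho.e
      f := ho.f
      nis := nis'' }

/-- **The second leg** is the flip of the first one. -/
theorem sx_leg_second [NoncompactSpace E] [MeasurableSpace kS] {μ : Measure kS}
    (hΛ : ∀ g : Λ, g ≠ 1 → Set.Infinite {y : Λ | ∃ h, y = h * g * h⁻¹}) {m : Set Γ → _}
    {Z : ℝ → Set Γ} {Ec F : YY kS N → (CY k N →⋆ₐ[ℂ] (KK ν Λ →L[ℂ] KK ν Λ))}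
    (h : SX.LegN μ w ι a a' (pic hν hα) (lam₁ ν α) (XX ν Λ ∪ Set.range (lam₂ ν α)) (Om ν Λ)
      m q Z Ec F) :
    SX.LegN μ w ι a a' (pic hν hα) (lam₂ ν α) (XX ν Λ ∪ Set.range (lam₁ ν α)) (Om ν Λ)
      (fun S => cj (SD.flK ν Λ) (m S)) q Z (fun x => cjN (SD.flK ν Λ) (Ec x))
      fun x => cjN (SD.flK ν Λ) (F x) :=
  tw_legX (SD.tw_flK hν hα) (picX_of (H34.PicC.pic2 hν hα hΛ).leg₂) h

end leg

end Vale.Agent.P092.H859.SXN
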