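import Vale.Agent.P092.SX.Defs
import Vale.Agent.P092.H859.ExN
import Vale.Agent.P092.H962.NT.SrcEF
import Vale.Agent.P092.H962.NT.AgrF

/-!
P092 (helper859), Team N with two fields (`SX`), block [SX-EX]: the core of one leg. Source field
`kS`, target field `k`, a picture with a finite family of vectors (`PicF`), any Hilbert space. From
the source data `SrcEF`, the absence of regular mass (`SysF`), the positions and the absence of
invariant states to the calculi (`SX.EFam`) and the near-wall mass (`SX.NWS`).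
-/

set_option linter.all false

open scoped InnerProductSpace ENNReal LinearAlgebra.Projectivization
open Filter Topology ContinuousLinearMap MeasureTheory TopologicalSpace

namespace Vale.Agent.P092.H859.SXT

open Vale.Agent.P092.H337.NG (Siz bp)
open Vale.Agent.P092.H859.CL (FF Full Sym Slow Esc Leg st Prj pw tendsto_pw pw_mem)
open Vale.Agent.P092.H859.TgN
open Vale.Agent.P092.H859.SrcG
open Vale.Agent.P092.H859.ExN (actQ actQ_smul ccsQ nis_pt nis_hyp)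
open Vale.Agent.P092.RC (Cm TRN Moore GG PG YY y0 ct PicF)
open Vale.Agent.P092.SN (CY CG nm NW Att act PH UD NWA Adm bw un)
open Vale.Agent.P092.H100.Gr (Gr)
open Vale.Agent.P092.H76.Pur (NIS)
open Vale.Agent.P092.H368.SN (ZA z0 Cz GeoE geoE_of_adm pow_cocompact)
open Vale.Agent.P092.H368.SN.NT (SrcEF dicho_picEF two_famEF)
open Vale.Agent.P092.H962.NT (agr_grF)

/-! ### Conversions -/

section conv

variable {kS k : Type} [NontriviallyNormedField kS] [ProperSpace kS] [NontriviallyNormedField k]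
  [ProperSpace k] {N : ℕ} {E Γ K : Type} [Group E]
  [Group Γ] [NormedAddCommGroup K] [InnerProductSpace ℂ K] [CompleteSpace K]
  {w : kSˣ} {ι : GG kS N →* E} {a : E →* PG kS (N + 1)} {π : E →* (K →L[ℂ] K)}
  {lam : Γ →* (K →L[ℂ] K)} {W : Set (K →L[ℂ] K)} {m : Set Γ → (K →L[ℂ] K)}
  {q : Γ → GG k N} {Z : ℝ → Set Γ} {F : YY kS N → (CY k N →⋆ₐ[ℂ] (K →L[ℂ] K))}

/-- The family of calculi in the letters of `SX`. -/
theorem efam_of_fam [MulAction E (YY kS N)] (hE : ∀ (e : E) (x : YY kS N), e • x = a e • x)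
    [MulAction Γ (YY k N)] (hact : ∀ (γ : Γ) (x : YY k N), γ • x = q γ • x)
    (hcomp : ∀ g (x : YY kS N), a (ι g) • x = g • x)
    (h : CN.Fam (ι (bw w)) π lam W m (NWA q Z) (y0 : YY kS N) F)
    (hagr : ∀ x y, x ≠ y → ∀ ξ, (∀ f, F x f ξ = F y f ξ) → ξ = 0) :
    SX.EFam w ι a π lam W m q Z F where
  cm := h.cm
  cov := fun γ x f => h.cov γ x f (SN.act (q γ) f) fun y => by
    change f ((q γ)⁻¹ • (γ • y)) = f y
    rw [hact, inv_smul_smul]
  pcov := fun e x f => by rw [h.pcov, hE]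
  dom := fun g u A _ hu ζ ε hε => by
    obtain ⟨R, hR⟩ := h.dom (ι g) u A hu ζ ε hε
    refine ⟨R, fun T hT => ?_⟩
    have e1 : ι g • (y0 : YY kS N) = g • y0 := by rw [hE, hcomp]
    filter_upwards [hR T hT] with t ht
    rw [e1] at ht
    have e2 : ι (g * bw w ^ t * g⁻¹) = ι g * ι (bw w) ^ t * (ι g)⁻¹ := by
      rw [map_mul, map_mul, map_pow, map_inv]
    rw [e2]
    exact ht
  agr := hagr

/-- The hyperplane calculi. -/
theorem efam_of_fam' {a' : E →* PG kS (N + 1)} [MulAction E (YY kS N)]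
    (hE : ∀ (e : E) (x : YY kS N), e • x = a' e • x)
    [MulAction Γ (YY k N)] (hact : ∀ (γ : Γ) (x : YY k N), γ • x = q γ • x)
    (hcomp : ∀ g (x : YY kS N), a' (ι g) • x = ct g • x)
    (h : CN.Fam (ι (bw w))⁻¹ π lam W m (NWA q Z) (y0 : YY kS N) F)
    (hagr : ∀ x y, x ≠ y → ∀ ξ, (∀ f, F x f ξ = F y f ξ) → ξ = 0) :
    SX.EFam w (ι.comp ct) a' π lam W m q Z F := by
  refine efam_of_fam hE hact (ι := ι.comp ct) (fun g x => ?_) ?_ hagr
  · change a' (ι (ct g)) • x = g • x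
    rw [hcomp, H859.TgN.ct_ct]
  · have e : (ι.comp ct) (bw w) = (ι (bw w))⁻¹ := by
      change ι (ct (bw w)) = _
      rw [ct_bw, map_inv]
    rw [e]
    exact h

/-- Agreement. -/
theorem agr_fam {κ : Type} [Fintype κ] {Ω : κ → K} [TopologicalSpace E] [MulAction E (YY kS N)]
    [MulAction Γ (YY k N)] [ContinuousConstSMul Γ (YY k N)] (hP : PicF π lam W Ω)
    {b : E} {NA : ℝ → ℝ → Set (YY k N) → Set Γ} {z0 : YY kS N}
    (h : CN.Fam b π lam W m NA z0 F) (hNI : NIS fun (γ : Γ) (y : YY k N) => γ • y)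
    (hM : ∀ x y : YY kS N, Moore {e : E | e • x = x ∧ e • y = y})
    (hgen : ∀ x y : YY kS N, x ≠ y →
      Subgroup.closure ({e : E | e • x = x} ∪ {e : E | e • y = y}) = ⊤) :
    ∀ x y, x ≠ y → ∀ ξ, (∀ f, F x f ξ = F y f ξ) → ξ = 0 := by
  intro x y hxy
  have hinv' : ∀ g : E, π g⁻¹ * π g = 1 := fun g => by rw [← map_mul, inv_mul_cancel, map_one]
  refine agr_grF (E := F) hP h.cm (act := fun (γ : Γ) (y : YY k N) => γ • y) hNI
    (fun γ f => ?_) (fun γ X f f' hf => h.cov γ X f f' hf) (fun g X f => ?_) (hM x y) (hgen x y hxy)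
  · refine ⟨⟨fun y => f (γ⁻¹ • y), f.continuous.comp (continuous_const_smul _)⟩, fun y => ?_⟩
    change f (γ⁻¹ • γ • y) = f y
    rw [inv_smul_smul]
  · rw [← h.pcov g X f, mul_assoc, hinv', mul_one]

/-- (NWS), from the fullness of the leg. -/
theorem nws_of [TopologicalSpace E] {Br : ℝ → Set Γ} {Bd Bf : Set K} {ms : E → Set Γ → ℝ}
    {ρ : Γ → ℝ} {b : E} {Ω : K} (hb : ι (bw w) = b) (hN : 2 ≤ N) (hT : Tg q ρ)
    (h : CN.Sys m (fun g => π g) Bd ms (Subgroup.zpowers b) Br (g1 q) (g2 q ρ))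
    (hf : Full m (fun g => π g) (g1 q) (g2 q ρ) (pw b⁻¹))
    (hfin : ∀ ξ, ∀ ε : ℝ, 0 < ε → ∃ F : Finset Γ, ‖m ((F : Set Γ))ᶜ ξ‖ ≤ ε)
    (hloc : ∀ v, H107.LocAt m (π v) Bf) (hmap : ∀ v, ∀ ζ ∈ Bf, π v ζ ∈ Bf)
    (hΩ : ∃ c : ℂ, ∃ η ∈ Bf, Ω = c • η) :
    SX.NWS w ι π Ω m q (ZZ ρ) := by
  obtain ⟨c, η, hη, rfl⟩ := hΩ
  intro g ε hε
  have hpw : (pw b⁻¹ : Filter E) = map (fun N : ℕ => (b ^ N)⁻¹) atTop := by
    rw [pw]
    congr 1
    funext N
    rw [inv_pow]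
  rw [hpw] at hf
  obtain ⟨R, hR⟩ := H632.NwsN.nws_abs h (b := b)
    (fun N => (Subgroup.zpowers b).inv_mem (Subgroup.pow_mem _ (Subgroup.mem_zpowers b) N)) hf hfin
    hloc hmap (fun u => by
      obtain ⟨C, hC⟩ := hT.gap2 hN 1 u
      exact ⟨C, fun g => by simpa using (hC g).2⟩) (P := fun R => {γ | γ ∈ ZZ ρ R ∧ NW R (q γ)})
    (fun r => by
      obtain ⟨R, hR⟩ := Tg.nw (q := q) (ρ := ρ) hN r
      exact ⟨R, fun γ hγ => hR γ hγ⟩) hη (ι g) (show 0 < ε / (‖c‖ + 1) by positivity)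
  refine ⟨R, fun t => ?_⟩
  have e2 : ι (g * bw w ^ t * g⁻¹) = ι g * b ^ t * (ι g)⁻¹ := by
    rw [map_mul, map_mul, map_pow, map_inv, hb]
  rw [e2]
  have h1 := hR t
  rw [le_div_iff₀ (by positivity)] at h1
  rw [map_smul, map_smul, norm_smul]
  refine le_trans ?_ h1
  rw [mul_comm]
  refine mul_le_mul_of_nonneg_left ?_ (norm_nonneg _)
  linarith [norm_nonneg c]

end conv

/-! ### The core -/

section core

variable {kS k : Type} [NontriviallyNormedField kS] [ProperSpace kS] [NontriviallyNormedField k]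
  [ProperSpace k] {N : ℕ} {E Γ K κ : Type} [Group E] [TopologicalSpace E] [Group Γ]
  [NormedAddCommGroup K] [InnerProductSpace ℂ K] [CompleteSpace K] [Fintype κ]
  {w : kSˣ} {ι : GG kS N →* E} {a a' : E →* PG kS (N + 1)} {π : E →* (K →L[ℂ] K)}
  {lam : Γ →* (K →L[ℂ] K)} {W : Set (K →L[ℂ] K)} {Ω : κ → K}
  {mp : (Γ → ℝ) → (K →L[ℂ] K)} {Bd Bf : Set K} {ms : E → Set Γ → ℝ} {Br : ℝ → Set Γ}
  {q : Γ → GG k N} {ρ : Γ → ℝ}

/-- The input of the core: source data, target data, no regular mass, no invariant states. -/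
structure Inp (w : kSˣ) (ι : GG kS N →* E) (a a' : E →* PG kS (N + 1)) (π : E →* (K →L[ℂ] K))
    (lam : Γ →* (K →L[ℂ] K)) (W : Set (K →L[ℂ] K)) (Ω : κ → K) (mp : (Γ → ℝ) → (K →L[ℂ] K))
    (Bd Bf : Set K) (ms : E → Set Γ → ℝ) (Br : ℝ → Set Γ) (q : Γ → GG k N) (ρ : Γ → ℝ) :
    Prop where
  adm : Adm ι a a'
  hw : ‖(w : kS)‖ < 1
  hz : Cz w ι a a'
  src : SrcEF (ι (bw w)) π lam W Ω mp Bd Bf
  fin : ∀ ξ, ∀ ε : ℝ, 0 < ε → ∃ F : Finset Γ, ‖st mp ((F : Set Γ))ᶜ ξ‖ ≤ ε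
  om : ∀ i, ∃ c : ℂ, ∃ η ∈ Bf, Ω i = c • η
  tg : Tg q ρ
  sys : CN.SysF mp (fun g => π g) Bd ms (Subgroup.zpowers (ι (bw w))) Br (g1 q) (g2 q ρ)
  sys' : CN.SysF mp (fun g => π g) Bd ms (Subgroup.zpowers (ι (bw w))) Br
    (g1 fun γ => ct (q γ)) (g2 (fun γ => ct (q γ)) ρ)
  bb : ∀ r, ∃ r', CL.BB (g1 q) (g2 q ρ) r' ⊆ Br r
  bb' : ∀ r, ∃ r', CL.BB (g1 fun γ => ct (q γ)) (g2 (fun γ => ct (q γ)) ρ) r' ⊆ Br r
  nis : ∀ j, 1 ≤ j → j ≤ N → NIS fun (γ : Γ) (x : Gr k (Fin (N + 1)) j) => q γ • x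
  nis' : ∀ j, 1 ≤ j → j ≤ N → NIS fun (γ : Γ) (x : Gr k (Fin (N + 1)) j) => ct (q γ) • x

/-- the target of the other type -/
theorem Inp.dual (h : Inp w ι a a' π lam W Ω mp Bd Bf ms Br q ρ) :
    Inp w ι a a' π lam W Ω mp Bd Bf ms Br (fun γ => ct (q γ)) ρ := by
  have ec : (fun γ => ct (ct (q γ))) = q := funext fun γ => H859.TgN.ct_ct (q γ)
  exact
    { adm := h.adm
      hw := h.hw
      hz := h.hz
      src := h.src
      fin := h.fin
      om := h.om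
      tg := h.tg.dual
      sys := h.sys'
      sys' := by rw [ec]; exact h.sys
      bb := h.bb'
      bb' := by rw [ec]; exact h.bb
      nis := h.nis'
      nis' := fun j h1 h2 => by
        have e : (fun (γ : Γ) (x : Gr k (Fin (N + 1)) j) => ct (ct (q γ)) • x) =
            fun (γ : Γ) (x : Gr k (Fin (N + 1)) j) => q γ • x := by
          funext γ x
          rw [H859.TgN.ct_ct]
        rw [e]
        exact h.nis j h1 h2 }

/-- The output of the core: the calculi and the near-wall mass. -/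
structure Out (w : kSˣ) (ι : GG kS N →* E) (a a' : E →* PG kS (N + 1)) (π : E →* (K →L[ℂ] K))
    (lam : Γ →* (K →L[ℂ] K)) (W : Set (K →L[ℂ] K)) (Ω : κ → K) (m : Set Γ → (K →L[ℂ] K))
    (q : Γ → GG k N) (Z : ℝ → Set Γ) (Ec F : YY kS N → (CY k N →⋆ₐ[ℂ] (K →L[ℂ] K))) :
    Prop where
  nws : ∀ i, SX.NWS w ι π (Ω i) m q Z
  nws' : ∀ i, SX.NWS w (ι.comp ct) π (Ω i) m (fun γ => ct (q γ)) Z
  e : SX.EFam w ι a π lam W m q Z Ec
  f : SX.EFam w (ι.comp ct) a' π lam W m (fun γ => ct (q γ)) Z F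

/-- **One leg from the fullness.** -/
theorem Inp.case (h : Inp w ι a a' π lam W Ω mp Bd Bf ms Br q ρ)
    (hf₁ : Full (st mp) (fun g => π g) (g1 q) (g2 q ρ) (pw (ι (bw w))⁻¹))
    (hf₂ : Full (st mp) (fun g => π g) (g1 fun γ => ct (q γ))
      (g2 (fun γ => ct (q γ)) ρ) (pw (ι (bw w)))) :
    ∃ Ec F : YY kS N → (CY k N →⋆ₐ[ℂ] (K →L[ℂ] K)),
      Out w ι a a' π lam W Ω (st mp) q (ZZ ρ) Ec F := by
  have had := h.adm
  have hN := had.hN
  have hT := h.tg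
  have h₁ := h.sys
  have h₂ := h.sys'
  have hloc : ∀ v, H107.LocAt (st mp) (π v) Bf := fun v => H43.loc_at h.src.loc v
  -- near-wall
  have n1 : ∀ i, SX.NWS w ι π (Ω i) (st mp) q (ZZ ρ) := fun i =>
    nws_of (b := ι (bw w)) rfl hN hT h₁.sys hf₁ h.fin hloc h.src.loc.map (h.om i)
  have n2 : ∀ i, SX.NWS w (ι.comp ct) π (Ω i) (st mp) (fun γ => ct (q γ)) (ZZ ρ) := fun i => by
    refine nws_of (b := (ι (bw w))⁻¹) ?_ hN hT.dual
      (h₂.sys.mono (by rw [Subgroup.zpowers_inv])) ?_ h.fin hloc h.src.loc.map (h.om i)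
    · change ι (ct (bw w)) = _
      rw [H859.TgN.ct_bw, map_inv]
    · rw [inv_inv]; exact hf₂
  -- the families
  letI i1 : MulAction Γ (YY k N) := actQ q hT.sn_ph
  letI i2 : MulAction Γ (YY k N) := actQ (fun γ => ct (q γ)) hT.dual.sn_ph
  have g₁ := @Tg.geoF k _ N Γ _ _ q ρ hT hN i1 (fun γ x => actQ_smul q hT.sn_ph γ x) Br h.bb
  have g₂ := @Tg.geoF k _ N Γ _ _ _ ρ hT.dual hN i2
    (fun γ x => actQ_smul _ hT.dual.sn_ph γ x) Br h.bb'
  obtain ⟨F₁, F₂, hF₁, hF₂⟩ := @two_famEF E Γ (YY k N) (YY k N) (ZA a) (ZA a')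
    K κ _ _ _ _ _ _ _ i1 _ _ i2 _ _ _ _ (ι (bw w)) π lam
    W Ω mp Bd Bf ms
    (z0 a) (z0 a') Br (NWA q (ZZ ρ)) (NWA (fun γ => ct (q γ)) (ZZ ρ)) (g1 q) (g2 q ρ)
    (g1 fun γ => ct (q γ)) (g2 (fun γ => ct (q γ)) ρ) (fun γ => bp (q γ))
    (fun γ => bp (ct (q γ))) h.src (geoE_of_adm had h.hw h.hz) h₁ h₂ g₁ g₂
    (Tg.cut (q := q) (ρ := ρ) hN) (Tg.cut (q := fun γ => ct (q γ)) (ρ := ρ) hN) hf₁ hf₂
  have nis₁ : NIS fun (γ : Γ) (x : YY k N) => q γ • x := nis_pt (h.nis 1 le_rfl (by omega))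
  have nis₂ : NIS fun (γ : Γ) (x : YY k N) => ct (q γ) • x := nis_hyp (h.nis N (by omega) le_rfl)
  have ag₁ := @agr_fam kS k _ _ _ _ N E Γ K _ _ _ _ _ π lam
    W (st mp) F₁ κ _ Ω _
    (MulAction.compHom (YY kS N) a) i1 (ccsQ q hT.sn_ph) h.src.pic _ _ _ hF₁ (by
      have e : (fun (γ : Γ) (x : YY k N) => i1.smul γ x) =
        fun (γ : Γ) (x : YY k N) => q γ • x := by
        funext γ x; exact actQ_smul q hT.sn_ph γ x
      change NIS (fun (γ : Γ) (x : YY k N) => i1.smul γ x)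
      rw [e]
      exact nis₁) (moore_pts had) (gen_pts had)
  have ag₂ := @agr_fam kS k _ _ _ _ N E Γ K _ _ _ _ _ π lam
    W (st mp) F₂ κ _ Ω _
    (MulAction.compHom (YY kS N) a') i2 (ccsQ (fun γ => ct (q γ)) hT.dual.sn_ph) h.src.pic _ _ _
    hF₂ (by
      have e : (fun (γ : Γ) (x : YY k N) => i2.smul γ x) =
        fun (γ : Γ) (x : YY k N) => ct (q γ) • x := by
        funext γ x; exact actQ_smul _ hT.dual.sn_ph γ x
      change NIS (fun (γ : Γ) (x : YY k N) => i2.smul γ x)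
      rw [e]
      exact nis₂) (moore_hyps had) (gen_hyps had)
  have e₁ : SX.EFam w ι a π lam W (st mp) q (ZZ ρ) F₁ :=
    @efam_of_fam kS k _ _ _ _ N E Γ K _ _ _ _ _ w ι a π lam
      W (st mp) q (ZZ ρ) F₁
      (MulAction.compHom (YY kS N) a) (fun e x => rfl) i1 (fun γ x => actQ_smul q hT.sn_ph γ x)
      had.comp hF₁ ag₁
  have e₂ : SX.EFam w (ι.comp ct) a' π lam W (st mp) (fun γ => ct (q γ)) (ZZ ρ) F₂ :=
    @efam_of_fam' kS k _ _ _ _ N E Γ K _ _ _ _ _ w ι π lam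
      W (st mp) (fun γ => ct (q γ)) (ZZ ρ) F₂ a'
      (MulAction.compHom (YY kS N) a') (fun e x => rfl) i2
      (fun γ x => actQ_smul _ hT.dual.sn_ph γ x) had.comp' hF₂ ag₂
  exact ⟨F₁, F₂, n1, n2, e₁, e₂⟩

/-- **The leg**, of one of the two types, from the positions. -/
theorem Inp.first (h : Inp w ι a a' π lam W Ω mp Bd Bf ms Br q ρ)
    (pos : CN.Pos (st mp) (fun g => π g) (g2 q ρ) (g2 (fun γ => ct (q γ)) ρ) (pw (ι (bw w))))
    (pos' : CN.Pos (st mp) (fun g => π g) (g2 q ρ) (g2 (fun γ => ct (q γ)) ρ)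
      (pw (ι (bw w))⁻¹)) :
    ∃ q' : Γ → GG k N, (q' = q ∨ q' = fun γ => ct (q γ)) ∧
      ∃ Ec F : YY kS N → (CY k N →⋆ₐ[ℂ] (K →L[ℂ] K)),
      Out w ι a a' π lam W Ω (st mp) q' (ZZ ρ) Ec F := by
  have had := h.adm
  have hN := had.hN
  have hT := h.tg
  have S := h.src
  obtain ⟨C, hC⟩ := hT.gaps hN
  letI i1 : MulAction Γ (YY k N) := actQ q hT.sn_ph
  have g₁ := @Tg.geoF k _ N Γ _ _ q ρ hT hN i1 (fun γ x => actQ_smul q hT.sn_ph γ x) Br h.bb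
  have nis₁ : NIS fun (γ : Γ) (x : YY k N) => γ • x := by
    have e : (fun (γ : Γ) (x : YY k N) => i1.smul γ x) =
      fun (γ : Γ) (x : YY k N) => q γ • x := by
      funext γ x; exact actQ_smul q hT.sn_ph γ x
    change NIS (fun (γ : Γ) (x : YY k N) => i1.smul γ x)
    rw [e]
    exact nis_pt (h.nis 1 le_rfl (by omega))
  have hG := geoE_of_adm had h.hw h.hz
  rcases dicho_picEF S.pic (b := ι (bw w)) h.sys g₁ S.mcov S.mW S.slow S.esc1 S.esc2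
    (H43.N.lu1_cn h.sys S.loc g₁.fin S.esc1)
    (H43.N.lu1_cn h.sys S.loc g₁.fin S.esc2)
    pos pos' S.sym hC nis₁ hG.moore hG.moore' hG.cl with ⟨k1, k2⟩ | ⟨k1, k2⟩
  · have ec : (fun γ => ct (ct (q γ))) = q := funext fun γ => H859.TgN.ct_ct (q γ)
    refine ⟨fun γ => ct (q γ), Or.inr rfl, ?_⟩
    refine h.dual.case k2 ?_
    rw [ec]
    exact k1
  · exact ⟨q, Or.inl rfl, h.case k2 k1⟩

end core

end Vale.Agent.P092.H859.SXT
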