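import Vale.Agent.P092.H242.TPair
import Vale.Agent.P092.H132.MassX
import Vale.Agent.P092.L.H538.PropA
import Vale.Agent.P092.L.H658.T2
import Vale.Agent.P092.L.H428.Cutoff

/-!
P092 (helper859): confinement in the abstract row model: elements of the centralizer of `K` have
uniformly little mass far out in the regular region, if `K` is not amenable.
-/

set_option linter.all false

open scoped InnerProductSpace
open Filter Topology ContinuousLinearMap

namespace Vale.Agent.P092.H859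

open Vale.Agent.P092.H160 Vale.Agent.P092.H132
open Vale.Agent.P092.H538 (Usm CutOff Amen ind ind_nonneg ind_le_one abs_ind_le ind_pos ind_neg)
open Vale.Agent.P092.H242 (PData)

section pdata

variable {Γ : Type} [Group Γ] {U : Ultrafilter ℕ} {χ : ℕ → Γ → ℝ}

theorem BB_eq [DecidableEq Γ] (B : Finset Γ) (s : Γ) :
    BB B s = B ∪ B.image (fun b => s⁻¹ * b) := by
  ext b
  simp only [BB, Finset.mem_union, Finset.mem_image]

theorem sqrt_diff_sq {x y : ℝ} (hx : 0 ≤ x) (hy : 0 ≤ y) :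
    (Real.sqrt x - Real.sqrt y) ^ 2 ≤ |x - y| := by
  have e1 := Real.sq_sqrt hx
  have e2 := Real.sq_sqrt hy
  have p1 := Real.sqrt_nonneg x
  have p2 := Real.sqrt_nonneg y
  obtain ⟨a, ha⟩ : ∃ a, a = Real.sqrt x := ⟨_, rfl⟩
  obtain ⟨b, hb⟩ : ∃ b, b = Real.sqrt y := ⟨_, rfl⟩
  rw [← ha] at e1 p1 ⊢
  rw [← hb] at e2 p2 ⊢
  rw [← e1, ← e2]
  rcases le_total a b with h | h
  · have : |a ^ 2 - b ^ 2| = b ^ 2 - a ^ 2 := by
      rw [abs_sub_comm, abs_of_nonneg]; nlinarith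
    rw [this]; nlinarith
  · have : |a ^ 2 - b ^ 2| = a ^ 2 - b ^ 2 := abs_of_nonneg (by nlinarith)
    rw [this]; nlinarith

theorem two_sq (x y a b : ℝ) (hb : 0 ≤ b) (ha : 0 ≤ a) :
    (x * Real.sqrt a - y * Real.sqrt b) ^ 2 ≤ 2 * ((x - y) ^ 2 * a) + 2 * (y ^ 2 * |a - b|) := by
  have h1 := sqrt_diff_sq ha hb
  have h2 := Real.sq_sqrt ha
  have h3 : x * Real.sqrt a - y * Real.sqrt b =
      (x - y) * Real.sqrt a + y * (Real.sqrt a - Real.sqrt b) := by ring
  have h4 : 2 * ((x - y) ^ 2 * a) + 2 * (y ^ 2 * |a - b|) ≥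
      2 * ((x - y) * Real.sqrt a) ^ 2 + 2 * (y * (Real.sqrt a - Real.sqrt b)) ^ 2 := by
    rw [mul_pow, mul_pow, h2]
    have := mul_le_mul_of_nonneg_left h1 (sq_nonneg y)
    linarith
  rw [h3]
  refine le_trans ?_ h4
  nlinarith [sq_nonneg ((x - y) * Real.sqrt a - y * (Real.sqrt a - Real.sqrt b))]

theorem pdata_of_amen [DecidableEq Γ] (hχ : CutOff U χ) {S : Finset Γ} {ε ε0 : ℝ} (hε : 0 < ε)
    (h0 : ε0 ≤ ε / 8) {B : Finset Γ} {μ : Γ → Γ → ℝ} (hA : Amen U χ S ε0 B μ) :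
    PData U S ε B (fun k b g => χ k g * Real.sqrt (μ b g))
      (fun k b g => χ k g * Real.sqrt (μ b g)) := by
  have hsq : ∀ k g, ∑ b ∈ B, (χ k g * Real.sqrt (μ b g)) ^ 2 ≤ 1 := by
    intro k g
    have h1 : ∀ b ∈ B, (χ k g * Real.sqrt (μ b g)) ^ 2 ≤ μ b g := by
      intro b _
      rw [mul_pow, Real.sq_sqrt (hA.nonneg b g)]
      have h2 : χ k g ^ 2 ≤ 1 := pow_le_one₀ (hχ.nonneg k g) (hχ.le_one k g)
      exact mul_le_of_le_one_left (hA.nonneg b g) h2
    exact (Finset.sum_le_sum h1).trans (hA.sum_le g)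
  have hμ1 : ∀ b g, μ b g ≤ 1 := by
    intro b g
    by_cases hb : b ∈ B
    · exact (Finset.single_le_sum (f := fun b => μ b g) (fun b _ => hA.nonneg b g) hb).trans
        (hA.sum_le g)
    · rw [hA.off b hb g]; exact zero_le_one
  refine ⟨fun k b g => mul_nonneg (hχ.nonneg k g) (Real.sqrt_nonneg _),
    fun k b g => mul_nonneg (hχ.nonneg k g) (Real.sqrt_nonneg _), fun k b hb g => ?_,
    fun k b hb g => ?_, hsq, hsq, fun s hs => ?_, fun b u δ hδ => ?_⟩
  · rw [hA.off b hb g, Real.sqrt_zero, mul_zero]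
  · rw [hA.off b hb g, Real.sqrt_zero, mul_zero]
  · obtain ⟨δ, hδ0, hδ1, hδ2⟩ : ∃ δ : ℝ, 0 < δ ∧ δ ≤ 1 ∧ δ ≤ ε / 4 :=
      ⟨min 1 (ε / 4), lt_min one_pos (by linarith), min_le_left _ _, min_le_right _ _⟩
    filter_upwards [hA.left s hs, hχ.left s δ hδ0] with k h1 h2 g
    have h3 : ∀ b ∈ BB B s, (χ k (s * g) * Real.sqrt (μ (s * b) (s * g)) -
        χ k g * Real.sqrt (μ b g)) ^ 2 ≤ 2 * (δ * μ (s * b) (s * g)) +
          2 * (χ k g ^ 2 * |μ (s * b) (s * g) - μ b g|) := by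
      intro b _
      refine (two_sq _ _ _ _ (hA.nonneg _ _) (hA.nonneg _ _)).trans ?_
      have h4 : (χ k (s * g) - χ k g) ^ 2 ≤ δ := by
        have h5 := h2 g
        rw [← sq_abs]
        have h6 := abs_nonneg (χ k (s * g) - χ k g)
        nlinarith
      have := mul_le_mul_of_nonneg_right h4 (hA.nonneg (s * b) (s * g))
      linarith
    refine (Finset.sum_le_sum h3).trans ?_
    rw [Finset.sum_add_distrib, ← Finset.mul_sum, ← Finset.mul_sum, ← Finset.mul_sum,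
      ← Finset.mul_sum]
    have h4 : ∑ b ∈ BB B s, μ (s * b) (s * g) ≤ 1 := by
      rw [sum_BB_right s (fun b => μ b (s * g)) (fun b hb => hA.off b hb _)]
      exact hA.sum_le _
    have h5 : χ k g ^ 2 * ∑ b ∈ BB B s, |μ (s * b) (s * g) - μ b g| ≤ ε / 8 := by
      by_cases hg : χ k g = 0
      · rw [hg]; simp; linarith
      · have h6 := h1 g hg
        rw [← BB_eq] at h6
        have h7 : χ k g ^ 2 ≤ 1 := pow_le_one₀ (hχ.nonneg k g) (hχ.le_one k g)
        have h8 : 0 ≤ ∑ b ∈ BB B s, |μ (s * b) (s * g) - μ b g| :=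
          Finset.sum_nonneg fun b _ => abs_nonneg _
        have h9 := mul_le_of_le_one_left h8 h7
        linarith
    have h6 : δ * ∑ b ∈ BB B s, μ (s * b) (s * g) ≤ δ * 1 :=
      mul_le_mul_of_nonneg_left h4 hδ0.le
    linarith
  · filter_upwards [hA.right b u (δ ^ 2 / 4) (by positivity), hχ.right u (δ / 2) (by positivity)]
      with k h1 h2 g
    have e1 : χ k (g * u) * Real.sqrt (μ b (g * u)) - χ k g * Real.sqrt (μ b g) =
        (χ k (g * u) - χ k g) * Real.sqrt (μ b (g * u)) +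
          χ k g * (Real.sqrt (μ b (g * u)) - Real.sqrt (μ b g)) := by ring
    show |χ k (g * u) * Real.sqrt (μ b (g * u)) - χ k g * Real.sqrt (μ b g)| ≤ δ
    rw [e1]
    refine (abs_add_le _ _).trans ?_
    rw [abs_mul, abs_mul, abs_of_nonneg (Real.sqrt_nonneg _), abs_of_nonneg (hχ.nonneg k g)]
    have h3 : Real.sqrt (μ b (g * u)) ≤ 1 := Real.sqrt_le_one.2 (hμ1 b _)
    have h4 : |χ k (g * u) - χ k g| * Real.sqrt (μ b (g * u)) ≤ δ / 2 * 1 :=
      mul_le_mul (h2 g) h3 (Real.sqrt_nonneg _) (by positivity)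
    have h5 : χ k g * |Real.sqrt (μ b (g * u)) - Real.sqrt (μ b g)| ≤ δ / 2 := by
      by_cases hg : χ k g = 0
      · rw [hg, zero_mul]; positivity
      · have h6 : |Real.sqrt (μ b (g * u)) - Real.sqrt (μ b g)| ≤ δ / 2 := by
          have h7 := (sqrt_diff_sq (hA.nonneg b (g * u)) (hA.nonneg b g)).trans (h1 g hg)
          have h8 := Real.abs_le_sqrt h7
          have h9 : Real.sqrt (δ ^ 2 / 4) = δ / 2 := by
            rw [show δ ^ 2 / 4 = (δ / 2) ^ 2 by ring, Real.sqrt_sq (by positivity)]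
          rwa [h9] at h8
        calc χ k g * |Real.sqrt (μ b (g * u)) - Real.sqrt (μ b g)| ≤ 1 * (δ / 2) :=
              mul_le_mul (hχ.le_one k g) h6 (abs_nonneg _) zero_le_one
          _ = δ / 2 := one_mul _
    linarith

end pdata

section conf

variable {Γ ι H D : Type} [Group Γ] [Group D] [Fintype ι] [NormedAddCommGroup H]
  [InnerProductSpace ℂ H] [CompleteSpace H] {Bs : Base Γ ι H} {t : ℝ} {R : D → (H →L[ℂ] H)}
  {U : Ultrafilter ℕ} {z : ℕ → D} {χ : ℕ → Γ → ℝ}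

theorem usm_sq (hχ : CutOff U χ) (u : Γ) :
    Usm U (fun k g => χ k (g * u) * χ k (g * u) - χ k g * χ k g) := by
  intro δ hδ
  filter_upwards [hχ.right u (δ / 2) (by positivity)] with k hk g
  have e1 : χ k (g * u) * χ k (g * u) - χ k g * χ k g =
      (χ k (g * u) - χ k g) * (χ k (g * u) + χ k g) := by ring
  show |χ k (g * u) * χ k (g * u) - χ k g * χ k g| ≤ δ
  rw [e1, abs_mul]
  have h1 : |χ k (g * u) + χ k g| ≤ 2 := by
    rw [abs_of_nonneg (add_nonneg (hχ.nonneg k _) (hχ.nonneg k _))]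
    have := hχ.le_one k (g * u)
    have := hχ.le_one k g
    linarith
  calc _ ≤ δ / 2 * 2 := mul_le_mul (hk g) h1 (abs_nonneg _) (by positivity)
    _ = δ := by ring

/-- Invariant means from mass in the support of the cutoffs. -/
theorem t_mean_of_mass [DecidableEq Γ] [Countable Γ] (hR : TRep Bs t R) {E : Set D → (H →L[ℂ] H)}
    (hE : EFamT Bs R E) (hχ : CutOff U χ) (K : Subgroup D)
    (hz : ∀ k, ∀ v ∈ K, z k * v = v * z k)
    (hA : ∀ (S : Finset Γ) (ε : ℝ), 0 < ε → ∃ (B : Finset Γ) (μ : Γ → Γ → ℝ), Amen U χ S ε B μ)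
    {c : ℝ} (hc : 0 < c)
    (hpos : ∀ᶠ k in U, c ≤ massX Bs R (z k) (fun g => χ k g * χ k g)) :
    ∃ m : Set D → ℝ, H200.IsInvMean K m := by
  have hsqb : ∀ k g, 0 ≤ χ k g * χ k g ∧ χ k g * χ k g ≤ 1 := fun k g =>
    ⟨mul_self_nonneg _, mul_le_one₀ (hχ.le_one k g) (hχ.nonneg k g) (hχ.le_one k g)⟩
  refine H242.pairing (c := c / 2) hR hE K hz (by positivity) (U := U) fun S ε hε => ?_
  obtain ⟨B, μ, hB⟩ := hA S (min (ε / 8) (1 / 2)) (lt_min (by positivity) (by norm_num))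
  refine ⟨B, _, _, pdata_of_amen hχ hε (min_le_left _ _) hB, fun v hv => ?_⟩
  have hsum : ∀ k g, ∑ b ∈ B, χ k g * Real.sqrt (μ b g) * (χ k g * Real.sqrt (μ b g)) =
      (χ k g * χ k g) * ∑ b ∈ B, μ b g := by
    intro k g
    rw [Finset.mul_sum]
    refine Finset.sum_congr rfl fun b _ => ?_
    have := Real.mul_self_sqrt (hB.nonneg b g)
    linear_combination (χ k g * χ k g) * this
  have hge : ∀ k g, (1 / 2) * (χ k g * χ k g) ≤
      ∑ b ∈ B, χ k g * Real.sqrt (μ b g) * (χ k g * Real.sqrt (μ b g)) := by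
    intro k g
    rw [hsum]
    have h1 := hB.sum_ge g
    have h2 : min (ε / 8) (1 / 2) ≤ 1 / 2 := min_le_right _ _
    have h3 := (hsqb k g).1
    nlinarith
  have hle : ∀ k g, |∑ b ∈ B, χ k g * Real.sqrt (μ b g) * (χ k g * Real.sqrt (μ b g))| ≤ 1 := by
    intro k g
    have h1 := hge k g
    have h3 := (hsqb k g).1
    rw [abs_of_nonneg (by linarith), hsum]
    exact mul_le_one₀ (hsqb k g).2 (Finset.sum_nonneg fun b _ => hB.nonneg b g) (hB.sum_le g)
  have hb2 : ∀ k g, |(1 / 2 : ℝ) * (χ k g * χ k g)| ≤ 1 := fun k g => by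
    rw [abs_of_nonneg (mul_nonneg (by norm_num) (hsqb k g).1)]
    have := (hsqb k g).2
    linarith
  have hb3 : ∀ k g, |χ k g * χ k g| ≤ 1 := fun k g => by
    rw [abs_of_nonneg (hsqb k g).1]
    exact (hsqb k g).2
  have h1 := massX_spec (U := U) (z := z) hR (χ := fun k g =>
    ∑ b ∈ B, χ k g * Real.sqrt (μ b g) * (χ k g * Real.sqrt (μ b g))) (C := 1) hle v
  have h2 := massX_inv hR U z v (fun k => hz k v hv) (fun k g => χ k g * χ k g) hsqb
    (usm_sq hχ)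
  have h3 : Tendsto (fun k => (1 / 2 : ℝ) * (c + (massX Bs R (z k * v) (fun g => χ k g * χ k g) -
      massX Bs R (z k) (fun g => χ k g * χ k g)))) U (𝓝 ((1 / 2) * (c + 0))) :=
    (h2.const_add c).const_mul _
  have h4 : (1 / 2 : ℝ) * (c + 0) = c / 2 := by ring
  rw [h4] at h3
  refine le_of_tendsto_of_tendsto h3 h1 ?_
  filter_upwards [hpos] with k hk
  have h5 := massX_mono Bs R (z k * v) (fun g => (1 / 2 : ℝ) * (χ k g * χ k g)) (fun g =>
    ∑ b ∈ B, χ k g * Real.sqrt (μ b g) * (χ k g * Real.sqrt (μ b g))) 1 (hb2 k) (hle k) (hge k)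
  rw [massX_smul Bs R (z k * v) (fun g => χ k g * χ k g) 1 (1 / 2) (hb3 k)] at h5
  linarith

end conf

section emb

open Vale.Agent.P092.L.H553 (Emb)

variable {G3 : Type} [Group G3] [Emb G3] {ι H D : Type} [Group D] [Fintype ι]
  [NormedAddCommGroup H] [InnerProductSpace ℂ H] [CompleteSpace H] {Bs : Base G3 ι H} {t : ℝ}
  {R : D → (H →L[ℂ] H)}

/-- Confinement in the abstract row model. -/
theorem t_conf (hR : TRep Bs t R) {E : Set D → (H →L[ℂ] H)} (hE : EFamT Bs R E)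
    (K : Subgroup D) (hK : ¬ ∃ m, H200.IsInvMean K m) {ε : ℝ} (hε : 0 < ε) :
    ∃ r : ℝ, ∀ w : D, (∀ v ∈ K, w * v = v * w) →
      Real.sqrt (∑ i : ι, ‖Bs.mp (ind fun g : G3 => L.H553.Reg r g) (R w (Bs.ep i))‖ ^ 2) ≤ ε := by
  classical
  by_contra hcon
  push Not at hcon
  choose w hw1 hw2 using fun k : ℕ => hcon (k : ℝ)
  obtain ⟨χ, hχ1, hχ2, hχ3, hχ4⟩ := L.H428.cutoff (G3 := G3)
  obtain ⟨U, hU⟩ : ∃ U : Ultrafilter ℕ, (U : Filter ℕ) ≤ atTop :=
    ⟨hyperfilter ℕ, Nat.hyperfilter_le_atTop⟩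
  have hcut : CutOff (Γ := G3) U (fun k g => χ k (g : G3)) := by
    refine ⟨fun k g => (hχ1 k _).1, fun k g => (hχ1 k _).2, fun s δ hδ => ?_, fun t δ hδ => ?_⟩
    · filter_upwards [hU (hχ4 (s : G3) 1 δ hδ)] with k hk g
      have := hk (g : G3)
      rw [mul_one] at this
      exact this
    · filter_upwards [hU (hχ4 1 (t : G3) δ hδ)] with k hk g
      have := hk (g : G3)
      rw [one_mul] at this
      exact this
  haveI : Countable G3 := L.H538.countable_emb G3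
  refine hK (t_mean_of_mass (z := w) hR hE hcut K (fun k v hv => hw1 k v hv)
    (fun S ε' hε' => ?_) (c := ε ^ 2) (by positivity) (Eventually.of_forall fun k => ?_))
  · obtain ⟨B, μ, R', h1, h2, h3, h4, h5, h6⟩ := L.H658.amen_fun S hε'
    refine ⟨B, μ, h1, h2, h3, h4, fun s hs => ?_, fun b t δ hδ => ?_⟩
    · filter_upwards [hU (hχ3 R')] with k hk g hg
      exact h5 s hs g (hk _ hg)
    · obtain ⟨R'', hR''⟩ := h6 b t δ hδ
      filter_upwards [hU (hχ3 R'')] with k hk g hg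
      exact hR'' g (hk _ hg)
  · have h7 := (hw2 k).le
    have h0 : 0 ≤ ∑ i : ι, ‖Bs.mp (ind fun g : G3 => L.H553.Reg (k : ℝ) g)
        (R (w k) (Bs.ep i))‖ ^ 2 := Finset.sum_nonneg fun i _ => by positivity
    have h8 : ε ^ 2 ≤ ∑ i : ι, ‖Bs.mp (ind fun g : G3 => L.H553.Reg (k : ℝ) g)
        (R (w k) (Bs.ep i))‖ ^ 2 := by
      rw [← Real.sq_sqrt h0]
      gcongr
    refine h8.trans ?_
    have hb : ∀ g : G3, |χ k g| ≤ 1 := fun g => by
      rw [abs_of_nonneg (hχ1 k g).1]; exact (hχ1 k g).2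
    rw [massX_sq Bs R (w k) hb]
    refine Finset.sum_le_sum fun i _ => ?_
    refine pow_le_pow_left₀ (norm_nonneg _) ?_ 2
    refine Bs.norm_mp_le_mp (abs_ind_le _) hb (fun g => ?_) _
    by_cases hr : L.H553.Reg (k : ℝ) g
    · rw [ind_pos (P := fun g : G3 => L.H553.Reg (k : ℝ) g) hr, hχ2 k _ hr]
    · rw [ind_neg (P := fun g : G3 => L.H553.Reg (k : ℝ) g) hr, abs_zero]
      exact abs_nonneg _

end emb

end Vale.Agent.P092.H859
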