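import Vale.Agent.P092.H859.TGood
import Vale.Agent.P092.H859.TConfT
import Vale.Agent.P092.L.H859.WallEmb
import Vale.Agent.P092.H714.NEmb

/-!
P092 (helper859): Theorem N in the abstract row model: no group with a pair has a representation
over a group with a discrete embedding in `SL_3(ℝ)`.
-/

set_option linter.all false

open scoped InnerProductSpace
open Filter Topology ContinuousLinearMap

namespace Vale.Agent.P092.H859

open Vale.Agent.P092.H160 Vale.Agent.P092.H553 Vale.Agent.P092.H132 Vale.Agent.P092.H200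
open Vale.Agent.P092.H714

section

variable {Γ ι H D : Type} [Group Γ] [Group D] [Fintype ι] [NormedAddCommGroup H]
  [InnerProductSpace ℂ H] [CompleteSpace H] {B : Base Γ ι H} {t : ℝ} {R : D → (H →L[ℂ] H)}
  {Bd : Set H} {G12 G23 q : Γ → ℝ} {FF : Set (Γ → ℝ)}

theorem pi2_total_vertex (hR : TRep B t R) (hE : EscT B R) (hg : GeoA G12 G23 q FF)
    {A : Subgroup D} (hA : Vertex A) {z : ℕ → D} (hz : SeqInA A z) :
    Pi2T B Ufl R z q (fun _ => 1) = R 1 := by
  have h := pa_totalT hR hE Ufl z A hz.1 (fun k v hv => hA.2 _ (hz.1 k) _ hv) hz.2 q hg.q_mem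
    hg.q_inv hg.q_tr
  unfold Pi2T
  simp only [mul_one]
  exact h

theorem goodT (hR : TRep B t R) (hE : EscT B R) (hS : SepT B R Bd) (hg : GeoA G12 G23 q FF)
    {K0 K1 A : Subgroup D} (hc : ConfT B R G12 G23 K0)
    (hcom : ∀ u ∈ K1, ∀ v ∈ K0, u * v = v * u) (hA : Vertex A)
    (hAK : A ≤ K1) {z : ℕ → D} (hz : SeqInA A z) :
    GoodT B G12 G23 FF R K1 (Pi2T B Ufl R z q) := by
  have hone := pi2_total_vertex hR hE hg hA hz
  have hq0 : ∀ g, 0 ≤ q g := fun g => (hg.q_mem g).1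
  have hb : ∀ {F : Γ → ℝ} {C : ℝ}, (∀ g, |F g| ≤ C) → ∀ (g : Γ), |q g * F g| ≤ C := by
    intro F C hF g
    rw [abs_mul]
    exact (mul_le_of_le_one_left (abs_nonneg _) (hg.abs_q g)).trans (hF g)
  have hzz : ∀ k, ∀ v ∈ K0, z k * v = v * z k := fun k v hv => hcom _ (hAK (hz.1 k)) v hv
  refine ⟨hone, ?_, ?_, ?_, ?_, ?_, ?_, ?_, ?_, ?_, ?_, ?_⟩
  · intro s F C hF
    exact pi2_sumT hR s F (C := C) fun b g => hb (hF b) g
  · intro c d F G C hF hG
    have hcF : ∀ g, |c * F g| ≤ |c| * C := fun g => by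
      rw [abs_mul]; exact mul_le_mul_of_nonneg_left (hF g) (abs_nonneg _)
    have hdG : ∀ g, |d * G g| ≤ |d| * C := fun g => by
      rw [abs_mul]; exact mul_le_mul_of_nonneg_left (hG g) (abs_nonneg _)
    rw [pi2_addT hR (F := fun g => c * F g) (G := fun g => d * G g) (hb hcF) (hb hdG),
      pi2_smulT hR c (hb hF), pi2_smulT hR d (hb hG)]
  · intro F G C D hF hG h ξ
    exact pi2_monoT hR hq0 (hb hF) (hb hG) h ξ
  · intro F hF ξ η
    exact pi2_symT hR (hb hF) ξ η
  · intro F hF ξ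
    exact pi2_ksT hR hg.q_mem hone hF ξ
  · intro F hF s ξ
    have hbs : ∀ (k : ℕ) (g : Γ), |q g * F (s * g)| ≤ 1 := fun _ g => hb (fun g => hF (s * g)) g
    have hD : Tendsto (fun g : Γ => q (s⁻¹ * g) * F g - q g * F g) cofinite (𝓝 0) := by
      have h1 := (hg.q_tr s⁻¹ 1).abs
      rw [abs_zero] at h1
      refine squeeze_zero_norm (fun g => ?_) h1
      rw [Real.norm_eq_abs, ← sub_mul, abs_mul, mul_one]
      exact mul_le_of_le_one_right (abs_nonneg _) (hF g)
    have hDb : ∀ g : Γ, |q (s⁻¹ * g) * F g - q g * F g| ≤ 1 + 1 := fun g =>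
      (abs_sub _ _).trans (add_le_add (abs_mul_le_oneA (hg.abs_q _) (hF _))
        (abs_mul_le_oneA (hg.abs_q _) (hF _)))
    have hs1 := smallT hR hE hz.2 hDb hD
    have hs2 := smallT hR hE hz.inv hDb hD
    unfold Pi2T
    rw [add_apply, add_apply, map_add,
      pa_lx hR (F' := fun _ g => q g * F g) hbs (fun _ => hb hF) s
        (by simpa only [mul_inv_cancel_left] using hs1),
      pa_lx hR (F' := fun _ g => q g * F g) hbs (fun _ => hb hF) s
        (by simpa only [mul_inv_cancel_left] using hs2)]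
  · intro f1 f hH hf
    exact mulT hR hS Ufl z z hg.q_mem (hg.mem f1 hH) hf hone
      (fun s a ha i s' a' ha' i' => far_of_confT hR hE hg hc hzz hzz hz.2 hz.2 hH s ha i s' ha' i')
  · intro f1 hH u hu
    exact comm_FFT hR hE hS hg hc hzz hz.2 hone hH u (fun v hv => hcom u hu v hv)
  · intro F C hF
    exact ⟨pi2_mul_oneT hR (hb hF), pi2_one_mulT hR (hb hF)⟩
  · intro F C hF a ha
    exact pi2_scT hR (hb hF) ha
  · intro s a ha i ε hε
    obtain ⟨r0, hr3, hr⟩ := mass_leT (U := Ufl) hR hE hS hg hc s ha i hε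
    exact ⟨r0, fun r hr0 M hM u hu => hr r hr0 M hM z hzz hz.2 u (fun v hv => hcom u hu v hv)⟩

end

section

variable {G3 : Type} [Group G3] [L.H553.Emb G3] {ι H D : Type} [Group D] [Fintype ι]
  [NormedAddCommGroup H] [InnerProductSpace ℂ H] [CompleteSpace H] {B : Base G3 ι H} {t : ℝ}
  {R : D → (H →L[ℂ] H)} {Bd : Set H} {E : Set D → (H →L[ℂ] H)}

theorem mean_T (hR : TRep B t R) (hE : EFamT B R E) (hesc : EscT B R) (hS : SepT B R Bd)
    {K0 K1 A : Subgroup D} (hK0 : NoMean K0) (hcom : ∀ v ∈ K0, ∀ w ∈ K1, v * w = w * v)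
    (hA : Vertex A) (hAK : A ≤ K1) : ∃ m : Set D → ℝ, H200.IsInvMean K1 m := by
  classical
  haveI : Countable G3 := L.H538.countable_emb G3
  obtain ⟨z, hz⟩ := exists_seqInA hA.1
  have hgood := goodT hR hesc hS (L.H553.geoA_emb (G3 := G3)) (confT hR hE hK0)
    (fun u hu v hv => (hcom v hv u hu).symm) hA hAK hz
  exact mean_of_goodT hR hE K1 _ hgood L.H859.wallFun_emb

/-- No group with a pair is represented over a group with a discrete embedding in `SL_3(ℝ)`. -/
theorem no_trep_of_pair (hΛ : Pair D) (hR : TRep B t R) (hE : EFamT B R E) (hesc : EscT B R)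
    (hS : SepT B R Bd) : False := by
  obtain ⟨K0, K1, A, h0, h1, hc, hA, hAK⟩ := hΛ
  exact h1 (mean_T hR hE hesc hS h0 hc hA hAK)

end

end Vale.Agent.P092.H859
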