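import Vale.Agent.P092.H859.TFin
import Vale.Agent.P092.H714.TSepI

/-!
P092 (helper859): Theorem N for induced representations: a group with a pair has no measure
equivalence datum with a group represented over a discrete subgroup of `SL_3(ℝ)`.
-/

set_option linter.all false

open scoped InnerProductSpace
open Filter Topology ContinuousLinearMap MeasureTheory

namespace Vale.Agent.P092.H859

open Vale.Agent.P092.H160 Vale.Agent.P092.H432
open Vale.Agent.P092.H790 (MEData)

theorem no_arep_me {G3 D Λ ι : Type} [Group G3] [L.H553.Emb G3] [Group D] [Group Λ]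
    [Countable D] [Countable Λ] [Fintype ι] (m : MEData D Λ) (hD : Pair D) {t : ℝ}
    {R : Λ → (Ell2 (G3 × ι) →L[ℂ] Ell2 (G3 × ι))} : ¬ ARep t R := by
  intro hR
  haveI : Countable G3 := L.H538.countable_emb G3
  obtain ⟨E, hE⟩ := t_efam m hR
  exact no_trep_of_pair hD (H790.trep m.toC hR) hE (H714.escT_ind m hR) (H714.sepT_ind m.toC hR)

end Vale.Agent.P092.H859
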