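import Vale.Agent.P092.H132.TRep

/-!
P092 (helper859): `Π_z(q) + Π_{z⁻¹}(q) = R 1` in the abstract row model, for sequences `z` in an
abelian group (port of block [S3] of helper967).
-/

set_option linter.all false

open scoped InnerProductSpace
open Filter Topology ContinuousLinearMap

namespace Vale.Agent.P092.H859

open Vale.Agent.P092.H160 Vale.Agent.P092.H553 Vale.Agent.P092.H132

variable {Γ ι H D : Type} [Group Γ] [Group D] [Fintype ι] [NormedAddCommGroup H]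
  [InnerProductSpace ℂ H] [CompleteSpace H] {B : Base Γ ι H} {t : ℝ} {R : D → (H →L[ℂ] H)}

/-- The exchange identity behind `J q J = 1 - q`, for the normaliser. -/
theorem t_exchange {S T : H →L[ℂ] H} (hS : B.RA S) (hT : NR B T) {q : Γ → ℝ} {C : ℝ}
    (hq : ∀ g, |q g| ≤ C) :
    ∑ i, ⟪(S * T) (B.ep i), B.mp q (T (B.ep i))⟫_ℂ =
      ∑ i, ⟪adjoint T (B.ep i), B.mp (fun g => q g⁻¹) (adjoint (S * T) (B.ep i))⟫_ℂ := by
  obtain ⟨X, K, hX, hK, rfl⟩ := hT
  have h1 : ∀ i, ⟪(S * (X * K)) (B.ep i), B.mp q ((X * K) (B.ep i))⟫_ℂ =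
      ⟪adjoint (adjoint X * adjoint S) (B.ep i), B.mp q (X (B.ep i))⟫_ℂ := by
    intro i
    rw [adj_mul, adj_adj, adj_adj, mul_ap, mul_ap, hK.ep, ← mul_ap]
  have h2 : ∀ i, ⟪adjoint (X * K) (B.ep i), B.mp (fun g => q g⁻¹)
      (adjoint (S * (X * K)) (B.ep i))⟫_ℂ =
      ⟪adjoint X (B.ep i), B.mp (fun g => q g⁻¹) ((adjoint X * adjoint S) (B.ep i))⟫_ℂ := by
    intro i
    have e1 : adjoint (S * (X * K)) = adjoint K * (adjoint X * adjoint S) := by
      rw [← mul_assoc, adj_mul, adj_mul]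
    have e2 : K * B.mp (fun g => q g⁻¹) * adjoint K = B.mp (fun g => q g⁻¹) := by
      rw [hK.mp (fun g => hq g⁻¹), mul_assoc, hK.right, mul_one]
    rw [e1, adj_mul, mul_ap, mul_ap, adjoint_inner_left, ← mul_ap (B.mp _), ← mul_ap K,
      ← mul_assoc, e2]
  simp only [h1, h2]
  exact B.exch (hX.adj.mul hS.adj) hX hq

/-- `Π_z(q) + Π_{z⁻¹}(q) = R 1` in the abstract row model. -/
theorem t_total (hR : TRep B t R) (U : Ultrafilter ℕ) (z : ℕ → D)
    (C : Subgroup D) (hzC : ∀ k, z k ∈ C) (hz : ∀ k, ∀ v ∈ C, z k * v = v * z k)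
    (hE : B.EscA U R z) (hE' : B.EscA U R (fun k => (z k)⁻¹)) (q : Γ → ℝ)
    (hq : ∀ g, 0 ≤ q g ∧ q g ≤ 1) (hq1 : ∀ g, q g⁻¹ = 1 - q g)
    (hq2 : ∀ s t, Tendsto (fun g => q (s * g * t) - q g) cofinite (𝓝 0)) :
    B.PiA U R z (fun _ => q) + B.PiA U R (fun k => (z k)⁻¹) (fun _ => q) = R 1 := by
  have hqb : ∀ g, |q g| ≤ 1 := fun g => by
    rw [abs_le]; constructor <;> linarith [(hq g).1, (hq g).2]
  have hqb' : ∀ g, |1 - q g| ≤ 1 := fun g => by
    rw [abs_le]; constructor <;> linarith [(hq g).1, (hq g).2]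
  have hql : ∀ s : Γ, Tendsto (fun g => q (s * g) - q g) cofinite (𝓝 0) := fun s => by
    simpa using hq2 s 1
  have hqr : ∀ t : Γ, Tendsto (fun g => q (g * t) - q g) cofinite (𝓝 0) := fun t => by
    simpa using hq2 1 t
  have hql' : ∀ s : Γ, Tendsto (fun g => (1 - q (s * g)) - (1 - q g)) cofinite (𝓝 0) := fun s => by
    have := (hql s).neg
    rw [neg_zero] at this
    exact this.congr fun g => by ring
  have hqr' : ∀ t : Γ, Tendsto (fun g => (1 - q (g * t)) - (1 - q g)) cofinite (𝓝 0) := fun t => by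
    have := (hqr t).neg
    rw [neg_zero] at this
    exact this.congr fun g => by ring
  have hb2 : ∀ (D : Γ → ℝ), (∀ g, |D g| ≤ 1) → ∀ g h, |D g - D h| ≤ 1 + 1 := fun D hD g h =>
    (abs_sub _ _).trans (add_le_add (hD _) (hD _))
  obtain ⟨T, hT⟩ : ∃ T, T = B.PiA U R (fun k => (z k)⁻¹) (fun _ => q) := ⟨_, rfl⟩
  obtain ⟨T', hT'⟩ : ∃ T', T' = B.PiA U R z (fun _ g => 1 - q g) := ⟨_, rfl⟩
  have hTl : B.RA T := by
    rw [hT]
    exact pa_ra hR (fun _ => hqb) fun s =>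
      smallA_of_tendsto hR hE' (fun g => hb2 q hqb _ _) (hql s)
  have hTl' : B.RA T' := by
    rw [hT']
    exact pa_ra hR (F := fun _ g => 1 - q g) (fun _ => hqb') fun s =>
      smallA_of_tendsto hR hE (fun g => hb2 (fun g => 1 - q g) hqb' _ _) (hql' s)
  have hzi : ∀ k, ∀ v ∈ C, (z k)⁻¹ * v = v * (z k)⁻¹ := by
    intro k v hv
    rw [inv_mul_eq_iff_eq_mul, ← mul_assoc, hz k v hv, mul_assoc, mul_inv_cancel, mul_one]
  have hTc : ∀ v ∈ C, T * R v = R v * T := by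
    intro v hv
    rw [hT]
    exact pa_comm hR (fun _ => hqb) v (fun k => hzi k v hv) fun s =>
      smallA_of_tendsto hR hE' (fun g => hb2 q hqb _ _) (hqr s)
  have hTc' : ∀ v ∈ C, T' * R v = R v * T' := by
    intro v hv
    rw [hT']
    exact pa_comm hR (F := fun _ g => 1 - q g) (fun _ => hqb') v (fun k => hz k v hv) fun s =>
      smallA_of_tendsto hR hE (fun g => hb2 (fun g => 1 - q g) hqb' _ _) (hqr' s)
  -- the key computation
  have hkey : ∀ S : H →L[ℂ] H, B.RA S → (∀ v ∈ C, S * R v = R v * S) →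
      B.trA (adjoint S * T) = B.trA (adjoint S * T') := by
    intro S hS hSc
    have hl : Tendsto (fun k => ∑ i, ⟪R (z k)⁻¹ (S (B.ep i)), B.mp q (R (z k)⁻¹ (B.ep i))⟫_ℂ) U
        (𝓝 (B.trA (adjoint S * T))) := by
      have h1 := tendsto_finsetSum Finset.univ fun i (_ : i ∈ Finset.univ) =>
        pa_spec (U := U) (z := fun k => (z k)⁻¹) (F := fun _ => q) hR (fun _ => hqb)
          (S (B.ep i)) (B.ep i)
      have h2 : B.trA (adjoint S * T) = ∑ i, ⟪S (B.ep i),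
          B.PiA U R (fun k => (z k)⁻¹) (fun _ => q) (B.ep i)⟫_ℂ := by
        rw [Base.trA, hT]
        refine Finset.sum_congr rfl fun i _ => ?_
        rw [mul_ap, adjoint_inner_right]
      rw [h2]
      exact h1
    have hr : Tendsto (fun k => ∑ i, ⟪R (z k) (B.ep i),
        B.mp (fun g => 1 - q g) (R (z k) (adjoint S (B.ep i)))⟫_ℂ) U
          (𝓝 (B.trA (adjoint S * T'))) := by
      have h1 := tendsto_finsetSum Finset.univ fun i (_ : i ∈ Finset.univ) =>
        pa_spec (U := U) (z := z) (F := fun _ g => 1 - q g) hR (fun _ => hqb')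
          (B.ep i) (adjoint S (B.ep i))
      have h2 : B.trA (adjoint S * T') = ∑ i, ⟪B.ep i,
          B.PiA U R z (fun _ g => 1 - q g) (adjoint S (B.ep i))⟫_ℂ := by
        rw [Base.trA_comm hS.adj hTl', Base.trA, hT']
        rfl
      rw [h2]
      exact h1
    refine tendsto_nhds_unique hl (hr.congr fun k => ?_)
    have hc : S * R (z k)⁻¹ = R (z k)⁻¹ * S := hSc _ (inv_mem (hzC k))
    have e1 : ∀ i, R (z k)⁻¹ (S (B.ep i)) = (S * R (z k)⁻¹) (B.ep i) := fun i => by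
      rw [hc]; rfl
    have e2 := t_exchange hS (hR.nr (z k)⁻¹) hqb
    have e3 : adjoint (S * R (z k)⁻¹) = R (z k) * adjoint S := by
      rw [adj_mul, hR.adj, inv_inv]
    have e4 : (fun g => q g⁻¹) = fun g => 1 - q g := by
      funext g; rw [hq1]
    rw [hR.adj, inv_inv, e3, e4] at e2
    simp only [e1]
    rw [e2]
    rfl
  have hTT : T = T' := by
    refine hTl.ext_tr hTl' (hkey _ (hTl.sub hTl') fun v hv => ?_)
    rw [sub_mul, mul_sub, hTc v hv, hTc' v hv]
  rw [← hT, hTT, hT', ← pa_add (F := fun _ => q) (F' := fun _ g => 1 - q g) hR (fun _ => hqb)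
    (fun _ => hqb')]
  have h6 : (fun (_ : ℕ) (g : Γ) => q g + (1 - q g)) = fun _ _ => (1 : ℝ) := by
    funext k g; ring
  rw [h6]
  exact pa_one hR

end Vale.Agent.P092.H859
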